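import Vale.Agent.P322.Tconvex

/-! Bounds on the tangent data `psiIcpt`, `psiChi` of `psiD`. -/

noncomputable section

namespace Vale.Agent.P322

open Real Set Topology Filter

lemma lcosh_ge_log_two (w : ℝ) : log 2 ≤ lcosh w :=
  log_le_log (by norm_num) (by linarith [one_le_cosh w])

lemma tanh_ge_cubic {w : ℝ} (h0 : 0 ≤ w) : w - w ^ 3 / 3 ≤ tanh w := by
  have hd : ∀ x : ℝ, HasDerivAt tanh (1 - tanh x ^ 2) x := fun x => by
    have h := (hasDerivAt_sinh x).fun_div (hasDerivAt_cosh x) (cosh_pos x).ne'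
    rw [show tanh = fun y => sinh y / cosh y from funext tanh_eq_sinh_div_cosh]
    refine h.congr_deriv ?_
    have := (cosh_pos x).ne'
    field_simp
  have hdd : ∀ y : ℝ, HasDerivAt (fun y => tanh y - (y - y ^ 3 / 3)) (y ^ 2 - tanh y ^ 2) y := by
    intro y
    refine ((hd y).sub ((hasDerivAt_id y).sub ((hasDerivAt_pow 3 y).div_const 3))).congr_deriv ?_
    norm_num <;> ring
  have t0 : ∀ x : ℝ, 0 ≤ x → 0 ≤ tanh x := fun x hx => by
    rw [tanh_eq_sinh_div_cosh]; exact div_nonneg (sinh_nonneg_iff.mpr hx) (cosh_pos x).le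
  have t1 : ∀ x : ℝ, 0 ≤ x → tanh x ≤ x := by
    intro x hx
    have := antitoneOn_of_hasDerivWithinAt_nonpos (convex_Ici (0:ℝ))
      (f := fun y => tanh y - y) (f' := fun y => 1 - tanh y ^ 2 - 1)
      (fun y _ => ((hd y).sub (hasDerivAt_id y)).continuousAt.continuousWithinAt)
      (fun y _ => ((hd y).sub (hasDerivAt_id y)).hasDerivWithinAt)
      (fun y _ => by nlinarith [sq_nonneg (tanh y)]) self_mem_Ici (show (0:ℝ) ≤ x from hx) hx
    simp at this
    linarith
  have := monotoneOn_of_hasDerivWithinAt_nonneg (convex_Ici (0:ℝ))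
    (fun y _ => (hdd y).continuousAt.continuousWithinAt)
    (fun y _ => (hdd y).hasDerivWithinAt)
    (fun y hy => by
      rw [interior_Ici] at hy
      have hy' : (0:ℝ) ≤ y := le_of_lt hy
      nlinarith [t0 y hy', t1 y hy']) self_mem_Ici (show (0:ℝ) ≤ w from h0) h0
  simp at this
  linarith

lemma lcosh_ge_poly {w : ℝ} (h0 : 0 ≤ w) : log 2 + w ^ 2 / 2 - w ^ 4 / 12 ≤ lcosh w := by
  have hd : ∀ y : ℝ, HasDerivAt (fun y => lcosh y - (log 2 + y ^ 2 / 2 - y ^ 4 / 12))
      (tanh y - (y - y ^ 3 / 3)) y := fun y => by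
    refine ((hasDerivAt_lcosh y).sub ((((hasDerivAt_pow 2 y).div_const 2).const_add (log 2)).sub
      ((hasDerivAt_pow 4 y).div_const 12))).congr_deriv ?_
    norm_num; ring
  have := monotoneOn_of_hasDerivWithinAt_nonneg (convex_Ici (0:ℝ))
    (fun y _ => (hd y).continuousAt.continuousWithinAt)
    (fun y _ => (hd y).hasDerivWithinAt)
    (fun y hy => by
      rw [interior_Ici] at hy
      linarith [tanh_ge_cubic (le_of_lt (show (0:ℝ) < y from hy))])
    self_mem_Ici (show (0:ℝ) ≤ w from h0) h0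
  have e0 : lcosh 0 = log 2 := by simp [lcosh]
  simp [e0] at this
  linarith

lemma auxN_ge {w : ℝ} (h0 : 0 ≤ w) (h1 : w ≤ 1) : log 2 - 0.1536 * w ^ 2 ≤ auxN w := by
  have hd : ∀ y : ℝ, HasDerivAt (fun y => auxN y - (log 2 - 0.1536 * y ^ 2))
      (lcosh y * sinh y - y * cosh y + 0.3072 * y) y := fun y => by
    refine ((hasDerivAt_auxN y).sub (((hasDerivAt_pow 2 y).const_mul (0.1536:ℝ)).const_sub
      (log 2))).congr_deriv ?_
    norm_num; ring
  have := monotoneOn_of_hasDerivWithinAt_nonneg (convex_Icc (0:ℝ) 1)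
    (fun y _ => (hd y).continuousAt.continuousWithinAt)
    (fun y _ => (hd y).hasDerivWithinAt)
    (fun y hy => by
      rw [interior_Icc] at hy
      obtain ⟨hs1, _, _, hc2⟩ := hyp_bounds hy.1.le hy.2.le
      have hl := lcosh_ge_poly hy.1.le
      have hl2 : 0.6931 ≤ log 2 := by linarith [log_two_gt_d9]
      set z := y ^ 2 with hz
      have hz0 : 0 ≤ z := sq_nonneg y
      have hz1 : z ≤ 1 := by rw [hz]; nlinarith [hy.1, hy.2]
      have e4 : y ^ 4 = z ^ 2 := by rw [hz]; ring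
      rw [e4] at hl
      have hb : 0 ≤ 0.6931 + z / 2 - z ^ 2 / 12 := by nlinarith
      have hprod : (0.6931 + z / 2 - z ^ 2 / 12) * (y * (1 + z / 6)) ≤ lcosh y * sinh y :=
        mul_le_mul (by linarith) hs1 (by have := hy.1.le; positivity) (lcosh_pos y).le
      have hcy := mul_le_mul_of_nonneg_left hc2 hy.1.le
      have key : 0 ≤ (0.6931 + z / 2 - z ^ 2 / 12) * (1 + z / 6) - (1 + z / 2 + z ^ 2 / 23)
          + 0.3072 := by
        nlinarith [mul_nonneg hz0 (sub_nonneg.mpr hz1),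
          mul_nonneg (mul_nonneg hz0 hz0) (sub_nonneg.mpr hz1)]
      nlinarith [mul_nonneg hy.1.le key])
    (left_mem_Icc.mpr zero_le_one) ⟨h0, h1⟩ h0
  have e0 : auxN 0 = log 2 := by simp [auxN, lcosh]
  simp [e0] at this
  linarith

lemma auxE_ge {w : ℝ} (h0 : 0 ≤ w) : w ^ 3 * (4 / 3 + 8 / 15 * w ^ 2) ≤ auxE w := by
  have hs : ∀ y : ℝ, 0 ≤ y → y + 2 * y ^ 3 / 3 ≤ sinh y * cosh y := by
    intro y hy
    have hd : ∀ x : ℝ, HasDerivAt (fun x => sinh x * cosh x - (x + 2 * x ^ 3 / 3))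
        (2 * sinh x ^ 2 - 2 * x ^ 2) x := fun x => by
      refine (((hasDerivAt_sinh x).fun_mul (hasDerivAt_cosh x)).sub
        ((hasDerivAt_id x).add (((hasDerivAt_pow 3 x).const_mul 2).div_const 3))).congr_deriv ?_
      have := cosh_sq x
      norm_num
      nlinarith
    have := monotoneOn_of_hasDerivWithinAt_nonneg (convex_Ici (0:ℝ))
      (fun x _ => (hd x).continuousAt.continuousWithinAt)
      (fun x _ => (hd x).hasDerivWithinAt)
      (fun x hx => by
        rw [interior_Ici] at hx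
        have hx' : (0:ℝ) ≤ x := le_of_lt hx
        nlinarith [self_le_sinh_iff.mpr hx']) self_mem_Ici (show (0:ℝ) ≤ y from hy) hy
    simp at this
    linarith
  have hd : ∀ y : ℝ, HasDerivAt (fun y => auxE y - y ^ 3 * (4 / 3 + 8 / 15 * y ^ 2))
      (4 * y * sinh y * cosh y - (4 * y ^ 2 + 8 / 3 * y ^ 4)) y := fun y => by
    refine ((hasDerivAt_auxE y).sub ((hasDerivAt_pow 3 y).fun_mul
      (((hasDerivAt_pow 2 y).const_mul (8/15:ℝ)).const_add (4/3:ℝ)))).congr_deriv ?_
    norm_num; ring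
  have := monotoneOn_of_hasDerivWithinAt_nonneg (convex_Ici (0:ℝ))
    (fun y _ => (hd y).continuousAt.continuousWithinAt)
    (fun y _ => (hd y).hasDerivWithinAt)
    (fun y hy => by
      rw [interior_Ici] at hy
      have hy' : (0:ℝ) ≤ y := le_of_lt hy
      nlinarith [mul_le_mul_of_nonneg_left (hs y hy') (show (0:ℝ) ≤ 4 * y by linarith)])
    self_mem_Ici (show (0:ℝ) ≤ w from h0) h0
  simp [auxE] at this
  simp only [auxE]
  linarith

lemma auxN_sq_mul_auxE_ge {w : ℝ} (h0 : 0 ≤ w) : w ^ 3 / 2 ≤ auxN w ^ 2 * auxE w := by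
  rcases le_or_gt w 1 with h | h
  · have hN := auxN_ge h0 h
    have hE := auxE_ge h0
    have hl2 : 0.6931 ≤ log 2 := by linarith [log_two_gt_d9]
    set z := w ^ 2 with hz
    have hz0 : 0 ≤ z := sq_nonneg w
    have hz1 : z ≤ 1 := by rw [hz]; nlinarith
    have key : (1:ℝ) / 2 ≤ (0.6931 - 0.1536 * z) ^ 2 * (4 / 3 + 8 / 15 * z) := by
      nlinarith [mul_nonneg hz0 (sub_nonneg.mpr hz1),
        mul_nonneg (mul_nonneg hz0 hz0) (sub_nonneg.mpr hz1)]
    calc w ^ 3 / 2 = w ^ 3 * (1 / 2) := by ring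
      _ ≤ w ^ 3 * ((0.6931 - 0.1536 * z) ^ 2 * (4 / 3 + 8 / 15 * z)) :=
          mul_le_mul_of_nonneg_left key (pow_nonneg h0 3)
      _ = (0.6931 - 0.1536 * z) ^ 2 * (w ^ 3 * (4 / 3 + 8 / 15 * z)) := by ring
      _ ≤ auxN w ^ 2 * auxE w :=
          mul_le_mul (pow_le_pow_left₀ (by linarith) (by linarith) 2) hE
            (by positivity) (sq_nonneg _)
  · set q := exp (-(2 * w)) with hq
    have hq0 : 0 < q := exp_pos _
    have hq1 : q ≤ 1 := exp_le_one_iff.mpr (by linarith)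
    set E := exp w with hE
    have hE0 : 0 < E := exp_pos _
    have hqE : E * E * q = 1 := by
      rw [hE, hq, ← exp_add, ← exp_add]; simp; ring
    have hem : exp (-w) = E * q := by
      rw [hE, hq, ← exp_add]; congr 1; ring
    have hs : sinh w = E * (1 - q) / 2 := by rw [sinh_eq, hem, ← hE]; ring
    have hc : cosh w = E * (1 + q) / 2 := by rw [cosh_eq, hem, ← hE]; ring
    have hL : lcosh w = w + log (1 + q) := by
      rw [lcosh, hc, show 2 * (E * (1 + q) / 2) = E * (1 + q) by ring,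
        log_mul hE0.ne' (by linarith), hE, log_exp]
    have hl : q ≤ (1 + q) * log (1 + q) := by
      have := one_sub_inv_le_log_of_pos (show 0 < 1 + q by linarith)
      calc q = (1 + q) * (1 - (1 + q)⁻¹) := by field_simp; ring
        _ ≤ _ := mul_le_mul_of_nonneg_left this (by linarith)
    have hN : E * q * (w + 1 / 2) ≤ auxN w := by
      rw [auxN, hL, hc, hs]
      nlinarith [mul_le_mul_of_nonneg_left hl hE0.le]
    have hEe : auxE w = E * E * (w * (1 + q ^ 2) / 2 - (1 - q ^ 2) / 4) := by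
      rw [auxE, hs, hc]; ring
    have hB : w / 2 - 1 / 4 ≤ w * (1 + q ^ 2) / 2 - (1 - q ^ 2) / 4 := by nlinarith [sq_nonneg q]
    have hB0 : 0 ≤ E * E * (w / 2 - 1 / 4) := mul_nonneg (mul_self_nonneg E) (by linarith)
    calc w ^ 3 / 2 ≤ (w + 1 / 2) ^ 2 * (w / 2 - 1 / 4) := by nlinarith
      _ = (E * q * (w + 1 / 2)) ^ 2 * (E * E * (w / 2 - 1 / 4)) := by
          calc _ = (E * E * q) ^ 2 * ((w + 1 / 2) ^ 2 * (w / 2 - 1 / 4)) := by
                rw [hqE]; ring
            _ = _ := by ring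
      _ ≤ auxN w ^ 2 * auxE w := by
          rw [hEe]
          exact mul_le_mul (pow_le_pow_left₀ (by positivity) hN 2)
            (mul_le_mul_of_nonneg_left hB (mul_self_nonneg E)) hB0 (sq_nonneg _)

/-- The lower curvature bound. -/
theorem half_le_psiSlope'_mul_ent_sq {r : ℝ} (hr : r ∈ Ioo (0:ℝ) 1) :
    artanh r / 2 ≤ psiSlope' r * ent r ^ 2 := by
  obtain ⟨w, hw⟩ : ∃ w, w = artanh r := ⟨_, rfl⟩
  have hw0 : 0 < w := hw ▸ artanh_pos hr
  have hr' : r = tanh w := by rw [hw, tanh_artanh ⟨by linarith [hr.1], hr.2⟩]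
  have key := auxN_sq_mul_auxE_ge hw0.le
  have hc := cosh_pos w
  have hid : psiSlope' r * ent r ^ 2 = auxN w ^ 2 * auxE w / w ^ 2 := by
    unfold psiSlope'
    rw [← hw, hr', ent_tanh, auxN, auxE, tanh_eq_sinh_div_cosh]
    have hcs := cosh_sq w
    have h1 : (1:ℝ) - (sinh w / cosh w) ^ 2 = 1 / cosh w ^ 2 := by
      field_simp; linarith
    rw [h1]
    field_simp
  rw [hid, ← hw, le_div_iff₀ (by positivity)]
  linarith

lemma psiChi_nonneg {r : ℝ} (hr : r ∈ Ioo (0:ℝ) 1) : 0 ≤ psiChi r := by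
  have h := psiD_tangent hr log_two_pos'
  rw [psiD_log_two] at h
  unfold psiChi psiIcpt
  linarith

lemma hasDerivAt_psiIcpt_mul {r : ℝ} (hr : r ∈ Ioo (0:ℝ) 1) :
    HasDerivAt psiIcpt (psiSlope' r * ent r) r := by
  have hr' : r ∈ Ioo (-1:ℝ) 1 := ⟨by linarith [hr.1], hr.2⟩
  refine (((hasDerivAt_id r).fun_mul (hasDerivAt_artanh hr')).add
    ((hasDerivAt_psiSlope hr).fun_mul (hasDerivAt_ent hr'))).congr_deriv ?_
  have hne : (1:ℝ) - r ^ 2 ≠ 0 := by nlinarith [hr.1, hr.2]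
  have := (artanh_pos hr).ne'
  simp only [id, psiSlope]
  field_simp
  ring

lemma psiIcpt_mono : MonotoneOn psiIcpt (Ioo (0:ℝ) 1) :=
  monotoneOn_of_hasDerivWithinAt_nonneg (convex_Ioo _ _)
    (fun x hx => (hasDerivAt_psiIcpt_mul hx).continuousAt.continuousWithinAt)
    (fun x hx => (hasDerivAt_psiIcpt_mul (interior_subset hx)).hasDerivWithinAt)
    (fun x hx => mul_nonneg (psiSlope'_nonneg (interior_subset hx))
      (ent_pos ⟨by linarith [(interior_subset hx : x ∈ Ioo (0:ℝ) 1).1],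
        (interior_subset hx : x ∈ Ioo (0:ℝ) 1).2⟩).le)

/-- `α ≥ 2 log 2 + log (log 2 / H) / 2`. -/
lemma psiIcpt_ge_log {r : ℝ} (hr : r ∈ Ioo (0:ℝ) 1) :
    2 * log 2 + (log (log 2) - log (ent r)) / 2 ≤ psiIcpt r := by
  have hd : ∀ x ∈ Ioo (0:ℝ) 1, HasDerivAt (fun x => psiIcpt x + log (ent x) / 2)
      (psiSlope' x * ent x - artanh x / ent x / 2) x := by
    intro x hx
    have hx' : x ∈ Ioo (-1:ℝ) 1 := ⟨by linarith [hx.1], hx.2⟩
    refine ((hasDerivAt_psiIcpt_mul hx).add (((hasDerivAt_ent hx').log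
      (ent_pos hx').ne').div_const 2)).congr_deriv ?_
    ring
  have hm : MonotoneOn (fun x => psiIcpt x + log (ent x) / 2) (Ioo (0:ℝ) 1) :=
    monotoneOn_of_hasDerivWithinAt_nonneg (convex_Ioo _ _)
      (fun x hx => (hd x hx).continuousAt.continuousWithinAt)
      (fun x hx => (hd x (interior_subset hx)).hasDerivWithinAt)
      (fun x hx => by
        have hx0 : x ∈ Ioo (0:ℝ) 1 := interior_subset hx
        have he : 0 < ent x := ent_pos ⟨by linarith [hx0.1], hx0.2⟩
        rw [sub_nonneg, div_div, div_le_iff₀ (by positivity)]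
        linarith [half_le_psiSlope'_mul_ent_sq hx0])
  have hT : Tendsto (fun x => 2 * ent x + log (ent x) / 2) (𝓝[>] 0)
      (𝓝 (2 * log 2 + log (log 2) / 2)) := by
    have hc : ContinuousAt (fun x => 2 * ent x + log (ent x) / 2) 0 :=
      (ent_continuous.continuousAt.const_mul 2).add
        ((ent_continuous.continuousAt.log (by rw [ent_zero]; exact log_two_pos'.ne')).div_const 2)
    have := hc.tendsto
    rw [ent_zero] at this
    exact this.mono_left nhdsWithin_le_nhds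
  have hle : 2 * log 2 + log (log 2) / 2 ≤ psiIcpt r + log (ent r) / 2 := by
    refine le_of_tendsto hT ?_
    filter_upwards [Ioo_mem_nhdsGT hr.1] with x hx
    have hx' : x ∈ Ioo (0:ℝ) 1 := ⟨hx.1, lt_trans hx.2 hr.2⟩
    have h1 := hm hx' hr hx.2.le
    have h2 : 2 * ent x ≤ psiIcpt x := by
      have := mul_le_mul_of_nonneg_right (two_le_psiSlope hx')
        (ent_pos ⟨by linarith [hx'.1], hx'.2⟩).le
      have := mul_nonneg hx'.1.le (artanh_pos hx').le
      unfold psiIcpt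
      linarith
    simp only at h1
    linarith
  linarith

end Vale.Agent.P322
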