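import Vale.Agent.P322.KLemma

/-! The sharp cross bound of regime 1: the plane through an atom `(a₀, b₀)` and the corner `(1,1)`.

Coordinates for a pair `(a, b)`: `z = artanh a + artanh b`, `W = (artanh a - artanh b) / 2`. -/

noncomputable section

namespace Vale.Agent.P322.JStar

open Real Set

/-- `log (2 cosh z + 2 cosh 2W)`. -/
def lam (W z : ℝ) : ℝ := log (2 * cosh z + 2 * cosh (2 * W))

/-- `exp z * (lam - z)`. -/
def qf (W z : ℝ) : ℝ := exp z * (lam W z - z)

/-- The level whose crossing gives the minimum in `z`. -/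
def chi (W z : ℝ) : ℝ := qf W z * sinh z - z

/-- The denominator of the critical ratio. -/
def den (W z : ℝ) : ℝ := qf W z * (cosh z + cosh (2 * W))

/-- The critical ratio. -/
def rat (W z : ℝ) : ℝ := sinh (2 * W) ^ 2 / den W z

/-- The normalised gap. -/
def gap (p R k W z : ℝ) : ℝ :=
  W - R - k * W + (p * (exp (-z) + cosh (2 * W))
    + k * (lam W z * (cosh z + cosh (2 * W)) - z * sinh z) / 2) / sinh (2 * W)

lemma cosh_add_pos (W z : ℝ) : 0 < cosh z + cosh (2 * W) := add_pos (cosh_pos z) (cosh_pos _)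

lemma lam_arg (W z : ℝ) : 0 < 2 * cosh z + 2 * cosh (2 * W) := by
  linarith [cosh_add_pos W z]

lemma hasDerivAt_lam_z (W z : ℝ) :
    HasDerivAt (lam W) (sinh z / (cosh z + cosh (2 * W))) z := by
  refine ((((hasDerivAt_cosh z).const_mul 2).add_const (2 * cosh (2 * W))).log
    (lam_arg W z).ne').congr_deriv ?_
  have := cosh_add_pos W z
  field_simp

lemma hasDerivAt_lam_W (W z : ℝ) :
    HasDerivAt (fun w => lam w z) (2 * sinh (2 * W) / (cosh z + cosh (2 * W))) W := by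
  refine (((((hasDerivAt_id' W).const_mul 2).cosh.const_mul 2).const_add (2 * cosh z)).log
    (lam_arg W z).ne').congr_deriv ?_
  have := cosh_add_pos W z
  field_simp

lemma exp_eq_add (z : ℝ) : exp z = cosh z + sinh z := (cosh_add_sinh z).symm

lemma exp_neg_eq_sub (z : ℝ) : exp (-z) = cosh z - sinh z := (cosh_sub_sinh z).symm

lemma hasDerivAt_qf_z (W z : ℝ) : HasDerivAt (qf W)
    (qf W z - (1 + cosh (2 * W) * exp z) / (cosh z + cosh (2 * W))) z := by
  refine ((hasDerivAt_exp z).fun_mul ((hasDerivAt_lam_z W z).fun_sub (hasDerivAt_id' z))).congr_deriv ?_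
  have := cosh_add_pos W z
  unfold qf
  field_simp
  rw [exp_eq_add]
  linear_combination (-1 : ℝ) * cosh_sq z

lemma hasDerivAt_qf_W (W z : ℝ) : HasDerivAt (fun w => qf w z)
    (exp z * (2 * sinh (2 * W) / (cosh z + cosh (2 * W)))) W :=
  ((hasDerivAt_lam_W W z).sub_const z).const_mul (exp z)

lemma hasDerivAt_chi_z (W z : ℝ) : HasDerivAt (chi W)
    (exp z * (qf W z - (1 + cosh z * cosh (2 * W)) / (cosh z + cosh (2 * W)))) z := by
  refine (((hasDerivAt_qf_z W z).fun_mul (hasDerivAt_sinh z)).fun_sub (hasDerivAt_id' z)).congr_deriv ?_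
  have := cosh_add_pos W z
  field_simp
  rw [exp_eq_add]
  linear_combination (cosh (2 * W)) * cosh_sq z

lemma hasDerivAt_chi_W (W z : ℝ) : HasDerivAt (fun w => chi w z)
    (exp z * (2 * sinh (2 * W) / (cosh z + cosh (2 * W))) * sinh z) W :=
  ((hasDerivAt_qf_W W z).mul_const (sinh z)).sub_const z

lemma hasDerivAt_den_z (W z : ℝ) : HasDerivAt (den W)
    (qf W z * (exp z + cosh (2 * W)) - (1 + cosh (2 * W) * exp z)) z := by
  refine ((hasDerivAt_qf_z W z).fun_mul ((hasDerivAt_cosh z).add_const _)).congr_deriv ?_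
  have := cosh_add_pos W z
  field_simp
  rw [exp_eq_add]
  ring

lemma hasDerivAt_den_W (W z : ℝ) : HasDerivAt (fun w => den w z)
    (2 * sinh (2 * W) * (exp z + qf W z)) W := by
  refine ((hasDerivAt_qf_W W z).fun_mul (((hasDerivAt_id' W).const_mul 2).cosh.const_add (cosh z))).congr_deriv ?_
  have := cosh_add_pos W z
  field_simp

/-- `qf = log (1 + t) / u` with `u = exp (-z)`, `t = u² + 2 C u`. -/
lemma qf_eq (W z : ℝ) :
    qf W z = log (1 + exp (-z) ^ 2 + 2 * cosh (2 * W) * exp (-z)) / exp (-z) := by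
  have h : 2 * cosh z + 2 * cosh (2 * W)
      = exp z * (1 + exp (-z) ^ 2 + 2 * cosh (2 * W) * exp (-z)) := by
    rw [cosh_eq z, exp_neg]; field_simp
  unfold qf lam
  rw [h, log_mul (exp_ne_zero z) (by positivity), log_exp, exp_neg]
  field_simp
  ring

lemma one_le_C (W : ℝ) : 1 ≤ cosh (2 * W) := one_le_cosh _

/-- Lower bound from `log (1 + t) ≥ 2t / (2 + t)`. -/
lemma qf_lower (W z : ℝ) :
    2 * (exp (-z) + 2 * cosh (2 * W))
      / (2 + exp (-z) ^ 2 + 2 * cosh (2 * W) * exp (-z)) ≤ qf W z := by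
  have hu := exp_pos (-z)
  have hC := one_le_C W
  set u := exp (-z)
  set C := cosh (2 * W)
  have ht : 0 ≤ u ^ 2 + 2 * C * u := by positivity
  have h := le_log_one_add_of_nonneg ht
  rw [show 1 + (u ^ 2 + 2 * C * u) = 1 + u ^ 2 + 2 * C * u by ring] at h
  rw [qf_eq, le_div_iff₀ hu]
  refine le_trans (le_of_eq ?_) h
  field_simp
  ring

lemma qf_pos (W z : ℝ) : 0 < qf W z := by
  refine lt_of_lt_of_le ?_ (qf_lower W z)
  have := exp_pos (-z)
  have := one_le_C W
  positivity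

lemma den_pos (W z : ℝ) : 0 < den W z := mul_pos (qf_pos W z) (cosh_add_pos W z)

lemma u_le_one {z : ℝ} (hz : 0 ≤ z) : exp (-z) ≤ 1 := exp_le_one_iff.mpr (by linarith)

lemma chi_z_pos {W z : ℝ} (hz : 0 ≤ z) :
    0 < qf W z - (1 + cosh z * cosh (2 * W)) / (cosh z + cosh (2 * W)) := by
  have hu := exp_pos (-z)
  have hu1 := u_le_one hz
  have hC := one_le_C W
  have hq := qf_lower W z
  have hc : cosh z = (1 + exp (-z) ^ 2) / (2 * exp (-z)) := by
    rw [cosh_eq, exp_neg]; field_simp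
  set u := exp (-z)
  set C := cosh (2 * W)
  rw [sub_pos]
  refine lt_of_lt_of_le ?_ hq
  rw [hc, div_lt_div_iff₀ (by positivity) (by positivity)]
  field_simp
  nlinarith [mul_nonneg (sub_nonneg.mpr hu1) (mul_nonneg hu.le hu.le),
    mul_le_mul_of_nonneg_left hu1 (sq_nonneg u), mul_pos hu hu,
    mul_nonneg (mul_nonneg hu.le (sub_nonneg.mpr hu1)) (sq_nonneg C),
    mul_nonneg hu.le (sub_nonneg.mpr hC)]

lemma den_z_nonneg {W z : ℝ} (hz : 0 ≤ z) :
    0 ≤ qf W z * (exp z + cosh (2 * W)) - (1 + cosh (2 * W) * exp z) := by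
  have hu := exp_pos (-z)
  have hu1 := u_le_one hz
  have hC := one_le_C W
  have hq := qf_lower W z
  have he : exp z = 1 / exp (-z) := by rw [exp_neg]; field_simp
  rw [he]
  set u := exp (-z)
  set C := cosh (2 * W)
  rw [sub_nonneg, ← div_le_iff₀ (by positivity)]
  refine le_trans ?_ hq
  rw [div_le_div_iff₀ (by positivity) (by positivity)]
  field_simp
  nlinarith [mul_le_mul_of_nonneg_left hu1 (sq_nonneg u), mul_le_mul_of_nonneg_left hC (sq_nonneg u),
    mul_le_mul_of_nonneg_left hu1 hu.le, mul_nonneg hu.le (sub_nonneg.mpr hC)]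

lemma chi_strictMono (W : ℝ) : StrictMonoOn (chi W) (Ici 0) := by
  refine strictMonoOn_of_hasDerivWithinAt_pos (convex_Ici 0)
    (fun z _ => (hasDerivAt_chi_z W z).continuousAt.continuousWithinAt)
    (fun z _ => (hasDerivAt_chi_z W z).hasDerivWithinAt) fun z hz => ?_
  rw [interior_Ici] at hz
  exact mul_pos (exp_pos z) (chi_z_pos (le_of_lt hz))

lemma chi_mono_W {z : ℝ} (hz : 0 ≤ z) : MonotoneOn (fun w => chi w z) (Ici 0) := by
  refine monotoneOn_of_hasDerivWithinAt_nonneg (convex_Ici 0)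
    (fun w _ => (hasDerivAt_chi_W w z).continuousAt.continuousWithinAt)
    (fun w _ => (hasDerivAt_chi_W w z).hasDerivWithinAt) fun w hw => ?_
  rw [interior_Ici] at hw
  have hw' : (0:ℝ) < w := hw
  have := cosh_add_pos w z
  have : 0 ≤ sinh (2 * w) := sinh_nonneg_iff.mpr (by linarith)
  have : 0 ≤ sinh z := sinh_nonneg_iff.mpr hz
  positivity

lemma den_mono_z (W : ℝ) : MonotoneOn (den W) (Ici 0) := by
  refine monotoneOn_of_hasDerivWithinAt_nonneg (convex_Ici 0)
    (fun z _ => (hasDerivAt_den_z W z).continuousAt.continuousWithinAt)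
    (fun z _ => (hasDerivAt_den_z W z).hasDerivWithinAt) fun z hz => ?_
  rw [interior_Ici] at hz
  exact den_z_nonneg (le_of_lt hz)

lemma rat_strictMono {z : ℝ} (hz : 0 ≤ z) : StrictMonoOn (fun w => rat w z) (Ioi 0) := by
  have hd : ∀ w : ℝ, HasDerivAt (fun w => rat w z)
      (2 * sinh (2 * w) * (2 * cosh (2 * w) * den w z - sinh (2 * w) ^ 2 * (exp z + qf w z))
        / den w z ^ 2) w := by
    intro w
    refine ((((hasDerivAt_id' w).const_mul 2).sinh.fun_pow 2).fun_div (hasDerivAt_den_W w z)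
      (den_pos w z).ne').congr_deriv ?_
    norm_num
    ring
  refine strictMonoOn_of_hasDerivWithinAt_pos (convex_Ioi 0)
    (fun w _ => (hd w).continuousAt.continuousWithinAt)
    (fun w _ => (hd w).hasDerivWithinAt) fun w hw => ?_
  rw [interior_Ioi] at hw
  have hw' : (0:ℝ) < w := hw
  have hS : 0 < sinh (2 * w) := sinh_pos_iff.mpr (by linarith)
  refine div_pos (mul_pos (by linarith) ?_) (pow_pos (den_pos w z) 2)
  have hu := exp_pos (-z)
  have hC := one_le_C w
  have hsq : sinh (2 * w) ^ 2 = cosh (2 * w) ^ 2 - 1 := by linarith [cosh_sq (2 * w)]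
  have he : exp z = 1 / exp (-z) := by rw [exp_neg]; field_simp
  have hc : cosh z = (1 + exp (-z) ^ 2) / (2 * exp (-z)) := by
    rw [cosh_eq, exp_neg]; field_simp
  have hl : 2 * cosh (2 * w) / (1 + 2 * cosh (2 * w) * exp (-z)) ≤ qf w z := by
    rw [qf_eq, le_div_iff₀ hu]
    set u := exp (-z)
    set C := cosh (2 * w)
    have h1 : log (1 + 2 * C * u) ≤ log (1 + u ^ 2 + 2 * C * u) :=
      log_le_log (by positivity) (by linarith [sq_nonneg u])
    have h2 := one_sub_inv_le_log_of_pos (show (0:ℝ) < 1 + 2 * C * u by positivity)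
    refine le_trans (le_of_eq ?_) (le_trans h2 h1)
    field_simp
    ring
  unfold den
  rw [hsq, he, hc]
  set u := exp (-z)
  set C := cosh (2 * w)
  have key : (C ^ 2 - 1) / u
      < 2 * C / (1 + 2 * C * u) * (2 * C * ((1 + u ^ 2) / (2 * u)) + C ^ 2 + 1) := by
    field_simp
    nlinarith [mul_pos hu hu]
  have h3 := mul_le_mul_of_nonneg_right hl
    (show 0 ≤ 2 * C * ((1 + u ^ 2) / (2 * u)) + C ^ 2 + 1 by positivity)
  have e1 : (C ^ 2 - 1) * (1 / u) = (C ^ 2 - 1) / u := by ring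
  nlinarith

lemma chi_zero (W : ℝ) : chi W 0 = 0 := by simp [chi]

lemma chi_nonpos {W z : ℝ} (hz : z ≤ 0) : chi W z ≤ 0 := by
  have h := mul_cosh_le_log (neg_nonneg.mpr hz)
  rw [cosh_neg, sinh_neg] at h
  have hl : log (2 * cosh z + 2) ≤ lam W z :=
    log_le_log (by linarith [cosh_pos z]) (by linarith [one_le_C W])
  have hs : sinh z ≤ 0 := sinh_nonpos_iff.mpr hz
  have h2 : lam W z * sinh z - z * cosh z ≤ 0 := by
    nlinarith [mul_le_mul_of_nonpos_right hl hs]
  have e : chi W z = exp z * (lam W z * sinh z - z * cosh z) := by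
    have : exp z * cosh z - exp z * sinh z = 1 := by
      rw [← mul_sub, cosh_sub_sinh, ← exp_add]; simp
    unfold chi qf
    linear_combination z * this
  rw [e]
  exact mul_nonpos_of_nonneg_of_nonpos (exp_pos z).le h2

lemma exists_chi {W v : ℝ} (hv : 0 ≤ v) : ∃ z, 0 ≤ z ∧ chi W z = v := by
  set Z := 8 + 4 * v
  have hZ : 0 ≤ Z := by positivity
  have hbig : v ≤ chi W Z := by
    have hq : 1 / 2 ≤ qf W Z := by
      refine le_trans ?_ (qf_lower W Z)
      have hu := exp_pos (-Z)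
      have hu1 := u_le_one hZ
      have hC := one_le_C W
      rw [div_le_div_iff₀ (by norm_num) (by positivity)]
      nlinarith
    have hs : (exp Z - 1) / 2 ≤ sinh Z := by
      rw [sinh_eq]; linarith [u_le_one hZ]
    have he := quadratic_le_exp_of_nonneg hZ
    have h1 : 1 / 2 * ((exp Z - 1) / 2) ≤ qf W Z * sinh Z := by
      refine mul_le_mul hq hs ?_ (qf_pos W Z).le
      linarith [one_le_exp hZ]
    have hlow : v ≤ Z ^ 2 / 8 - 3 * Z / 4 := by
      simp only [Z]; nlinarith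
    unfold chi
    linarith
  have := intermediate_value_Icc hZ
    (fun z _ => (hasDerivAt_chi_z W z).continuousAt.continuousWithinAt)
    (show v ∈ Icc (chi W 0) (chi W Z) by rw [chi_zero]; exact ⟨hv, hbig⟩)
  obtain ⟨z, hz, he⟩ := this
  exact ⟨z, hz.1, he⟩

variable {p R k : ℝ}

lemma hasDerivAt_gap_z {W : ℝ} (hW : 0 < W) (z : ℝ) :
    HasDerivAt (gap p R k W)
      (exp (-z) * (k * chi W z - 2 * p) / (2 * sinh (2 * W))) z := by
  have hS : 0 < sinh (2 * W) := sinh_pos_iff.mpr (by linarith)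
  have hc := cosh_add_pos W z
  have h1 : HasDerivAt (fun y => exp (-y)) (-exp (-z)) z := by
    simpa using (hasDerivAt_neg z).exp
  refine (((((h1.add_const (cosh (2 * W))).const_mul p).fun_add
    (((((hasDerivAt_lam_z W z).fun_mul ((hasDerivAt_cosh z).add_const _)).fun_sub
      ((hasDerivAt_id' z).fun_mul (hasDerivAt_sinh z))).const_mul k).div_const 2)).div_const
      (sinh (2 * W))).const_add (W - R - k * W)).congr_deriv ?_
  have he : exp (-z) * exp z = 1 := by rw [← exp_add]; simp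
  have hb : exp z * cosh z - exp z * sinh z = 1 := by
    rw [← mul_sub, cosh_sub_sinh, mul_comm]; exact he
  have e : exp (-z) * chi W z = lam W z * sinh z - z * cosh z := by
    have : exp (-z) = cosh z - sinh z := exp_neg_eq_sub z
    unfold chi qf
    linear_combination (lam W z - z) * sinh z * he - z * this
  rw [show exp (-z) * (k * chi W z - 2 * p)
      = k * (exp (-z) * chi W z) - 2 * p * exp (-z) by ring, e]
  field_simp
  ring

lemma hasDerivAt_gap_W {W : ℝ} (hW : 0 < W) (z : ℝ) :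
    HasDerivAt (fun w => gap p R k w z)
      (1 - (2 * p * (1 + exp (-z) * cosh (2 * W))
        + k * (lam W z * (1 + cosh z * cosh (2 * W)) - z * sinh z * cosh (2 * W)))
          / sinh (2 * W) ^ 2) W := by
  have hS : 0 < sinh (2 * W) := sinh_pos_iff.mpr (by linarith)
  have hc := cosh_add_pos W z
  have hC := ((hasDerivAt_id' W).const_mul 2).cosh
  refine (((hasDerivAt_id' W).sub_const R).fun_sub ((hasDerivAt_id' W).const_mul k)).fun_add
    ((((hC.const_add (exp (-z))).const_mul p).fun_add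
    (((((hasDerivAt_lam_W W z).fun_mul (hC.const_add (cosh z))).sub_const
      (z * sinh z)).const_mul k).div_const 2)).fun_div
      ((hasDerivAt_id' W).const_mul 2).sinh hS.ne') |>.congr_deriv ?_
  field_simp
  linear_combination (k * lam W z + 2 * p) * (-(cosh_sq (2 * W))) - 0 * cosh_sq z

lemma gap_W_on_curve {W z : ℝ} (hchi : k * chi W z = 2 * p) :
    2 * p * (1 + exp (-z) * cosh (2 * W))
      + k * (lam W z * (1 + cosh z * cosh (2 * W)) - z * sinh z * cosh (2 * W))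
      = k * den W z := by
  rw [← hchi]
  have h1 : exp z = cosh z + sinh z := exp_eq_add z
  have h2 : exp (-z) = cosh z - sinh z := exp_neg_eq_sub z
  have h3 := cosh_sq z
  simp only [chi, den, qf, h1, h2]
  grind

lemma gap_min_z {W zs : ℝ} (hW : 0 < W) (hzs : 0 ≤ zs) (hk : 0 ≤ k) (hp : 0 ≤ p)
    (hchi : k * chi W zs = 2 * p) (z : ℝ) : gap p R k W zs ≤ gap p R k W z := by
  have hS : 0 < sinh (2 * W) := sinh_pos_iff.mpr (by linarith)
  rcases le_total z zs with h | h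
  · refine antitoneOn_of_hasDerivWithinAt_nonpos (convex_Icc z zs)
      (fun y _ => (hasDerivAt_gap_z hW y).continuousAt.continuousWithinAt)
      (fun y _ => (hasDerivAt_gap_z hW y).hasDerivWithinAt) (fun y hy => ?_)
      ⟨le_rfl, h⟩ ⟨h, le_rfl⟩ h
    have hy' := interior_subset hy
    refine div_nonpos_of_nonpos_of_nonneg (mul_nonpos_of_nonneg_of_nonpos (exp_pos _).le ?_)
      (by linarith)
    rcases le_total y 0 with h0 | h0
    · linarith [mul_nonpos_of_nonneg_of_nonpos hk (chi_nonpos (W := W) h0)]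
    · have := mul_le_mul_of_nonneg_left ((chi_strictMono W).monotoneOn h0 hzs hy'.2) hk
      linarith
  · refine monotoneOn_of_hasDerivWithinAt_nonneg (convex_Icc zs z)
      (fun y _ => (hasDerivAt_gap_z hW y).continuousAt.continuousWithinAt)
      (fun y _ => (hasDerivAt_gap_z hW y).hasDerivWithinAt) (fun y hy => ?_)
      ⟨le_rfl, h⟩ ⟨h, le_rfl⟩ h
    have hy' := interior_subset hy
    refine div_nonneg (mul_nonneg (exp_pos _).le ?_) (by linarith)
    have := mul_le_mul_of_nonneg_left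
      ((chi_strictMono W).monotoneOn hzs (le_trans hzs hy'.1) hy'.1) hk
    linarith

lemma continuousOn_gap {s : Set (ℝ × ℝ)} (hs : ∀ x ∈ s, 0 < x.1) :
    ContinuousOn (fun x : ℝ × ℝ => gap p R k x.1 x.2) s := by
  intro x hx
  have hS : sinh (2 * x.1) ≠ 0 := (sinh_pos_iff.mpr (by linarith [hs x hx])).ne'
  have ha := (lam_arg x.1 x.2).ne'
  apply ContinuousAt.continuousWithinAt
  unfold gap lam
  fun_prop (disch := assumption)

/-- The gap is nonnegative on the whole half plane. -/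
lemma gap_nonneg {W₀ z₀ : ℝ} (hW₀ : 0 < W₀) (hz₀ : 0 ≤ z₀) (hk : k = rat W₀ z₀)
    (hp : 2 * p = k * chi W₀ z₀) (h0 : gap p R k W₀ z₀ = 0) {W : ℝ} (hW : 0 < W) (z : ℝ) :
    0 ≤ gap p R k W z := by
  have hk0 : 0 < k := by
    rw [hk]
    exact div_pos (pow_pos (sinh_pos_iff.mpr (by linarith)) 2) (den_pos _ _)
  have hchi0 : 0 ≤ chi W₀ z₀ := by
    rw [← chi_zero W₀]; exact (chi_strictMono W₀).monotoneOn self_mem_Ici hz₀ hz₀
  have hp0 : 0 ≤ p := by nlinarith [mul_nonneg hk0.le hchi0]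
  have zs : ∀ w, ∃ y, 0 ≤ y ∧ chi w y = chi W₀ z₀ := fun w => exists_chi hchi0
  choose Z hZ0 hZ using zs
  have hmin : ∀ w, 0 < w → ∀ y, gap p R k w (Z w) ≤ gap p R k w y := fun w hw y =>
    gap_min_z hw (hZ0 w) hk0.le hp0 (by rw [hZ w, hp]) y
  have hZW₀ : Z W₀ = z₀ :=
    (chi_strictMono W₀).injOn (hZ0 W₀) hz₀ (hZ W₀)
  have hanti : ∀ w₁ w₂, 0 < w₁ → w₁ ≤ w₂ → Z w₂ ≤ Z w₁ := by
    intro w₁ w₂ h1 h12
    by_contra hlt
    push Not at hlt
    have h3 : chi w₁ (Z w₁) ≤ chi w₂ (Z w₁) :=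
      chi_mono_W (hZ0 w₁) (show (0:ℝ) ≤ w₁ from h1.le) (show (0:ℝ) ≤ w₂ by linarith) h12
    have h4 := chi_strictMono w₂ (hZ0 w₁) (hZ0 w₂) hlt
    rw [hZ w₁] at h3; rw [hZ w₂] at h4
    linarith
  have hrat : ∀ w₁ w₂, 0 < w₁ → w₁ < w₂ → rat w₁ (Z w₁) < rat w₂ (Z w₂) := by
    intro w₁ w₂ h1 h12
    refine lt_of_lt_of_le (rat_strictMono (hZ0 w₁) h1 (lt_trans h1 h12) h12) ?_
    exact div_le_div_of_nonneg_left (sq_nonneg _) (den_pos _ _)
      (den_mono_z w₂ (hZ0 w₂) (hZ0 w₁) (hanti w₁ w₂ h1 h12.le))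
  have hder : ∀ w, 0 < w → ∃ v, HasDerivAt (fun x => gap p R k x (Z w)) v w
      ∧ (w < W₀ → v < 0) ∧ (W₀ < w → 0 < v) := by
    intro w hw
    refine ⟨_, hasDerivAt_gap_W hw (Z w), ?_, ?_⟩
    · intro h
      have hS := pow_pos (sinh_pos_iff.mpr (show (0:ℝ) < 2 * w by linarith)) 2
      have hr := hrat w W₀ hw h
      rw [hZW₀, ← hk] at hr
      rw [gap_W_on_curve (by rw [hZ w, hp])]
      rw [sub_neg, one_lt_div hS]
      unfold rat at hr
      rwa [div_lt_iff₀ (den_pos _ _)] at hr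
    · intro h
      have hS := pow_pos (sinh_pos_iff.mpr (show (0:ℝ) < 2 * w by linarith)) 2
      have hr := hrat W₀ w hW₀ h
      rw [hZW₀, ← hk] at hr
      rw [gap_W_on_curve (by rw [hZ w, hp])]
      rw [sub_pos, div_lt_one hS]
      unfold rat at hr
      rwa [lt_div_iff₀ (den_pos _ _)] at hr
  refine le_trans ?_ (hmin W hW z)
  by_contra hneg
  push Not at hneg
  set lo := min W W₀
  set hi := max W W₀
  have hlo : 0 < lo := lt_min hW hW₀
  obtain ⟨x, hx, hxm⟩ := ((isCompact_Icc (a := lo) (b := hi)).prod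
      (isCompact_Icc (a := (0:ℝ)) (b := Z lo))).exists_isMinOn
    ⟨(W, Z W), ⟨min_le_left _ _, le_max_left _ _⟩, hZ0 W, hanti lo W hlo (min_le_left _ _)⟩
    (continuousOn_gap (p := p) (R := R) (k := k) fun y hy => lt_of_lt_of_le hlo hy.1.1)
  obtain ⟨w, y⟩ := x
  obtain ⟨hw, hy⟩ := hx
  have hw0 : 0 < w := lt_of_lt_of_le hlo hw.1
  have hm : ∀ w' ∈ Icc lo hi, ∀ y' ∈ Icc 0 (Z lo), gap p R k w y ≤ gap p R k w' y' :=
    fun w' h1 y' h2 => isMinOn_iff.mp hxm (w', y') ⟨h1, h2⟩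
  have hwneg : gap p R k w y < 0 :=
    lt_of_le_of_lt (hm W ⟨min_le_left _ _, le_max_left _ _⟩ (Z W)
      ⟨hZ0 W, hanti lo W hlo (min_le_left _ _)⟩) hneg
  have hZw : gap p R k w (Z w) ≤ gap p R k w y := hmin w hw0 y
  have hne : w ≠ W₀ := by
    intro h
    rw [h, hZW₀] at hZw
    rw [h] at hwneg
    linarith
  obtain ⟨v, hv, hvl, hvr⟩ := hder w hw0
  have hmem : Z w ∈ Icc 0 (Z lo) := ⟨hZ0 w, hanti lo w hlo hw.1⟩
  rcases lt_or_gt_of_ne hne with h | h
  · have h2 := hv.hasDerivWithinAt (s := Ioi w)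
    rw [hasDerivWithinAt_iff_tendsto_slope' (self_notMem_Ioi)] at h2
    have hev := (h2.eventually_lt_const (hvl h)).and
      (Ioo_mem_nhdsGT h : Ioo w W₀ ∈ nhdsWithin w (Ioi w))
    obtain ⟨w', hs, hw'⟩ := hev.exists
    rw [slope_def_field, div_neg_iff] at hs
    have hw'i : w' ∈ Icc lo hi :=
      ⟨by linarith [hw.1, hw'.1], le_trans hw'.2.le (le_max_right _ _)⟩
    rcases hs with ⟨_, h3⟩ | ⟨h3, _⟩
    · linarith [hw'.1]
    · linarith [hm w' hw'i (Z w) hmem]
  · have h2 := hv.hasDerivWithinAt (s := Iio w)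
    rw [hasDerivWithinAt_iff_tendsto_slope' (self_notMem_Iio)] at h2
    have hev := (h2.eventually_const_lt (hvr h)).and
      (Ioo_mem_nhdsLT h : Ioo W₀ w ∈ nhdsWithin w (Iio w))
    obtain ⟨w', hs, hw'⟩ := hev.exists
    rw [slope_def_field, div_pos_iff] at hs
    have hw'i : w' ∈ Icc lo hi :=
      ⟨le_trans (min_le_right _ _) hw'.1.le, by linarith [hw.2, hw'.2]⟩
    rcases hs with ⟨_, h3⟩ | ⟨h3, _⟩
    · linarith [hw'.2]
    · linarith [hm w' hw'i (Z w) hmem]

/-- The pair `(a, b)` in the coordinates `(W, z)`, multiplied by `cosh z + cosh 2W`. -/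
lemma coords (A B : ℝ) :
    let W := (A - B) / 2
    let z := A + B
    (tanh A - tanh B) / 2 * (cosh z + cosh (2 * W)) = sinh (2 * W) ∧
    (1 - (tanh A + tanh B) / 2) * (cosh z + cosh (2 * W)) = exp (-z) + cosh (2 * W) ∧
    (ent (tanh A) + ent (tanh B)) / 2 * (cosh z + cosh (2 * W))
      = (lam W z * (cosh z + cosh (2 * W)) - z * sinh z) / 2 - W * sinh (2 * W) := by
  intro W z
  have hcA := cosh_pos A
  have hcB := cosh_pos B
  have e1 : cosh z + cosh (2 * W) = 2 * (cosh A * cosh B) := by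
    rw [show 2 * W = A - B by simp only [W]; ring, show z = A + B from rfl, cosh_add, cosh_sub]
    ring
  have e2 : sinh (2 * W) = sinh A * cosh B - cosh A * sinh B := by
    rw [show 2 * W = A - B by simp only [W]; ring, sinh_sub]
  have e3 : sinh z = sinh A * cosh B + cosh A * sinh B := by
    rw [show z = A + B from rfl, sinh_add]
  have e4 : lam W z = lcosh A + lcosh B := by
    unfold lam lcosh
    rw [← log_mul (by positivity) (by positivity), ← mul_add, e1]
    congr 1; ring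
  have e5 : exp (-z) + cosh (2 * W) = cosh z + cosh (2 * W) - sinh z := by
    rw [exp_neg_eq_sub]; ring
  refine ⟨?_, ?_, ?_⟩
  · rw [e1, e2, tanh_eq_sinh_div_cosh, tanh_eq_sinh_div_cosh]; field_simp
  · rw [e5, e1, e3, tanh_eq_sinh_div_cosh, tanh_eq_sinh_div_cosh]; field_simp
  · rw [ent_tanh, ent_tanh, e1, e2, e3, e4, tanh_eq_sinh_div_cosh, tanh_eq_sinh_div_cosh]
    simp only [W, z]
    field_simp
    ring

/-- The supporting plane through the atom `(a₀, b₀)` and the corner `(1, 1)`. -/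
theorem exists_plane {a₀ b₀ : ℝ} (ha₀ : a₀ ∈ Ioo (-1:ℝ) 1) (hb₀ : b₀ ∈ Ioo (-1:ℝ) 1)
    (hlt : b₀ < a₀) (hsum : 0 ≤ a₀ + b₀) :
    ∃ p R k : ℝ, 0 ≤ p ∧ 0 ≤ R ∧ 0 ≤ k ∧
      R * ((a₀ - b₀) / 2) = edgeJ a₀ b₀ + p * (1 - (a₀ + b₀) / 2) + k * ((ent a₀ + ent b₀) / 2) ∧
      ∀ a ∈ Ioo (-1:ℝ) 1, ∀ b ∈ Ioo (-1:ℝ) 1,
        R * ((a - b) / 2) ≤ edgeJ a b + p * (1 - (a + b) / 2) + k * ((ent a + ent b) / 2) := by
  set A₀ := artanh a₀ with hA₀
  set B₀ := artanh b₀ with hB₀
  set W₀ := (A₀ - B₀) / 2 with hW₀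
  set z₀ := A₀ + B₀ with hz₀
  have hW₀p : 0 < W₀ := by
    have := artanh_lt_artanh hb₀.1 ha₀.2 hlt
    simp only [hW₀, hA₀, hB₀]; linarith
  have hz₀p : 0 ≤ z₀ := by
    have h := artanh_le_artanh (x := -b₀) (y := a₀) (by linarith [hb₀.2]) ha₀.2 (by linarith)
    rw [artanh_neg' hb₀] at h
    simp only [hz₀, hA₀, hB₀]; linarith
  set k := rat W₀ z₀ with hk
  set p := k * chi W₀ z₀ / 2 with hp
  have hk0 : 0 ≤ k := div_nonneg (sq_nonneg _) (den_pos _ _).le
  have hp0 : 0 ≤ p := by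
    have : 0 ≤ chi W₀ z₀ := by
      rw [← chi_zero W₀]; exact (chi_strictMono W₀).monotoneOn self_mem_Ici hz₀p hz₀p
    rw [hp]; positivity
  set R := gap p 0 k W₀ z₀ with hR
  have hgap : ∀ r W z, gap p r k W z = gap p 0 k W z - r := by
    intro r W z; unfold gap; ring
  have hR0 : gap p R k W₀ z₀ = 0 := by rw [hgap, hR]; ring
  have expr : ∀ A B r, B < A → edgeJ (tanh A) (tanh B) + p * (1 - (tanh A + tanh B) / 2)
      + k * ((ent (tanh A) + ent (tanh B)) / 2) - r * ((tanh A - tanh B) / 2)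
      = (tanh A - tanh B) / 2 * gap p r k ((A - B) / 2) (A + B) := by
    intro A B r hAB
    obtain ⟨c1, c2, c3⟩ := coords A B
    set W := (A - B) / 2 with hW
    set z := A + B with hz
    have hWp : 0 < W := by simp only [hW]; linarith
    have hS : 0 < sinh (2 * W) := sinh_pos_iff.mpr (by linarith)
    have hc := cosh_add_pos W z
    have eJ : edgeJ (tanh A) (tanh B) = (tanh A - tanh B) / 2 * W := by
      unfold edgeJ; rw [artanh_tanh, artanh_tanh, hW]; ring
    rw [eJ, eq_div_iff hc.ne' |>.mpr c1, eq_div_iff hc.ne' |>.mpr c2, eq_div_iff hc.ne' |>.mpr c3]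
    unfold gap
    field_simp
    ring
  have e0 := expr A₀ B₀ R (by simp only [hW₀] at hW₀p; linarith)
  rw [← hW₀, ← hz₀, hR0, mul_zero, hA₀, hB₀, tanh_artanh ha₀, tanh_artanh hb₀] at e0
  have hRnn : 0 ≤ R := by
    have h1 : 0 ≤ edgeJ a₀ b₀ + p * (1 - (a₀ + b₀) / 2) + k * ((ent a₀ + ent b₀) / 2) := by
      have := edgeJ_nonneg ha₀ hb₀
      have := ent_pos ha₀
      have := ent_pos hb₀
      have : 0 ≤ 1 - (a₀ + b₀) / 2 := by linarith [ha₀.2, hb₀.2]
      positivity
    by_contra h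
    push Not at h
    nlinarith [mul_neg_of_neg_of_pos h (show (0:ℝ) < (a₀ - b₀) / 2 by linarith)]
  have main : ∀ a ∈ Ioo (-1:ℝ) 1, ∀ b ∈ Ioo (-1:ℝ) 1, b ≤ a →
      R * ((a - b) / 2) ≤ edgeJ a b + p * (1 - (a + b) / 2) + k * ((ent a + ent b) / 2) := by
    intro a ha b hb hab
    rcases eq_or_lt_of_le hab with rfl | hab
    · have := edgeJ_nonneg ha ha
      have := mul_nonneg hp0 (show 0 ≤ 1 - (b + b) / 2 by linarith [ha.2])
      have := mul_nonneg hk0 (show 0 ≤ (ent b + ent b) / 2 by linarith [ent_pos ha])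
      simp only [sub_self, zero_div, mul_zero]; linarith
    · have hAB := artanh_lt_artanh hb.1 ha.2 hab
      have e := expr (artanh a) (artanh b) R hAB
      rw [tanh_artanh ha, tanh_artanh hb] at e
      have := gap_nonneg (p := p) (R := R) (k := k) hW₀p hz₀p hk (by rw [hp]; ring) hR0
        (show 0 < (artanh a - artanh b) / 2 by linarith) (artanh a + artanh b)
      have := mul_nonneg (show 0 ≤ (a - b) / 2 by linarith) this
      linarith
  refine ⟨p, R, k, hp0, hRnn, hk0, by linarith, fun a ha b hb => ?_⟩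
  rcases le_total b a with h | h
  · exact main a ha b hb h
  · have h1 := main b hb a ha h
    rw [edgeJ_comm] at h1
    have : R * ((a - b) / 2) ≤ R * ((b - a) / 2) :=
      mul_le_mul_of_nonneg_left (by linarith) hRnn
    rw [add_comm a b, add_comm (ent a)]
    linarith

/-- The regime-1 bound: the one-atom law minimises the edge energy. -/
theorem avg_edgeJ_ge_atom {ι : Type} [Fintype ι] [Nonempty ι] (a b : ι → ℝ)
    (ha : ∀ i, a i ∈ Ioo (-1:ℝ) 1) (hb : ∀ i, b i ∈ Ioo (-1:ℝ) 1)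
    {a₀ b₀ w : ℝ} (ha₀ : a₀ ∈ Ioo (-1:ℝ) 1) (hb₀ : b₀ ∈ Ioo (-1:ℝ) 1)
    (hlt : b₀ < a₀) (hsum : 0 ≤ a₀ + b₀)
    (hma : avg a = 1 - w + w * a₀) (hmb : avg b = 1 - w + w * b₀)
    (hh : avg (fun i => ent (a i)) + avg (fun i => ent (b i)) = w * (ent a₀ + ent b₀)) :
    w * edgeJ a₀ b₀ ≤ avg (fun i => edgeJ (a i) (b i)) := by
  obtain ⟨p, R, k, hp, hR, hk, h0, h⟩ := exists_plane ha₀ hb₀ hlt hsum
  have h1 : avg (fun i => R * ((a i - b i) / 2) - p * (1 - (a i + b i) / 2)
      - k * ((ent (a i) + ent (b i)) / 2)) ≤ avg (fun i => edgeJ (a i) (b i)) := by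
    unfold avg
    gcongr with i
    linarith [h (a i) (ha i) (b i) (hb i)]
  have hn : (Fintype.card ι : ℝ) ≠ 0 := Nat.cast_ne_zero.mpr Fintype.card_ne_zero
  have h2 : avg (fun i => R * ((a i - b i) / 2) - p * (1 - (a i + b i) / 2)
      - k * ((ent (a i) + ent (b i)) / 2))
      = R * ((avg a - avg b) / 2) - p * (1 - (avg a + avg b) / 2)
        - k * ((avg (fun i => ent (a i)) + avg (fun i => ent (b i))) / 2) := by
    simp only [avg, Finset.sum_sub_distrib, ← Finset.mul_sum, ← Finset.sum_div,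
      Finset.sum_add_distrib, Finset.sum_const, Finset.card_univ, nsmul_eq_mul, mul_one]
    field_simp

  rw [h2, hma, hmb, hh] at h1
  linear_combination h1 - w * h0

/-- Every state of regime 1 is a one-atom state. -/
theorem exists_atom {m d h : ℝ} (hd : 0 < d) (hdm : d + m < 1) (hm : 0 ≤ m)
    (hlo : (1 - m) * ent (d / (1 - m)) ≤ h) (hhi : h ≤ (ent (m + d) + ent (m - d)) / 2) :
    ∃ a₀ b₀ w : ℝ, a₀ ∈ Ioo (-1:ℝ) 1 ∧ b₀ ∈ Ioo (-1:ℝ) 1 ∧ b₀ < a₀ ∧ 0 ≤ a₀ + b₀ ∧
      0 < w ∧ w ≤ 1 ∧ 1 - m ≤ w ∧ m + d = 1 - w + w * a₀ ∧ m - d = 1 - w + w * b₀ ∧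
      2 * h = w * (ent a₀ + ent b₀) := by
  have h1m : 0 < 1 - m := by linarith
  let φ : ℝ → ℝ := fun w =>
    w * ((ent (1 - (1 - m - d) / w) + ent (1 - (1 - m + d) / w)) / 2)
  have hc : ContinuousOn φ (Icc (1 - m) 1) := by
    intro w hw
    have hw0 : w ≠ 0 := by linarith [hw.1]
    refine ContinuousAt.continuousWithinAt ?_
    have q1 : ContinuousAt (fun w => ent (1 - (1 - m - d) / w)) w :=
      ent_continuous.continuousAt.comp
        (continuousAt_const.sub (continuousAt_const.div continuousAt_id hw0))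
    have q2 : ContinuousAt (fun w => ent (1 - (1 - m + d) / w)) w :=
      ent_continuous.continuousAt.comp
        (continuousAt_const.sub (continuousAt_const.div continuousAt_id hw0))
    exact continuousAt_id.mul ((q1.add q2).div_const 2)
  have e0 : φ (1 - m) = (1 - m) * ent (d / (1 - m)) := by
    simp only [φ]
    rw [show 1 - (1 - m - d) / (1 - m) = d / (1 - m) by field_simp; ring,
      show 1 - (1 - m + d) / (1 - m) = -(d / (1 - m)) by field_simp; ring, ent_neg]
    ring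
  have e1 : φ 1 = (ent (m + d) + ent (m - d)) / 2 := by
    simp only [φ]; ring_nf
  obtain ⟨w, hw, hwe⟩ := intermediate_value_Icc (show 1 - m ≤ 1 by linarith) hc
    (show h ∈ Icc (φ (1 - m)) (φ 1) by rw [e0, e1]; exact ⟨hlo, hhi⟩)
  have hw0 : 0 < w := lt_of_lt_of_le h1m hw.1
  refine ⟨1 - (1 - m - d) / w, 1 - (1 - m + d) / w, w, ⟨?_, ?_⟩, ⟨?_, ?_⟩, ?_, ?_, hw0, hw.2,
    hw.1, by field_simp; ring, by field_simp; ring, ?_⟩
  · have : (1 - m - d) / w < 2 := by rw [div_lt_iff₀ hw0]; linarith [hw.1]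
    linarith
  · have : 0 < (1 - m - d) / w := div_pos (by linarith) hw0
    linarith
  · have : (1 - m + d) / w < 2 := by rw [div_lt_iff₀ hw0]; linarith [hw.1]
    linarith
  · have : 0 < (1 - m + d) / w := div_pos (by linarith) hw0
    linarith
  · have : (1 - m - d) / w < (1 - m + d) / w := by gcongr; linarith
    linarith
  · have : ((1 - m - d) / w + (1 - m + d) / w) ≤ 2 := by
      rw [← add_div, div_le_iff₀ hw0]; linarith [hw.1]
    linarith
  · simp only [φ] at hwe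
    linarith

end Vale.Agent.P322.JStar
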