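import Vale.Agent.P322.Tconvex
import Vale.Agent.P322.JStar

/-! The one-step inequality from the two scalar statements Q4 and BASE. -/

noncomputable section

namespace Vale.Agent.P322

open Real Set

lemma hasDerivAt_tT_comp {f g : ℝ → ℝ} {f' g' t : ℝ} (hf : HasDerivAt f f' t)
    (hg : HasDerivAt g g' t) (hpos : 0 < g t) (hlt : g t < f t) :
    HasDerivAt (fun s => tT (f s) (g s))
      (((f' - g') / log 2 + (g' * f t - g t * f') / f t ^ 2) * psiIcpt (tR (f t) (g t))
        - log 2 * ((g' * f t - g t * f') / f t ^ 2) * psiSlope (tR (f t) (g t))) t := by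
  have hf0 : 0 < f t := lt_trans hpos hlt
  obtain ⟨hlz, hr⟩ := tR_mem hpos hlt
  have hc := tC_pos hpos hlt.le
  have hu := hg.fun_div hf hf0.ne'
  have hcD : HasDerivAt (fun s => tC (f s) (g s))
      ((f' - g') / log 2 + (g' * f t - g t * f') / f t ^ 2) t :=
    ((hf.fun_sub hg).div_const (log 2)).fun_add hu
  have harg := (hu.const_mul (log 2)).fun_div hcD hc.ne'
  have earg : log 2 * (g t / f t) / tC (f t) (g t) = log 2 * tZ (f t) (g t) := by
    unfold tZ; ring
  have h1 := HasDerivAt.comp (h₂ := psiD) t (by rw [earg]; exact hasDerivAt_psiD_Ioo hlz) harg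
  refine (hcD.fun_mul h1).congr_deriv ?_
  simp only [Function.comp]
  rw [earg]
  unfold psiIcpt
  rw [show ent (tR (f t) (g t)) = log 2 * tZ (f t) (g t) from ent_rEnt_Icc (Ioo_subset_Icc_self hlz)]
  unfold psiD tR tZ
  field_simp
  ring

lemma tT_radial {G L h : ℝ} (hh : 0 < h) (hlt : h < G) :
    ((G - L - h) / log 2 + h * L / G ^ 2) * psiIcpt (tR G h)
      - log 2 * (h * L / G ^ 2) * psiSlope (tR G h) = tLam G L h + tT G h := by
  obtain ⟨hlz, hr⟩ := tR_mem hh hlt
  have hG : 0 < G := lt_trans hh hlt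
  have hc := tC_pos hh hlt.le
  have hl := log_two_pos'
  have he : ent (tR G h) = log 2 * tZ G h := ent_rEnt_Icc (Ioo_subset_Icc_self hlz)
  have hv : psiD (log 2 * tZ G h)
      = psiIcpt (tR G h) - psiSlope (tR G h) * (log 2 * tZ G h) := by
    rw [← he, psiD_ent (Ioo_subset_Icc_self hr)]; unfold psiIcpt; ring
  rw [tT_eq, hv]
  unfold tLam psiChi
  have hzc : tC G h * tZ G h = h / G := by unfold tZ; field_simp
  rw [show tC G h * (psiIcpt (tR G h) - psiSlope (tR G h) * (log 2 * tZ G h))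
      = tC G h * psiIcpt (tR G h) - psiSlope (tR G h) * log 2 * (tC G h * tZ G h) by ring, hzc]
  unfold tC
  field_simp
  ring

lemma ent_combo {a k w : ℝ} (ha : a ∈ Ioo (-1:ℝ) 1) (hk : k ∈ Icc (-1:ℝ) 1)
    (hw : w ∈ Ioc (0:ℝ) 1) :
    (1 - w) * k + w * a ∈ Ioo (-1:ℝ) 1 ∧ w * ent a ≤ ent ((1 - w) * k + w * a)
      ∧ (w < 1 → w * ent a < ent ((1 - w) * k + w * a)) := by
  have hs : 0 ≤ 1 - w := by linarith [hw.2]
  have hmem : (1 - w) * k + w * a ∈ Ioo (-1:ℝ) 1 := by
    constructor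
    · nlinarith [mul_lt_mul_of_pos_left ha.1 hw.1, mul_le_mul_of_nonneg_left hk.1 hs]
    · nlinarith [mul_lt_mul_of_pos_left ha.2 hw.1, mul_le_mul_of_nonneg_left hk.2 hs]
  have hk0 : 0 ≤ ent k := ent_nonneg hk
  have hle := ent_concaveOn.2 hk (Ioo_subset_Icc_self ha) hs hw.1.le (by ring)
  simp only [smul_eq_mul] at hle
  refine ⟨hmem, by linarith [mul_nonneg hs hk0], fun hw1 => ?_⟩
  by_cases hak : k = a
  · subst hak
    rw [show (1 - w) * k + w * k = k by ring]
    exact mul_lt_of_lt_one_left (ent_pos ha) hw1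
  · have h := strictConcave_binEntropy.2
      (show (1 + k) / 2 ∈ Icc (0:ℝ) 1 from ⟨by linarith [hk.1], by linarith [hk.2]⟩)
      (show (1 + a) / 2 ∈ Icc (0:ℝ) 1 from ⟨by linarith [ha.1], by linarith [ha.2]⟩)
      (fun e => hak (by linarith)) (show 0 < 1 - w by linarith) hw.1 (by ring)
    simp only [smul_eq_mul] at h
    unfold ent at hk0 ⊢
    rw [show (1 + ((1 - w) * k + w * a)) / 2 = (1 - w) * ((1 + k) / 2) + w * ((1 + a) / 2) by ring]
    linarith [mul_nonneg hs hk0]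

/-- `H(x) - (k - x) artanh x`. -/
def ellK (k x : ℝ) : ℝ := ((1 + k) * ell x + (1 - k) * ell (-x)) / 2

lemma ellK_eq {x : ℝ} (hx : x ∈ Ioo (-1:ℝ) 1) (k : ℝ) :
    ellK k x = ent x - (k - x) * artanh x := by
  have h1 : (0:ℝ) < 1 + x := by linarith [hx.1]
  have h2 : (0:ℝ) < 1 - x := by linarith [hx.2]
  unfold ellK ell ent
  rw [artanh_eq_half_log_sub hx, binEntropy_eq_negMulLog_add_negMulLog_one_sub,
    show 1 - (1 + x) / 2 = (1 - x) / 2 by ring]
  simp only [negMulLog]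
  rw [show (1:ℝ) + -x = 1 - x by ring, log_div h1.ne' (by norm_num), log_div h2.ne' (by norm_num)]
  ring

lemma tLam_ellK (Hv h k x : ℝ) :
    tLam Hv (ellK k x) h
      = (1 + k) / 2 * tLam Hv (ell x) h + (1 - k) / 2 * tLam Hv (ell (-x)) h := by
  unfold tLam ellK; ring

lemma tLam_ellK_avg (Hv h k x y : ℝ) :
    tLam Hv ((ellK k x + ellK k y) / 2) h
      = (1 + k) / 2 * tLam Hv ((ell x + ell y) / 2) h
        + (1 - k) / 2 * tLam Hv ((ell (-x) + ell (-y)) / 2) h := by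
  unfold tLam ellK; ring

/-- The radial inequality at the corner means between `m` and `1`. -/
def Q4KStmt : Prop :=
  ∀ m d h k : ℝ, 0 ≤ m → 0 < d → d < 1 - m → m ≤ k → k ≤ 1 → 0 < h →
    h < (ent (m + d) + ent (m - d)) / 2 →
    tLam ((ent (m + d) + ent (m - d)) / 2) ((ellK k (m + d) + ellK k (m - d)) / 2) h
      ≤ tLam (ent m) (ellK k m) h

lemma Q4_ellK (q4 : Q4KStmt) {c e h k : ℝ} (hc : c ∈ Ioo (-1:ℝ) 1)
    (hh : 0 < h) (hlt : h < (ent c + ent e) / 2) (hec : e < c) (hs : 0 ≤ c + e)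
    (hk : (c + e) / 2 ≤ k) (hk1 : k ≤ 1) :
    tLam ((ent c + ent e) / 2) ((ellK k c + ellK k e) / 2) h
      ≤ tLam (ent ((c + e) / 2)) (ellK k ((c + e) / 2)) h := by
  have h1 := q4 ((c + e) / 2) ((c - e) / 2) h k (by linarith) (by linarith) (by linarith [hc.2])
    hk hk1 hh
  rw [show (c + e) / 2 + (c - e) / 2 = c by ring, show (c + e) / 2 - (c - e) / 2 = e by ring] at h1
  exact h1 hlt

/-- Along a path from an atom to constants, the defect is at most `w` times its value at `w = 1`. -/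
lemma defect_le (q4 : Q4KStmt) {a₀ b₀ k w₀ : ℝ} (ha : a₀ ∈ Ioo (-1:ℝ) 1) (hb : b₀ ∈ Ioo (-1:ℝ) 1)
    (hk : k ∈ Icc (-1:ℝ) 1) (hw₀ : w₀ ∈ Ioc (0:ℝ) 1) (hab : b₀ < a₀) (hs₀ : 0 ≤ a₀ + b₀)
    (hk₀ : (a₀ + b₀) / 2 ≤ k) :
    tT (ent ((1 - w₀) * k + w₀ * ((a₀ + b₀) / 2))) (w₀ * ((ent a₀ + ent b₀) / 2))
      - tT ((ent ((1 - w₀) * k + w₀ * a₀) + ent ((1 - w₀) * k + w₀ * b₀)) / 2)
          (w₀ * ((ent a₀ + ent b₀) / 2))
      ≤ w₀ * tT (ent ((a₀ + b₀) / 2)) ((ent a₀ + ent b₀) / 2) := by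
  set m₀ := (a₀ + b₀) / 2 with hm₀
  set h₀ := (ent a₀ + ent b₀) / 2 with hh₀
  let cw : ℝ → ℝ := fun w => (1 - w) * k + w * a₀
  let ew : ℝ → ℝ := fun w => (1 - w) * k + w * b₀
  let mw : ℝ → ℝ := fun w => (1 - w) * k + w * m₀
  let Gb : ℝ → ℝ := fun w => (ent (cw w) + ent (ew w)) / 2
  have h₀pos : 0 < h₀ := by
    rw [hh₀]; linarith [ent_pos ha, ent_pos hb]
  have hmid : ∀ w, mw w = (cw w + ew w) / 2 := fun w => by simp only [mw, cw, ew, hm₀]; ring
  have hfacts : ∀ w ∈ Ioc (0:ℝ) 1, cw w ∈ Ioo (-1:ℝ) 1 ∧ ew w ∈ Ioo (-1:ℝ) 1 ∧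
      mw w ∈ Ioo (-1:ℝ) 1 ∧ 0 < w * h₀ ∧ w * h₀ ≤ Gb w ∧ Gb w ≤ ent (mw w) ∧
      (w < 1 → w * h₀ < Gb w) := by
    intro w hw
    obtain ⟨c1, c2, c3⟩ := ent_combo ha hk hw
    obtain ⟨e1, e2, e3⟩ := ent_combo hb hk hw
    refine ⟨c1, e1, ?_, mul_pos hw.1 h₀pos, ?_, ?_, ?_⟩
    · rw [hmid]; constructor <;> simp only [cw, ew] <;> linarith [c1.1, c1.2, e1.1, e1.2]
    · simp only [Gb, cw, ew, hh₀]; linarith
    · have h := ent_concaveOn.2 (Ioo_subset_Icc_self c1) (Ioo_subset_Icc_self e1)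
        (show (0:ℝ) ≤ 1 / 2 by norm_num) (show (0:ℝ) ≤ 1 / 2 by norm_num) (by norm_num)
      simp only [smul_eq_mul] at h
      rw [hmid, show (cw w + ew w) / 2 = 1 / 2 * cw w + 1 / 2 * ew w by ring]
      simp only [Gb]
      linarith
    · intro h1
      simp only [Gb, cw, ew, hh₀]
      linarith [c3 h1, e3 h1]
  have hlin : ∀ x : ℝ, ∀ w, HasDerivAt (fun w => (1 - w) * k + w * x) (x - k) w := by
    intro x w
    refine ((((hasDerivAt_id' w).const_sub 1).mul_const k).add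
      ((hasDerivAt_id' w).mul_const x)).congr_deriv ?_
    ring
  let F : ℝ → ℝ := fun w => (tT (ent (mw w)) (w * h₀) - tT (Gb w) (w * h₀)) / w
  have hder : ∀ w ∈ Ioo w₀ 1, ∃ v, HasDerivAt F v w ∧ 0 ≤ v := by
    intro w hw
    have hw' : w ∈ Ioc (0:ℝ) 1 := ⟨lt_trans hw₀.1 hw.1, hw.2.le⟩
    obtain ⟨hc, he, hm, hpos, -, hGm, hstr⟩ := hfacts w hw'
    have hlt := hstr hw.2
    have hw0 : w ≠ 0 := hw'.1.ne'
    have dx : ∀ x : ℝ, (1 - w) * k + w * x ∈ Ioo (-1:ℝ) 1 →
        HasDerivAt (fun w => ent ((1 - w) * k + w * x))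
          ((ent ((1 - w) * k + w * x) - ellK k ((1 - w) * k + w * x)) / w) w := by
      intro x hx
      refine ((hasDerivAt_ent hx).comp w (hlin x w)).congr_deriv ?_
      rw [ellK_eq hx]
      field_simp
      ring
    have dm : HasDerivAt (fun w => ent (mw w)) ((ent (mw w) - ellK k (mw w)) / w) w := dx m₀ hm
    have dG : HasDerivAt Gb ((Gb w - (ellK k (cw w) + ellK k (ew w)) / 2) / w) w := by
      refine (((dx a₀ hc).fun_add (dx b₀ he)).div_const 2).congr_deriv ?_
      simp only [Gb, cw, ew]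
      ring
    have dh : HasDerivAt (fun w => w * h₀) h₀ w := by
      simpa using (hasDerivAt_id' w).mul_const h₀
    have d1 := hasDerivAt_tT_comp dm dh hpos (lt_of_lt_of_le hlt hGm)
    have d2 := hasDerivAt_tT_comp dG dh hpos hlt
    refine ⟨_, (d1.fun_sub d2).fun_div (hasDerivAt_id' w) hw0, ?_⟩
    refine div_nonneg ?_ (sq_nonneg _)
    have hmk : (cw w + ew w) / 2 = (1 - w) * k + w * m₀ := (hmid w).symm
    have hcmp : ew w < cw w := by
      simp only [cw, ew]; linarith [mul_lt_mul_of_pos_left hab hw'.1]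
    have hk0 : 0 ≤ k := by linarith
    have hm₀0 : 0 ≤ m₀ := by rw [hm₀]; linarith
    have hq := Q4_ellK q4 hc hpos hlt hcmp
      (by linarith [mul_nonneg hk0 (sub_nonneg.mpr hw'.2), mul_nonneg hw'.1.le hm₀0])
      (by rw [hmk]; linarith [mul_le_mul_of_nonneg_left hk₀ hw'.1.le]) hk.2
    rw [← hmid] at hq
    have r1 := tT_radial (L := ellK k (mw w)) hpos (lt_of_lt_of_le hlt hGm)
    have r2 := tT_radial (L := (ellK k (cw w) + ellK k (ew w)) / 2) hpos hlt
    have hG0 : Gb w ≠ 0 := (lt_trans hpos hlt).ne'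
    have hM0 : ent (mw w) ≠ 0 := (lt_of_lt_of_le (lt_trans hpos hlt) hGm).ne'
    have k1 : ∀ G L α S : ℝ, G ≠ 0 →
        (((G - L) / w - h₀) / log 2 + (h₀ * G - w * h₀ * ((G - L) / w)) / G ^ 2) * α * w
          - log 2 * ((h₀ * G - w * h₀ * ((G - L) / w)) / G ^ 2) * S * w
        = ((G - L - w * h₀) / log 2 + w * h₀ * L / G ^ 2) * α
          - log 2 * (w * h₀ * L / G ^ 2) * S := by
      intro G L α S hG
      field_simp
      ring
    have s1 := k1 (ent (mw w)) (ellK k (mw w)) (psiIcpt (tR (ent (mw w)) (w * h₀)))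
      (psiSlope (tR (ent (mw w)) (w * h₀))) hM0
    have s2 := k1 (Gb w) ((ellK k (cw w) + ellK k (ew w)) / 2) (psiIcpt (tR (Gb w) (w * h₀)))
      (psiSlope (tR (Gb w) (w * h₀))) hG0
    rw [r1] at s1
    rw [r2] at s2
    rw [mul_one]
    linarith
  have hsub : ∀ w ∈ Icc w₀ 1, w ∈ Ioc (0:ℝ) 1 := fun w hw => ⟨lt_of_lt_of_le hw₀.1 hw.1, hw.2⟩
  have hcont : ContinuousOn F (Icc w₀ 1) := by
    have cl : ∀ x : ℝ, Continuous fun w => ent ((1 - w) * k + w * x) := fun x =>
      ent_continuous.comp (by fun_prop)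
    have cm : Continuous fun w => ent (mw w) := cl m₀
    have cG : Continuous Gb := ((cl a₀).add (cl b₀)).div_const 2
    have ch : Continuous fun w : ℝ => w * h₀ := by fun_prop
    refine ((continuousOn_tT_comp cm.continuousOn ch.continuousOn ?_).sub
      (continuousOn_tT_comp cG.continuousOn ch.continuousOn ?_)).div continuousOn_id
      fun w hw => (hsub w hw).1.ne'
    · intro w hw
      obtain ⟨-, -, -, hp, hle, hGm, -⟩ := hfacts w (hsub w hw)
      exact ⟨hp, le_trans hle hGm⟩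
    · intro w hw
      obtain ⟨-, -, -, hp, hle, -, -⟩ := hfacts w (hsub w hw)
      exact ⟨hp, hle⟩
  have hmono : MonotoneOn F (Icc w₀ 1) := by
    refine monotoneOn_of_deriv_nonneg (convex_Icc _ _) hcont ?_ ?_
    · intro w hw
      rw [interior_Icc] at hw
      obtain ⟨v, hv, -⟩ := hder w hw
      exact hv.differentiableAt.differentiableWithinAt
    · intro w hw
      rw [interior_Icc] at hw
      obtain ⟨v, hv, hv0⟩ := hder w hw
      rw [hv.deriv]; exact hv0
  have h := hmono ⟨le_rfl, hw₀.2⟩ ⟨hw₀.2, le_rfl⟩ hw₀.2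
  have e1 : F 1 = tT (ent m₀) h₀ := by
    have hG1 : Gb 1 = h₀ := by simp [Gb, cw, ew, hh₀]
    have hm1 : mw 1 = m₀ := by simp [mw]
    simp only [F, hG1, hm1, one_mul, div_one, tT_self h₀pos, sub_zero]
  rw [e1] at h
  simp only [F] at h
  rw [div_le_iff₀ hw₀.1] at h
  simp only [Gb, cw, ew, mw] at h
  linarith

lemma avg_neg' {ι : Type} [Fintype ι] (g : ι → ℝ) : avg (fun i => -g i) = -avg g := by
  simp [avg, neg_div]

/-- The cross inequality on ordered pairs of children. -/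
lemma cross_core (q4 : Q4KStmt) (base : BaseStmt) {ι : Type} [Fintype ι] [Nonempty ι]
    (a b : ι → ℝ) (ha : ∀ i, a i ∈ Ioo (-1:ℝ) 1) (hb : ∀ i, b i ∈ Ioo (-1:ℝ) 1)
    (hlt : avg b < avg a) (hm : 0 ≤ avg a + avg b) :
    tT (ent ((avg a + avg b) / 2)) ((avg (fun i => ent (a i)) + avg (fun i => ent (b i))) / 2)
      - tT ((ent (avg a) + ent (avg b)) / 2)
          ((avg (fun i => ent (a i)) + avg (fun i => ent (b i))) / 2)
      ≤ avg (fun i => edgeJ (a i) (b i)) := by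
  set m := (avg a + avg b) / 2 with hmdef
  set d := (avg a - avg b) / 2 with hddef
  set h := (avg (fun i => ent (a i)) + avg (fun i => ent (b i))) / 2 with hhdef
  have hA := avg_mem ha
  have hB := avg_mem hb
  have hd : 0 < d := by rw [hddef]; linarith
  have hm0 : 0 ≤ m := by rw [hmdef]; linarith
  have hdm : d + m < 1 := by rw [hmdef, hddef]; linarith [hA.2]
  have hh : 0 < h := by rw [hhdef]; linarith [avg_ent_pos ha, avg_ent_pos hb]
  have hhle : h ≤ (ent (avg a) + ent (avg b)) / 2 := by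
    rw [hhdef]; linarith [avg_ent_le ha, avg_ent_le hb]
  have eA : avg a = m + d := by rw [hmdef, hddef]; ring
  have eB : avg b = m - d := by rw [hmdef, hddef]; ring
  by_cases hreg : (1 - m) * ent (d / (1 - m)) ≤ h
  · obtain ⟨a₀, b₀, w, ha₀, hb₀, hlt₀, hsum, hw0, hw1, -, e1, e2, e3⟩ :=
      JStar.exists_atom hd hdm hm0 hreg (by rw [← eA, ← eB]; exact hhle)
    have hJ := JStar.avg_edgeJ_ge_atom a b ha hb ha₀ hb₀ hlt₀ hsum (by rw [eA]; exact e1)
      (by rw [eB]; exact e2) (by linarith)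
    have hD := defect_le q4 (k := 1) ha₀ hb₀ ⟨by norm_num, le_rfl⟩ ⟨hw0, hw1⟩ hlt₀ (by linarith)
      (by linarith [ha₀.2, hb₀.2])
    have f1 : (1 - w) * 1 + w * a₀ = avg a := by rw [eA]; linarith
    have f2 : (1 - w) * 1 + w * b₀ = avg b := by rw [eB]; linarith
    have f3 : (1 - w) * 1 + w * ((a₀ + b₀) / 2) = m := by linarith
    have f4 : w * ((ent a₀ + ent b₀) / 2) = h := by linarith
    rw [f1, f2, f3, f4] at hD
    have := mul_le_mul_of_nonneg_left (base a₀ ha₀ b₀ hb₀) hw0.le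
    linarith
  · push Not at hreg
    have h1m : 0 < 1 - m := by linarith
    have hr0 : 0 < d / (1 - m) := div_pos hd h1m
    have hr1 : d / (1 - m) ≤ 1 := by rw [div_le_one h1m]; linarith
    have hc : ContinuousOn (fun r : ℝ => d / r * ent r) (Icc (d / (1 - m)) 1) :=
      (continuousOn_const.div continuousOn_id fun r hr => (lt_of_lt_of_le hr0 hr.1).ne').mul
        ent_continuous.continuousOn
    obtain ⟨r, hr, hre⟩ := intermediate_value_Icc' hr1 hc
      (show h ∈ Icc (d / 1 * ent 1) (d / (d / (1 - m)) * ent (d / (1 - m))) by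
        rw [ent_one, mul_zero, show d / (d / (1 - m)) = 1 - m by field_simp]
        exact ⟨hh.le, hreg.le⟩)
    simp only at hre
    have hrpos : 0 < r := lt_of_lt_of_le hr0 hr.1
    have hr' : r < 1 := by
      rcases eq_or_lt_of_le hr.2 with e | e
      · rw [e, ent_one, mul_zero] at hre; linarith
      · exact e
    set w := d / r with hwdef
    have hw0 : 0 < w := div_pos hd hrpos
    have hwm : w ≤ 1 - m := by
      rw [hwdef, div_le_iff₀ hrpos]
      have := hr.1
      rw [div_le_iff₀ h1m] at this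
      linarith
    have hdr : w * r = d := div_mul_cancel₀ d hrpos.ne'
    obtain ⟨k, hk, hkm, hk00⟩ : ∃ k ∈ Icc (-1:ℝ) 1, (1 - w) * k = m ∧ 0 ≤ k := by
      rcases eq_or_lt_of_le (show w ≤ 1 by linarith) with e | e
      · exact ⟨0, ⟨by norm_num, by norm_num⟩, by linarith, le_rfl⟩
      · refine ⟨m / (1 - w), ⟨?_, ?_⟩, mul_div_cancel₀ m (by linarith), div_nonneg hm0 (by linarith)⟩
        · have : 0 ≤ m / (1 - w) := div_nonneg hm0 (by linarith)
          linarith
        · rw [div_le_one (by linarith)]; linarith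
    have hr2 : r ∈ Ioo (-1:ℝ) 1 := ⟨by linarith, hr'⟩
    have hr3 : -r ∈ Ioo (-1:ℝ) 1 := ⟨by linarith, by linarith⟩
    have hD := defect_le q4 hr2 hr3 hk ⟨hw0, by linarith⟩ (by linarith) (by linarith) (by linarith)
    have f1 : (1 - w) * k + w * r = avg a := by rw [eA, hkm, hdr]
    have f2 : (1 - w) * k + w * -r = avg b := by rw [eB, hkm, mul_neg, hdr]; ring
    have f3 : (1 - w) * k + w * ((r + -r) / 2) = m := by rw [hkm]; ring
    have f4 : w * ((ent r + ent (-r)) / 2) = h := by rw [ent_neg, ← hre]; ring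
    rw [f1, f2, f3, f4] at hD
    have hb0 := mul_le_mul_of_nonneg_left (base r hr2 (-r) hr3) hw0.le
    have hJr : edgeJ r (-r) = r * artanh r := by
      unfold edgeJ; rw [artanh_neg' hr2]; ring
    rw [hJr] at hb0
    have habs : |avg a - avg b| / 2 = d := by
      rw [abs_of_pos (by linarith), hddef]
    have hW : 0 < artanh r := artanh_pos ⟨hrpos, hr'⟩
    have hcross := avg_edgeJ_ge_cross hW a b ha hb (by
      rw [habs, kV, tanh_artanh hr2, ← hhdef, ← hre, hwdef]; ring)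
    rw [habs, ← hdr] at hcross
    linarith

/-- The cross inequality. -/
lemma cross_ineq (q4 : Q4KStmt) (base : BaseStmt) {ι : Type} [Fintype ι] [Nonempty ι]
    (a b : ι → ℝ) (ha : ∀ i, a i ∈ Ioo (-1:ℝ) 1) (hb : ∀ i, b i ∈ Ioo (-1:ℝ) 1) :
    tT (ent ((avg a + avg b) / 2)) ((avg (fun i => ent (a i)) + avg (fun i => ent (b i))) / 2)
      - tT ((ent (avg a) + ent (avg b)) / 2)
          ((avg (fun i => ent (a i)) + avg (fun i => ent (b i))) / 2)
      ≤ avg (fun i => edgeJ (a i) (b i)) := by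
  have ordered : ∀ u v : ι → ℝ, (∀ i, u i ∈ Ioo (-1:ℝ) 1) → (∀ i, v i ∈ Ioo (-1:ℝ) 1) →
      avg v < avg u →
      tT (ent ((avg u + avg v) / 2)) ((avg (fun i => ent (u i)) + avg (fun i => ent (v i))) / 2)
        - tT ((ent (avg u) + ent (avg v)) / 2)
            ((avg (fun i => ent (u i)) + avg (fun i => ent (v i))) / 2)
        ≤ avg (fun i => edgeJ (u i) (v i)) := by
    intro u v hu hv hlt
    rcases le_or_gt 0 (avg u + avg v) with hm | hm
    · exact cross_core q4 base u v hu hv hlt hm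
    · have hneg : ∀ x : ℝ, x ∈ Ioo (-1:ℝ) 1 → -x ∈ Ioo (-1:ℝ) 1 :=
        fun x hx => ⟨by linarith [hx.2], by linarith [hx.1]⟩
      have h := cross_core q4 base (fun i => -v i) (fun i => -u i) (fun i => hneg _ (hv i))
        (fun i => hneg _ (hu i)) (by rw [avg_neg', avg_neg']; linarith)
        (by rw [avg_neg', avg_neg']; linarith)
      have eJ : (fun i => edgeJ (-v i) (-u i)) = fun i => edgeJ (u i) (v i) := by
        funext i; unfold edgeJ; rw [artanh_neg' (hu i), artanh_neg' (hv i)]; ring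
      simp only [avg_neg', ent_neg, eJ] at h
      rw [show (-avg v + -avg u) / 2 = -((avg u + avg v) / 2) by ring, ent_neg,
        add_comm (avg fun i => ent (v i)), add_comm (ent (avg v))] at h
      exact h
  rcases lt_trichotomy (avg b) (avg a) with h | h | h
  · exact ordered a b ha hb h
  · rw [h, show (avg a + avg a) / 2 = avg a by ring,
      show (ent (avg a) + ent (avg a)) / 2 = ent (avg a) by ring, sub_self]
    exact div_nonneg (Finset.sum_nonneg fun i _ => edgeJ_nonneg (ha i) (hb i)) (Nat.cast_nonneg _)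
  · have h' := ordered b a hb ha h
    have eJ : (fun i => edgeJ (b i) (a i)) = fun i => edgeJ (a i) (b i) :=
      funext fun i => edgeJ_comm _ _
    rw [eJ, add_comm (avg b), add_comm (avg fun i => ent (b i)), add_comm (ent (avg b))] at h'
    exact h'

/-- The one-step inequality follows from Q4 and BASE. -/
theorem twoPoint_of_Q4_base (q4 : Q4KStmt) (base : BaseStmt) : TwoPointStmt := by
  intro ι _ _ a b ha hb
  have h1 := cross_ineq q4 base a b ha hb
  have h2 := tT_midpoint (avg_ent_pos ha) (avg_ent_le ha) (ent_le (avg a))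
    (avg_ent_pos hb) (avg_ent_le hb) (ent_le (avg b))
  unfold bellF
  linarith

end Vale.Agent.P322
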