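import Vale.Agent.P322.AlphaBounds

/-!
Q4 on the corner band `c` near `1`, `e` near `-1`, where it is asymptotically sharp.

With `c = 1 - 2p`, `e = -1 + 2q`, `X = -log q`, the entropy variable drops out after a tangent
bound on `log (1 + x)`, leaving an inequality in `p`, `q`.
-/

noncomputable section

namespace Vale.Agent.P322

open Real Set Topology

lemma softplus_tangent {μ x : ℝ} (h0 : 0 < μ) (h1 : μ < 1) (hx : 0 < x) :
    μ * log x - μ * log μ + μ * (1 - μ) ≤ log (1 + x) := by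
  have h := strictConcaveOn_log_Ioi.concaveOn.2 (mem_Ioi.mpr (div_pos hx h0))
    (mem_Ioi.mpr (one_div_pos.mpr (show 0 < 1 - μ by linarith))) h0.le
    (show 0 ≤ 1 - μ by linarith) (by ring)
  simp only [smul_eq_mul] at h
  rw [mul_div_cancel₀ _ h0.ne', mul_one_div_cancel (by linarith), log_div hx.ne' h0.ne',
    log_div one_ne_zero (by linarith), log_one, zero_sub, add_comm x] at h
  have h2 : (1 - μ) * log (1 - μ) ≤ (1 - μ) * (-μ) :=
    mul_le_mul_of_nonneg_left
      (by linarith [log_le_sub_one_of_pos (show 0 < 1 - μ by linarith)]) (by linarith)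
  nlinarith

lemma scaled_softplus {τ x : ℝ} (hτ : 1 < τ) (hx : 0 < x) :
    log x + log τ + 1 - 1 / τ ≤ τ * log (1 + x) := by
  have h0 : 0 < τ := by linarith
  have h := softplus_tangent (μ := 1 / τ) (by positivity)
    (by rw [div_lt_one h0]; exact hτ) hx
  rw [log_div one_ne_zero h0.ne', log_one] at h
  have := mul_le_mul_of_nonneg_left h h0.le
  calc log x + log τ + 1 - 1 / τ
      = τ * (1 / τ * log x - 1 / τ * (0 - log τ) + 1 / τ * (1 - 1 / τ)) := by field_simp; ring
    _ ≤ _ := this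

/-- `α ≤ artanh + 3/4` and the logarithmic bound on the entropy, for small entropy. -/
lemma psiIcpt_le_of_small {r : ℝ} (hr : r ∈ Ioo (0:ℝ) 1) (h : ent r ≤ 0.18) :
    psiIcpt r ≤ artanh r + 3 / 4 ∧
      2 * artanh r ≤ -log (ent r) + log (2 * artanh r + 1) := by
  have hr86 : (0.86:ℝ) ≤ r := by
    by_contra hc
    push Not at hc
    have h1 := ent_strictAntiOn ⟨hr.1.le, hr.2.le⟩ (show (0.86:ℝ) ∈ Icc (0:ℝ) 1 by norm_num) hc
    have h2 := ent_lower (show (0.86:ℝ) ∈ Ico (0:ℝ) 1 by norm_num)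
    have h3 : (1.2:ℝ) ≤ artanh 0.86 := by
      rw [artanh_eq_half_log_sub (show (0.86:ℝ) ∈ Ioo (-1:ℝ) 1 by norm_num),
        ← log_div (by norm_num) (by norm_num)]
      have : (2.4:ℝ) ≤ log ((1 + 0.86) / (1 - 0.86)) := by
        rw [le_log_iff_exp_le (by norm_num)]
        calc exp (2.4:ℝ) = exp 1 * exp 1 * exp 0.4 := by
              rw [← exp_add, ← exp_add]; norm_num
          _ ≤ 2.72 * 2.72 * (1 / (1 - 0.4)) := by
              have h1 : exp 1 ≤ 2.72 := by linarith [exp_one_lt_d9]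
              have h2 : exp (0.4:ℝ) ≤ 1 / (1 - 0.4) :=
                exp_bound_div_one_sub_of_interval (by norm_num) (by norm_num)
              gcongr
          _ ≤ _ := by norm_num
      linarith
    norm_num at h2
    linarith
  obtain ⟨w, hw⟩ : ∃ w, w = artanh r := ⟨_, rfl⟩
  set u := (1 - r) / (1 + r) with hu
  have h1 : 0 < 1 + r := by linarith [hr.1]
  have h2 : 0 < 1 - r := by linarith [hr.2]
  have hu0 : 0 < u := div_pos h2 h1
  have hu1 : u ≤ 0.0753 := by rw [hu, div_le_iff₀ h1]; linarith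
  have hwu : 2 * w = -log u := by
    rw [hw, artanh_eq_half_log_sub ⟨by linarith, hr.2⟩, hu, log_div h2.ne' h1.ne']; ring
  have hw12 : 1.2 ≤ w := by
    have : log u ≤ -2.4 := by
      rw [log_le_iff_le_exp hu0]
      calc u ≤ 0.0753 := hu1
        _ ≤ (1 / (2.72 * 2.72)) * (1 - 0.4) := by norm_num
        _ ≤ exp (-2) * exp (-0.4) := by
            have e2 : 1 / (2.72 * 2.72) ≤ exp (-2:ℝ) := by
              rw [exp_neg, one_div, show (2:ℝ) = 1 + 1 by norm_num, exp_add]
              exact inv_anti₀ (by positivity)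
                (by nlinarith [exp_one_lt_d9, exp_pos (1:ℝ)])
            have e4 : 1 - 0.4 ≤ exp (-0.4:ℝ) := by linarith [add_one_le_exp (-0.4:ℝ)]
            gcongr
        _ = exp (-2.4) := by rw [← exp_add]; norm_num
    linarith
  have er : r = (1 - u) / (1 + u) := by rw [hu]; field_simp; ring
  have hH : ent r = 2 * w * u / (1 + u) + log (1 + u) := by
    unfold ent
    rw [binEntropy_eq_negMulLog_add_negMulLog_one_sub,
      show 1 - (1 + r) / 2 = (1 - r) / 2 by ring, hw,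
      artanh_eq_half_log_sub ⟨by linarith, hr.2⟩]
    have e1 : 1 + u = 2 / (1 + r) := by rw [hu]; field_simp; ring
    rw [e1, log_div (by norm_num) h1.ne', hu]
    simp only [negMulLog]
    rw [log_div h1.ne' (by norm_num), log_div h2.ne' (by norm_num)]
    field_simp
    ring
  have hv : log (1 + u) ≤ u := by linarith [log_le_sub_one_of_pos (show 0 < 1 + u by linarith)]
  refine ⟨?_, ?_⟩
  · have e : psiIcpt r = w + log (1 + u) + (1 - u) / 2 + (1 - u) * (1 + u) * log (1 + u) / (4 * u * w) := by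
      unfold psiIcpt psiSlope
      rw [← hw, hH, er]
      have hw0 : w ≠ 0 := by linarith
      have h14 : 1 - ((1 - u) / (1 + u)) ^ 2 = 4 * u / (1 + u) ^ 2 := by field_simp; ring
      rw [h14]
      field_simp
      ring
    rw [e, ← hw]
    have hb : (1 - u) * (1 + u) * log (1 + u) / (4 * u * w) ≤ (1 - u) * (1 + u) / (4 * 1.2) := by
      rw [div_le_div_iff₀ (by positivity) (by norm_num)]
      have h5 : log (1 + u) * 1.2 ≤ u * w :=
        calc log (1 + u) * 1.2 ≤ u * 1.2 := by linarith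
          _ ≤ u * w := mul_le_mul_of_nonneg_left hw12 hu0.le
      have := mul_le_mul_of_nonneg_left h5
        (show 0 ≤ 4 * ((1 - u) * (1 + u)) by nlinarith)
      linarith
    have hb2 : (1 - u) * (1 + u) / (4 * 1.2) ≤ 1 / 4.8 := by
      rw [div_le_div_iff₀ (by norm_num) (by norm_num)]; nlinarith
    linarith
  · have hle : ent r ≤ (2 * w + 1) * u := by
      rw [hH]
      have : 2 * w * u / (1 + u) ≤ 2 * w * u := div_le_self (by nlinarith) (by linarith)
      linarith
    have hpos : 0 < ent r := ent_pos ⟨by linarith, hr.2⟩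
    have := log_le_log hpos hle
    rw [log_mul (by linarith) hu0.ne'] at this
    rw [← hw]
    linarith

lemma log_five : (1.6357:ℝ) ≤ log 5.14 := by
  rw [show (5.14:ℝ) = 2 * 2 * (1 + 0.285) by norm_num, log_mul (by norm_num) (by norm_num),
    log_mul (by norm_num) (by norm_num)]
  have := le_log_one_add_of_nonneg (show (0:ℝ) ≤ 0.285 by norm_num)
  have := log_two_gt_d9
  norm_num at *
  linarith

lemma binEntropy_ge {p : ℝ} (h0 : 0 < p) (h1 : p < 1) :
    p * (-log p) + p * (1 - p) ≤ binEntropy p := by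
  rw [binEntropy_eq_negMulLog_add_negMulLog_one_sub]
  simp only [negMulLog]
  have := mul_le_mul_of_nonneg_left (log_le_sub_one_of_pos (show 0 < 1 - p by linarith))
    (show 0 ≤ 1 - p by linarith)
  linarith

lemma binEntropy_le' {p : ℝ} (h1 : p < 1) :
    binEntropy p ≤ p * (-log p) + p := by
  rw [binEntropy_eq_negMulLog_add_negMulLog_one_sub]
  simp only [negMulLog]
  have := mul_le_mul_of_nonneg_left (one_sub_inv_le_log_of_pos (show 0 < 1 - p by linarith))
    (show 0 ≤ 1 - p by linarith)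
  rw [mul_sub, mul_inv_cancel₀ (by linarith)] at this
  linarith

lemma q_quad_le {q X : ℝ} (hq : q = exp (-X)) (hX : 4.158 ≤ X) :
    q * (0.6712 * (X - 0.447) * (X + 1) - 1.418 * (2 * X - 1)) ≤ 0.046 := by
  set t := X - 4.158 with ht
  have h1 : 1 + t + t ^ 2 / 2 ≤ exp t := quadratic_le_exp_of_nonneg (by linarith)
  have h2 : (63.85:ℝ) ≤ exp 4.158 := by
    calc (63.85:ℝ) ≤ 2.718281828 * 2.718281828 * 2.718281828 * 2.718281828
          * (1 + 0.158 + 0.158 ^ 2 / 2) := by norm_num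
      _ ≤ exp 1 * exp 1 * exp 1 * exp 1 * exp 0.158 := by
          have h1 : (2.718281828:ℝ) ≤ exp 1 := by linarith [exp_one_gt_d9]
          have h2 := quadratic_le_exp_of_nonneg (show (0:ℝ) ≤ 0.158 by norm_num)
          gcongr
      _ = exp 4.158 := by simp only [← exp_add]; norm_num
  have hq0 : 0 < q := hq ▸ exp_pos _
  have hqX : q * (exp 4.158 * exp t) = 1 := by
    rw [hq, ← exp_add, ← exp_add, ht]; simp
  have h3 : 63.85 * (1 + t + t ^ 2 / 2) ≤ exp 4.158 * exp t :=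
    mul_le_mul h2 h1 (by positivity) (exp_pos _).le
  have key : 0.6712 * (X - 0.447) * (X + 1) - 1.418 * (2 * X - 1)
      ≤ 0.046 * (63.85 * (1 + t + t ^ 2 / 2)) := by
    rw [show X = t + 4.158 by linarith]
    nlinarith [sq_nonneg (t - 0.43)]
  calc q * (0.6712 * (X - 0.447) * (X + 1) - 1.418 * (2 * X - 1))
      ≤ q * (0.046 * (exp 4.158 * exp t)) :=
        mul_le_mul_of_nonneg_left (by linarith) hq0.le
    _ = 0.046 * (q * (exp 4.158 * exp t)) := by ring
    _ = 0.046 := by rw [hqX, mul_one]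

lemma log_one_five : log 1.5 ≤ 0.406 := by
  rw [log_le_iff_le_exp (by norm_num)]
  calc (1.5:ℝ) ≤ ∑ i ∈ Finset.range 5, (0.406:ℝ) ^ i / (i.factorial : ℝ) := by
        norm_num [Finset.sum_range_succ, Nat.factorial]
    _ ≤ _ := sum_le_exp_of_nonneg (by norm_num) 5

lemma band_hq {q X : ℝ} (hq0 : 0 < q) (hq1 : q ≤ 1 / 64) (hX : X = -log q) :
    4.158 ≤ X ∧ q * X + q * (1 - q) ≤ binEntropy q ∧ binEntropy q ≤ q * (X + 1)
      ∧ binEntropy q ≤ 0.0807 := by
  have h64 : log (1 / 64 : ℝ) = -(6 * log 2) := by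
    rw [log_div one_ne_zero (by norm_num), log_one, show (64:ℝ) = 2 ^ 6 by norm_num, log_pow]
    push_cast; ring
  have h := log_le_log hq0 hq1
  have hl2a := log_two_gt_d9
  have hl2b := log_two_lt_d9
  refine ⟨by linarith, ?_, ?_, ?_⟩
  · have := binEntropy_ge hq0 (by linarith)
    rw [hX]; linarith
  · have := binEntropy_le' (show q < 1 by linarith)
    rw [hX]; linarith
  · have hmono := binEntropy_strictMonoOn.monotoneOn
      (show q ∈ Icc (0:ℝ) 2⁻¹ from ⟨hq0.le, by linarith⟩)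
      (show (1/64:ℝ) ∈ Icc (0:ℝ) 2⁻¹ by norm_num) hq1
    have h2 := binEntropy_le' (show (1/64:ℝ) < 1 by norm_num)
    rw [h64] at h2
    linarith

lemma band_hp {p : ℝ} (hp0 : 0 < p) (hp1 : p ≤ 1 / 20) :
    3.94 * p ≤ binEntropy p ∧ binEntropy p ≤ 0.202 ∧ 0 ≤ -log (1 - p) ∧ -log (1 - p) ≤ 0.0527 := by
  have hL20 : 2.9948 ≤ log 20 ∧ log 20 ≤ 3.023 := by
    rw [show (20:ℝ) = 2 * 2 * 2 * 2 * (1 + 0.25) by norm_num, log_mul (by norm_num) (by norm_num),
      log_mul (by norm_num) (by norm_num), log_mul (by norm_num) (by norm_num),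
      log_mul (by norm_num) (by norm_num)]
    have := le_log_one_add_of_nonneg (show (0:ℝ) ≤ 0.25 by norm_num)
    have := log_le_sub_one_of_pos (show (0:ℝ) < 1 + 0.25 by norm_num)
    have := log_two_gt_d9
    have := log_two_lt_d9
    norm_num at *
    constructor <;> linarith
  have h20 : log (1 / 20 : ℝ) = -log 20 := by
    rw [log_div one_ne_zero (by norm_num), log_one]; ring
  refine ⟨?_, ?_, ?_, ?_⟩
  · have h := binEntropy_ge hp0 (by linarith)
    have h2 := log_le_log hp0 hp1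
    nlinarith
  · have hmono := binEntropy_strictMonoOn.monotoneOn
      (show p ∈ Icc (0:ℝ) 2⁻¹ from ⟨hp0.le, by linarith⟩)
      (show (1/20:ℝ) ∈ Icc (0:ℝ) 2⁻¹ by norm_num) hp1
    have h := binEntropy_le' (show (1/20:ℝ) < 1 by norm_num)
    rw [h20] at h
    linarith
  · linarith [log_nonpos (show 0 ≤ 1 - p by linarith) (by linarith)]
  · have := one_sub_inv_le_log_of_pos (show 0 < 1 - p by linarith)
    have : (1 - p)⁻¹ ≤ 1 / 0.95 := by
      rw [one_div]; exact inv_anti₀ (by norm_num) (by linarith)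
    norm_num at *; linarith

lemma band_l {p q l : ℝ} (hp0 : 0 < p) (hp1 : p ≤ 1 / 20) (hq0 : 0 < q) (hq1 : q ≤ 1 / 64)
    (el : l = log 2 - log (1 + q - p)) :
    0.6775 ≤ l ∧ l ≤ 0.747 ∧ l - log 2 ≤ 1.053 * p - 0.983 * q ∧
      max (l - log 2 * (1 - (q - p) ^ 2)) 0 ≤ 1.091 * p := by
  have hl2a := log_two_gt_d9
  have hl2b := log_two_lt_d9
  have hlb := log_le_sub_one_of_pos (show 0 < 1 + q - p by linarith)
  have h := one_sub_inv_le_log_of_pos (show 0 < 1 + q - p by linarith)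
  have h2 : (1 + q - p)⁻¹ - 1 ≤ 1.053 * p - 0.983 * q := by
    rw [sub_le_iff_le_add, inv_le_iff_one_le_mul₀ (by linarith)]
    nlinarith
  have hub : l - log 2 ≤ 1.053 * p - 0.983 * q := by linarith
  refine ⟨by linarith, by linarith, hub, max_le ?_ (by linarith)⟩
  nlinarith [mul_nonneg hp0.le hq0.le]

lemma band_T12 {p q X l lb τ k hp hq : ℝ} (hl2a : 0.6931471803 < log 2)
    (hl2b : log 2 < 0.6931471808) (hX : 4.158 ≤ X) (hq0 : 0 < q) (ha : X / 2 ≤ lb) (ha' : lb ≤ (X + 0.0527) / 2)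
    (hl0 : 0.6775 ≤ l) (hlub : l - log 2 ≤ 1.053 * p - 0.983 * q) (hp0 : 0 < p)
    (hk : k = (2 * X - 1) / (2 * X)) (hτ : τ = k * lb / l)
    (hhp : 0 ≤ hp) (hhq : 0 ≤ hq) (hhp2 : hp ≤ 0.202) (hhq2 : hq ≤ 0.0807)
    (hhq3 : hq ≤ q * (X + 1)) :
    (2 * X - 1) - 1.5192 * (2 * X - 1) * p + 1.418 * (2 * X - 1) * q ≤ 4 * log 2 * τ ∧
    -(0.6712 * (X - 0.447) * (hp + q * (X + 1))) ≤ τ * log (1 - (hp + hq) / 2 / log 2) ∧
    k * X / (2 * l) ≤ τ := by
  have hk2 : k * (2 * X) = 2 * X - 1 := by rw [hk]; field_simp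
  have hk0 : 0 < k := by rw [hk]; exact div_pos (by linarith) (by linarith)
  have hk1 : k ≤ 1 := by rw [hk, div_le_one (by linarith)]; linarith
  have hτlo : k * X / (2 * l) ≤ τ := by
    rw [hτ, show k * X / (2 * l) = k * (X / 2) / l by ring]
    gcongr
  refine ⟨?_, ?_, hτlo⟩
  · have h1 : 4 * log 2 * (k * X / (2 * l)) ≤ 4 * log 2 * τ :=
      mul_le_mul_of_nonneg_left hτlo (by linarith)
    have h2 : 4 * log 2 * (k * X / (2 * l)) = (log 2 / l) * (2 * X - 1) := by
      rw [← hk2]; field_simp; ring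
    have h3 : 1 - (l - log 2) / log 2 ≤ log 2 / l := by
      rw [le_div_iff₀ (by linarith), sub_mul, one_mul, div_mul_eq_mul_div, sub_le_iff_le_add,
        ← sub_le_iff_le_add', le_div_iff₀ (by linarith)]
      nlinarith [sq_nonneg (l - log 2)]
    have h4 : (l - log 2) / log 2 ≤ 1.5192 * p - 1.418 * q := by
      rw [div_le_iff₀ (by linarith)]; nlinarith [mul_lt_mul_of_pos_left hl2a hp0, mul_lt_mul_of_pos_left hl2b hq0]
    have := mul_le_mul_of_nonneg_right
      (show 1 - (1.5192 * p - 1.418 * q) ≤ log 2 / l by linarith)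
      (show (0:ℝ) ≤ 2 * X - 1 by linarith)
    linarith
  · obtain ⟨e, he⟩ : ∃ e, e = (hp + hq) / 2 / log 2 := ⟨_, rfl⟩
    rw [← he]
    have he0 : 0 ≤ e := by rw [he]; positivity
    have he1 : e ≤ 0.2040 := by rw [he, div_le_iff₀ (by linarith)]; linarith
    have hle : -(0.907 * (hp + hq)) ≤ log (1 - e) := by
      have h := one_sub_inv_le_log_of_pos (show 0 < 1 - e by linarith)
      have e1 : e ≤ (hp + hq) * 0.72135 := by
        rw [he, div_le_iff₀ (by linarith)]; nlinarith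
      have h2 : (1 - e)⁻¹ - 1 ≤ 1.2565 * e := by
        rw [sub_le_iff_le_add, inv_le_iff_one_le_mul₀ (by linarith)]
        nlinarith
      linarith
    have hτhi : τ ≤ 0.74 * (X - 0.447) := by
      rw [hτ, div_le_iff₀ (by linarith)]
      have h1 : k * (2 * lb) ≤ X - 0.447 := by
        have := mul_le_mul_of_nonneg_left ha' hk0.le
        have := mul_le_mul_of_nonneg_right hk1 (show (0:ℝ) ≤ 0.0527 by norm_num)
        linarith
      have := mul_le_mul_of_nonneg_left hl0 (show 0 ≤ 0.74 * (X - 0.447) by linarith)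
      linarith
    have hτ0 : 0 ≤ τ := le_trans (div_nonneg (mul_nonneg hk0.le (by linarith)) (by linarith)) hτlo
    have h1 : τ * -(0.907 * (hp + hq)) ≤ τ * log (1 - e) := mul_le_mul_of_nonneg_left hle hτ0
    have h2 : τ * (0.907 * (hp + hq)) ≤ 0.74 * (X - 0.447) * (0.907 * (hp + q * (X + 1))) :=
      mul_le_mul hτhi (by linarith) (by positivity) (by linarith)
    have : 0 ≤ (X - 0.447) * (hp + q * (X + 1)) := by
      have : 0 ≤ q * (X + 1) := mul_nonneg hq0.le (by linarith)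
      exact mul_nonneg (by linarith) (by linarith)
    linarith

lemma band_T345 {p q X l τ k P : ℝ} (hl2a : 0.6931471803 < log 2) (hX : 4.158 ≤ X)
    (hq0 : 0 < q) (hp0 : 0 < p) (hl0 : 0.6775 ≤ l) (hlub : l - log 2 ≤ 1.053 * p - 0.983 * q)
    (hk : k = (2 * X - 1) / (2 * X)) (hτlo : k * X / (2 * l) ≤ τ)
    (hP0 : 0 ≤ P) (hP : P ≤ 1.091 * p) :
    -(1 / (2 * X - 1)) - 2 * log 2 - log (log 2) - 1.5192 * p ≤ log τ - log (2 * X) ∧
    1 / τ ≤ 4 * (log 2 + 1.053 * p) / (2 * X - 1) ∧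
    2.58 * k * P / l ≤ 4.155 * p := by
  have hk2 : k * (2 * X) = 2 * X - 1 := by rw [hk]; field_simp
  have hk0 : 0 < k := by rw [hk]; exact div_pos (by linarith) (by linarith)
  have hk1 : k ≤ 1 := by rw [hk, div_le_one (by linarith)]; linarith
  have hpos : 0 < k * X / (2 * l) := div_pos (mul_pos hk0 (by linarith)) (by linarith)
  refine ⟨?_, ?_, ?_⟩
  · have h1 := log_le_log hpos hτlo
    rw [log_div (mul_pos hk0 (by linarith)).ne' (by linarith), log_mul hk0.ne' (by linarith),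
      log_mul (by norm_num) (by linarith)] at h1
    rw [log_mul (by norm_num) (by linarith)]
    have h2 : -(1 / (2 * X - 1)) ≤ log k := by
      have := one_sub_inv_le_log_of_pos hk0
      have e1 : k⁻¹ = 1 + 1 / (2 * X - 1) := by
        have hne : 2 * X - 1 ≠ 0 := by linarith
        rw [hk]; field_simp; ring
      linarith
    have h3 : log l ≤ log (log 2) + 1.5192 * p := by
      have h := log_le_sub_one_of_pos (show 0 < l / log 2 by positivity)
      rw [log_div (by linarith) (by linarith)] at h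
      have : l / log 2 - 1 ≤ 1.5192 * p := by
        rw [sub_le_iff_le_add, div_le_iff₀ (by linarith)]; nlinarith
      linarith
    linarith
  · calc 1 / τ ≤ 1 / (k * X / (2 * l)) := one_div_le_one_div_of_le hpos hτlo
      _ = 4 * l / (2 * X - 1) := by rw [← hk2]; field_simp; ring
      _ ≤ _ := by gcongr <;> linarith
  · rw [div_le_iff₀ (by linarith)]
    have h2 : 2.58 * k * P ≤ 2.58 * 1 * (1.091 * p) :=
      mul_le_mul (by linarith) hP hP0 (by norm_num)
    nlinarith

lemma band_T6 {q X hp hq : ℝ} (hX : X = -log q) (hq0 : 0 < q) (hq1 : q ≤ 1 / 64)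
    (hhp0 : 0 < hp) (hhp : hp ≤ 0.202) (hqlo : q * X + q * (1 - q) ≤ hq) (hX4 : 4.158 ≤ X) :
    -2 * X + 2 * log (X + 1 - q) - 2 * log 2
      + 3 * hp * (X - log 1.5 - log (X + 1 - q) + 1 - 1.5 * hp)
      ≤ 2 * log ((hp + hq) / 2) := by
  have hden : 0 < q * (X + 1 - q) := mul_pos hq0 (by linarith)
  obtain ⟨T, hT⟩ : ∃ T, T = hp / (q * (X + 1 - q)) := ⟨_, rfl⟩
  have hT0 : 0 < T := hT ▸ div_pos hhp0 hden
  have h1 : q * (X + 1 - q) * (1 + T) ≤ hp + hq := by
    rw [mul_add, mul_one, hT, mul_div_cancel₀ _ hden.ne']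
    linarith
  have h2 := log_le_log (mul_pos hden (by linarith)) h1
  rw [log_mul hden.ne' (by linarith), log_mul hq0.ne' (by linarith)] at h2
  have h3 := softplus_tangent (μ := 1.5 * hp) (by linarith) (by linarith) hT0
  have elT : log T = log hp - (log q + log (X + 1 - q)) := by
    rw [hT, log_div hhp0.ne' hden.ne', log_mul hq0.ne' (by linarith)]
  rw [elT, log_mul (show (1.5:ℝ) ≠ 0 by norm_num) hhp0.ne'] at h3
  rw [log_div (by nlinarith) (by norm_num)]
  have hXd : log q = -X := by linarith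
  rw [hXd] at h2 h3
  linarith

lemma band_collect {p q X hp : ℝ} (hqX : q = exp (-X)) (hX : 4.158 ≤ X) (hq1 : q ≤ 1 / 64)
    (hp0 : 0 < p) (hhp : hp ≤ 0.202) (hplo : 3.94 * p ≤ hp) :
    0 ≤ ((2 * X - 1) - 1.5192 * (2 * X - 1) * p + 1.418 * (2 * X - 1) * q)
      - 0.6712 * (X - 0.447) * (hp + q * (X + 1))
      + (-(1 / (2 * X - 1)) - 2 * log 2 - log (log 2) - 1.5192 * p)
      + 1 - 4 * (log 2 + 1.053 * p) / (2 * X - 1)
      + (-2 * X + 2 * log (X + 1 - q) - 2 * log 2
          + 3 * hp * (X - log 1.5 - log (X + 1 - q) + 1 - 1.5 * hp))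
      - log (log 2) - 1 / 2 - 4.155 * p := by
  have hl2a := log_two_gt_d9
  have hl2b := log_two_lt_d9
  have hq0 : 0 < q := hqX ▸ exp_pos _
  have hhp0 : 0 < hp := by linarith
  have hlogX : log (X + 1 - q) ≤ 0.2 * X + 0.84 := by
    have h := log_le_sub_one_of_pos (show 0 < (X + 1) / 5 by linarith)
    rw [log_div (by linarith) (by norm_num)] at h
    have h5 : log 5 ≤ 1.637 := by
      rw [show (5:ℝ) = 2 * 2 * (1 + 0.25) by norm_num, log_mul (by norm_num) (by norm_num),
        log_mul (by norm_num) (by norm_num)]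
      have := log_le_sub_one_of_pos (show (0:ℝ) < 1 + 0.25 by norm_num)
      norm_num at *; linarith
    have := log_le_log (show 0 < X + 1 - q by linarith) (show X + 1 - q ≤ X + 1 by linarith)
    linarith
  have hlogX2 : 1.6357 ≤ log (X + 1 - q) :=
    le_trans log_five (log_le_log (by norm_num) (by linarith))
  have hlll : log (log 2) ≤ -0.306852 := by
    linarith [log_le_sub_one_of_pos (show 0 < log 2 by linarith)]
  have hinv : 1 / (2 * X - 1) + 4 * (log 2 + 1.053 * p) / (2 * X - 1)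
      ≤ (1 + 4 * log 2) * (1 / 7.316) + 0.576 * p := by
    rw [← add_div]
    calc (1 + 4 * (log 2 + 1.053 * p)) / (2 * X - 1)
        ≤ (1 + 4 * (log 2 + 1.053 * p)) / 7.316 := by gcongr; linarith
      _ ≤ _ := by rw [div_eq_mul_one_div]; linarith
  have hQ : q * (0.6712 * (X - 0.447) * (X + 1) - 1.418 * (2 * X - 1)) ≤ 0.046 := by
    have h := q_quad_le hqX hX
    linarith
  have hgain : hp * (0.8 * X - 0.55) ≤ hp * (X - log 1.5 - log (X + 1 - q) + 1 - 1.5 * hp) :=
    mul_le_mul_of_nonneg_left (by linarith [log_one_five]) hhp0.le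
  have hp3 : p * (1.5192 * (2 * X - 1) + 1.5192 + 0.576 + 4.155)
      ≤ hp * (1 / 3.94) * (1.5192 * (2 * X - 1) + 1.5192 + 0.576 + 4.155) :=
    mul_le_mul_of_nonneg_right (by rw [← div_eq_mul_one_div, le_div_iff₀ (by norm_num)]; linarith) (by linarith)
  have hcoef : 0 ≤ hp * ((2.4 - 0.6712 - 2 * 1.5192 * (1 / 3.94)) * (X - 4.158)) :=
    mul_nonneg hhp0.le (mul_nonneg (by norm_num) (by linarith))
  have k1 : p * (1.5192 * (2 * X - 1) + 1.5192 + 0.576 + 4.155) + 0.6712 * (X - 0.447) * hp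
      ≤ 3 * (hp * (0.8 * X - 0.55)) := by linarith
  have k2 : 0 ≤ -(4 * log 2) - 2 * log (log 2) - 1 / 2 + 2 * log (X + 1 - q)
      - (1 + 4 * log 2) * (1 / 7.316) - 0.046 := by linarith
  linarith

/-- The closed inequality in `p`, `q`. -/
lemma band_core {p q hp hq a : ℝ} (hp0 : 0 < p) (hp1 : p ≤ 1 / 20) (hq0 : 0 < q)
    (hq1 : q ≤ 1 / 64) (ehp : hp = binEntropy p) (ehq : hq = binEntropy q)
    (ea : a = -log (1 - p)) :
    let X := -log q
    let l := log 2 - log (1 + q - p)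
    let k := (2 * X - 1) / (2 * X)
    let τ := k * ((X + a) / 2) / l
    1 < τ ∧ (hp + hq) / 2 ≤ 0.15 ∧
    0 ≤ 4 * log 2 * τ + τ * log (1 - (hp + hq) / 2 / log 2) + log τ + 1 - 1 / τ
      + 2 * log ((hp + hq) / 2) - log (log 2) - log (2 * X) - k / 2
      - 2.58 * k * max (l - log 2 * (1 - (q - p) ^ 2)) 0 / l := by
  intro X l k τ
  obtain ⟨hX, hqlo, hqhi, hqhi2⟩ := band_hq hq0 hq1 (X := X) rfl
  obtain ⟨hplo, hphi, ha0, ha1⟩ := band_hp hp0 hp1
  obtain ⟨hl0, hl1, hlub, hP⟩ := band_l hp0 hp1 hq0 hq1 (l := l) rfl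
  rw [← ehq] at hqlo hqhi hqhi2
  rw [← ehp] at hplo hphi
  rw [← ea] at ha0 ha1
  have hl2a := log_two_gt_d9
  have hk2 : k * (2 * X) = 2 * X - 1 := div_mul_cancel₀ _ (by linarith)
  have hk1 : k ≤ 1 := (div_le_one (by linarith)).mpr (by linarith)
  have hqpos : 0 ≤ q * X + q * (1 - q) := by nlinarith
  obtain ⟨hT2, hT1, hτlo⟩ := band_T12 (lb := (X + a) / 2) (τ := τ) (k := k) hl2a log_two_lt_d9 hX hq0
    (by linarith) (by linarith) hl0 hlub hp0 rfl rfl (by linarith) (by linarith) hphi hqhi2 hqhi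
  obtain ⟨hT3, hT4, hT5⟩ := band_T345 hl2a hX hq0 hp0 hl0 hlub rfl hτlo (le_max_right _ _) hP
  have hT6 := band_T6 (X := X) (hp := hp) rfl hq0 hq1 (by linarith) hphi hqlo hX
  have hC := band_collect (show q = exp (-X) by show q = exp (- -log q); rw [neg_neg, exp_log hq0])
    hX hq1 hp0 hphi hplo
  have hkX : 2.3 ≤ k * X / (2 * l) := by rw [le_div_iff₀ (by linarith)]; linarith
  exact ⟨by linarith, by linarith, by linarith⟩

lemma h_le_tZ {G h : ℝ} (hh : 0 < h) (hhG : h < G) (hGL : G ≤ log 2) :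
    h ≤ log 2 * tZ G h := by
  have hcG := tC_pos hh hhG.le
  have hL := log_two_pos'
  have hG0 : 0 < G := lt_trans hh hhG
  unfold tZ
  rw [mul_div_assoc', le_div_iff₀ hcG]
  unfold tC
  rw [← sub_nonneg]
  have e1 : log 2 * (h / G) - h * ((G - h) / log 2 + h / G)
      = h / (G * log 2) * ((log 2 - G) * log 2 + (log 2 - G) * (G - h)) := by
    field_simp; ring
  rw [e1]
  have : 0 ≤ log 2 - G := by linarith
  have : 0 ≤ G - h := by linarith
  positivity

lemma tZ_inv_lower {G₀ h : ℝ} (hh : 0 < h) (hlt : h < G₀) (hG : G₀ < log 2) :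
    2 * log 2 + (log (1 - G₀ / log 2) + log (1 + G₀ ^ 2 / (h * log 2))) / 2
      ≤ psiIcpt (tR G₀ h) := by
  have hL := log_two_pos'
  have hG₀0 : 0 < G₀ := lt_trans hh hlt
  obtain ⟨hzC, hrC⟩ := tR_mem hh hlt
  have heC : ent (tR G₀ h) = log 2 * tZ G₀ h := ent_rEnt_Icc (Ioo_subset_Icc_self hzC)
  have hzC0 : 0 < tZ G₀ h := tZ_pos hh hlt.le
  obtain ⟨x, hx⟩ : ∃ x, x = G₀ ^ 2 / (h * log 2) := ⟨_, rfl⟩
  rw [← hx]
  have hx0 : 0 < x := by rw [hx]; positivity
  have he1' : 0 < 1 - G₀ / log 2 := by rw [sub_pos, div_lt_one hL]; exact hG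
  have h1 := psiIcpt_ge_log hrC
  rw [heC, log_mul hL.ne' hzC0.ne'] at h1
  have h2 : (1 - G₀ / log 2) * (1 + x) ≤ 1 / tZ G₀ h := by
    have e1 : 1 / tZ G₀ h = 1 + x - G₀ / log 2 := by
      rw [hx]; unfold tZ tC; field_simp; ring
    have : 0 ≤ G₀ / log 2 * x := by positivity
    rw [e1]; linarith
  have h3 := log_le_log (by positivity) h2
  rw [log_mul he1'.ne' (by positivity), log_div one_ne_zero hzC0.ne', log_one] at h3
  linarith

lemma slope_term_le {G h : ℝ} (hh : 0 < h) (hhG : h < G) :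
    h * log 2 * psiChi (tR G h) ≤ 1.29 * G ^ 2 := by
  have hL := log_two_pos'
  have hG0 : 0 < G := lt_trans hh hhG
  obtain ⟨hzP, hrP⟩ := tR_mem hh hhG
  have heP : ent (tR G h) = log 2 * tZ G h := ent_rEnt_Icc (Ioo_subset_Icc_self hzP)
  have hcG := tC_pos hh hhG.le
  have h1 := psiChi_le hrP
  have h2 := psiSlope'_mul_ent_sq_le hrP
  have hA := artanh_pos hrP
  have h3 : psiSlope' (tR G h) / artanh (tR G h) * ent (tR G h) ^ 2 ≤ 0.645 := by
    rw [div_mul_eq_mul_div, div_le_iff₀ hA]; exact h2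
  have he' : 0 < ent (tR G h) := by rw [heP]; exact hzP.1
  have h4 : psiChi (tR G h) ≤ 1.29 * phi (tR G h) ^ 2 / (ent (tR G h) * log 2) := by
    refine le_trans h1 ?_
    rw [div_le_div_iff₀ hL (by positivity)]
    have := mul_le_mul_of_nonneg_left h3
      (show 0 ≤ 2 * phi (tR G h) ^ 2 * log 2 by positivity)
    linarith
  have hphi : phi (tR G h) = log 2 * (1 - tZ G h) := by unfold phi; rw [heP]; ring
  rw [hphi, heP] at h4
  have hz0 : 0 < tZ G h := tZ_pos hh hhG.le
  have hz1 : tZ G h < 1 := tZ_lt_one hh hhG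
  have e1 : h * log 2 * (1 - tZ G h) = G * (G - h) * tZ G h := by
    have hc' : tC G h * G * log 2 = (G - h) * G + h * log 2 := by unfold tC; field_simp
    unfold tZ
    field_simp
    linear_combination hc'
  have h5 := mul_le_mul_of_nonneg_left h4 (show 0 ≤ h * log 2 by positivity)
  refine le_trans h5 ?_
  rw [show h * log 2 * (1.29 * (log 2 * (1 - tZ G h)) ^ 2 / (log 2 * tZ G h * log 2))
      = 1.29 * (h * log 2 * (1 - tZ G h)) * (1 - tZ G h) / tZ G h by field_simp]
  rw [e1, div_le_iff₀ hz0]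
  have : (G - h) * (1 - tZ G h) ≤ G * 1 :=
    mul_le_mul (by linarith) (by linarith) (by linarith) hG0.le
  have := mul_le_mul_of_nonneg_left this (show 0 ≤ 1.29 * G * tZ G h by positivity)
  linarith

lemma halfLog_bound {W X k h : ℝ} (hW : 0 < W) (hX : 1 ≤ X) (hk : k = (2 * X - 1) / (2 * X))
    (hWρ : 2 * W ≤ -log h + log (2 * W + 1)) :
    2 * k * (W + 3 / 4) ≤ -log h + log (2 * X) + k / 2 := by
  have h3 := log_le_sub_one_of_pos (show 0 < (2 * W + 1) / (2 * X) by positivity)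
  rw [log_div (by linarith) (by linarith)] at h3
  have e1 : (2 * W + 1) / (2 * X) = 1 / (2 * X) + 2 * W * (1 / (2 * X)) := by
    field_simp
    ring
  have e2 : k = 1 - 1 / (2 * X) := by rw [hk]; field_simp
  rw [e2]
  linarith

/-- Q4 on the corner band. -/
theorem q4_band {c e h : ℝ} (hc : 9 / 10 ≤ c) (hc1 : c < 1) (he : -1 < e)
    (he1 : e ≤ -31 / 32) (hh : 0 < h) (hlt : h < (ent c + ent e) / 2) :
    tLam ((ent c + ent e) / 2) ((ell c + ell e) / 2) h
      ≤ tLam (ent ((c + e) / 2)) (ell ((c + e) / 2)) h := by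
  obtain ⟨p, hp⟩ : ∃ p, p = (1 - c) / 2 := ⟨_, rfl⟩
  obtain ⟨q, hq⟩ : ∃ q, q = (1 + e) / 2 := ⟨_, rfl⟩
  have hp0 : 0 < p := by linarith
  have hp1 : p ≤ 1 / 20 := by linarith
  have hq0 : 0 < q := by linarith
  have hq1 : q ≤ 1 / 64 := by linarith
  have eec : ent c = binEntropy p := by
    unfold ent; rw [show (1 + c) / 2 = 1 - p by linarith, binEntropy_one_sub]
  have eee : ent e = binEntropy q := by unfold ent; rw [← hq]
  have elc : ell c = -log (1 - p) := by unfold ell; rw [show (1 + c) / 2 = 1 - p by linarith]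
  have ele : ell e = -log q := by unfold ell; rw [← hq]
  obtain ⟨m, hm⟩ : ∃ m, m = (c + e) / 2 := ⟨_, rfl⟩
  rw [← hm]
  have hmq : m = q - p := by linarith
  have elm : ell m = log 2 - log (1 + q - p) := by
    unfold ell; rw [hmq, log_div (by linarith) (by norm_num), show 1 + (q - p) = 1 + q - p by ring]
    ring
  obtain ⟨hτ, hG15, hcore⟩ := band_core hp0 hp1 hq0 hq1 rfl rfl rfl
  rw [← eec, ← eee] at hG15 hcore
  rw [← elc, ← ele] at hτ hcore
  rw [← elm] at hτ hcore
  set G₀ := (ent c + ent e) / 2 with hG₀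
  set G := ent m with hG
  set l := ell m with hl
  set X := ell e with hX
  set lb := (ell c + X) / 2 with hlb
  have hmm : m ∈ Ioo (-1:ℝ) 1 := ⟨by linarith, by linarith⟩
  have hL := log_two_pos'
  have hGL : G ≤ log 2 := ent_le m
  have hGlo : log 2 * (1 - (q - p) ^ 2) ≤ G := by
    have := sq_le_ent (Ioo_subset_Icc_self hmm)
    rw [hmq] at this
    rw [hG, hmq]
    linarith
  have hGG : G₀ ≤ G := by
    have h2 := ent_concaveOn.2 (show c ∈ Icc (-1:ℝ) 1 from ⟨by linarith, hc1.le⟩)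
      (show e ∈ Icc (-1:ℝ) 1 from ⟨he.le, by linarith⟩)
      (show (0:ℝ) ≤ 1 / 2 by norm_num) (show (0:ℝ) ≤ 1 / 2 by norm_num) (by norm_num)
    simp only [smul_eq_mul] at h2
    rw [hG, hm, show (c + e) / 2 = 1 / 2 * c + 1 / 2 * e by ring]
    linarith
  have hG₀0 : 0 < G₀ := lt_trans hh hlt
  have hG0 : 0 < G := lt_of_lt_of_le hG₀0 hGG
  have hhG : h < G := lt_of_lt_of_le hlt hGG
  have hG₀L : G₀ ≤ log 2 := le_trans hGG hGL
  have hX4 : 4.158 ≤ X := by
    rw [ele]
    have h := log_le_log hq0 hq1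
    rw [log_div one_ne_zero (by norm_num), log_one, show (64:ℝ) = 2 ^ 6 by norm_num, log_pow] at h
    push_cast at h
    linarith [log_two_gt_d9]
  have hlc : 0 ≤ ell c := by
    rw [elc]; linarith [log_nonpos (show 0 ≤ 1 - p by linarith) (by linarith)]
  have hlbG : G₀ ≤ lb := by linarith
  have hl0 : 0 < l := by
    rw [hl]; unfold ell
    have := log_neg (show 0 < (1 + m) / 2 by linarith [hmm.1]) (by linarith [hmm.2])
    linarith
  -- parent
  obtain ⟨hzP, hrP⟩ := tR_mem hh hhG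
  have heP : ent (tR G h) = log 2 * tZ G h := ent_rEnt_Icc (Ioo_subset_Icc_self hzP)
  obtain ⟨ρ, hρ⟩ : ∃ ρ, ρ = rEnt h := ⟨_, rfl⟩
  have hρm : ρ ∈ Ioo (0:ℝ) 1 := hρ ▸ rEnt_mem_Ioo_set ⟨hh, by linarith⟩
  have heρ : ent ρ = h := hρ ▸ ent_rEnt_Icc ⟨hh.le, by linarith⟩
  have hcG : 0 < tC G h := tC_pos hh hhG.le
  have hzh : h ≤ log 2 * tZ G h := by
    exact h_le_tZ hh hhG hGL
  have hαP : psiIcpt (tR G h) ≤ psiIcpt ρ := by
    refine psiIcpt_mono hrP hρm ?_
    rw [hρ]; unfold tR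
    exact rEnt_antitone hzh
  obtain ⟨hαρ, hWρ⟩ := psiIcpt_le_of_small hρm (by rw [heρ]; linarith)
  rw [heρ] at hWρ
  set W := artanh ρ with hW
  have hWpos : 0 < W := artanh_pos hρm
  set k := (2 * X - 1) / (2 * X) with hk
  have hk0 : 0 < k := div_pos (by linarith) (by linarith)
  have hkW : 2 * k * (W + 3 / 4) ≤ -log h + log (2 * X) + k / 2 := by
    exact halfLog_bound hWpos (by linarith) hk hWρ
  -- child
  obtain ⟨hzC, hrC⟩ := tR_mem hh hlt
  have heC : ent (tR G₀ h) = log 2 * tZ G₀ h := ent_rEnt_Icc (Ioo_subset_Icc_self hzC)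
  have hzC0 : 0 < tZ G₀ h := tZ_pos hh hlt.le
  set x := G₀ ^ 2 / (h * log 2) with hx
  have hx0 : 0 < x := by positivity
  have he1' : 0 < 1 - G₀ / log 2 := by
    rw [sub_pos, div_lt_one hL]; linarith [log_two_gt_d9]
  have hαC : 2 * log 2 + (log (1 - G₀ / log 2) + log (1 + x)) / 2 ≤ psiIcpt (tR G₀ h) := by
    exact tZ_inv_lower hh hlt (by linarith [log_two_gt_d9])
  have hchild : tLam G₀ lb h ≤ -(lb / log 2) * psiIcpt (tR G₀ h) := by
    unfold tLam
    have h1 : 1 - lb / G₀ ≤ 0 := by rw [sub_nonpos, one_le_div hG₀0]; exact hlbG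
    have := mul_nonpos_of_nonneg_of_nonpos
      (mul_nonneg (div_nonneg hh.le hG₀0.le) (psiChi_nonneg hrC)) h1
    linarith
  -- the parent's slope term
  set P := max (l - log 2 * (1 - (q - p) ^ 2)) 0 with hP
  have hP0 : 0 ≤ P := le_max_right _ _
  have hu : h * log 2 * psiChi (tR G h) ≤ 1.29 * G ^ 2 := by
    exact slope_term_le hh hhG
  have hparent : -(l * psiIcpt (tR G h) + 1.29 * P) / log 2 ≤ tLam G l h := by
    rw [div_le_iff₀ hL]
    have e1 : tLam G l h * log 2
        = -(l * psiIcpt (tR G h)) + (h * log 2 * psiChi (tR G h)) / G ^ 2 * (G - l) := by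
      unfold tLam; field_simp; ring
    rw [e1]
    have h0 : 0 ≤ (h * log 2 * psiChi (tR G h)) / G ^ 2 := by
      have := psiChi_nonneg hrP; positivity
    have h1 : (h * log 2 * psiChi (tR G h)) / G ^ 2 ≤ 1.29 := by
      rw [div_le_iff₀ (by positivity)]; exact hu
    have h2 : -P ≤ G - l := by
      have := le_max_left (l - log 2 * (1 - (q - p) ^ 2)) 0
      rw [← hP] at this
      linarith
    have h3 := mul_le_mul_of_nonneg_left h2 h0
    have h4 := mul_le_mul_of_nonneg_right h1 hP0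
    linarith
  -- combine
  set τ := k * ((X + ell c) / 2) / l with hτd
  have hlnx : log x = 2 * log G₀ - log h - log (log 2) := by
    rw [hx, log_div (by positivity) (by positivity), log_pow, log_mul hh.ne' hL.ne']
    push_cast; ring
  have hsp := scaled_softplus hτ hx0
  rw [hlnx] at hsp
  have e2 : τ * l = k * lb := by
    rw [hτd, div_mul_cancel₀ _ hl0.ne', hlb]; ring
  have e3 : 2.58 * k * P / l * l = 2.58 * k * P := div_mul_cancel₀ _ hl0.ne'
  have hfin : 2 * k * (l * psiIcpt (tR G h) + 1.29 * P) ≤ 2 * k * (lb * psiIcpt (tR G₀ h)) := by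
    have h1 := mul_le_mul_of_nonneg_left (le_trans hαP hαρ)
      (show 0 ≤ 2 * k * l by positivity)
    have h2 := mul_le_mul_of_nonneg_left hαC
      (show 0 ≤ 2 * k * lb by have : 0 ≤ lb := le_trans hG₀0.le hlbG; positivity)
    have h3 := mul_le_mul_of_nonneg_right hkW hl0.le
    have h4 := mul_le_mul_of_nonneg_right
      (show -log h + log (2 * X) + k / 2 + 2.58 * k * P / l
        ≤ τ * (4 * log 2 + log (1 - G₀ / log 2) + log (1 + x)) by linarith) hl0.le
    have e4 : τ * (4 * log 2 + log (1 - G₀ / log 2) + log (1 + x)) * l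
        = k * lb * (4 * log 2 + log (1 - G₀ / log 2) + log (1 + x)) := by
      rw [show τ * (4 * log 2 + log (1 - G₀ / log 2) + log (1 + x)) * l
        = τ * l * (4 * log 2 + log (1 - G₀ / log 2) + log (1 + x)) by ring, e2]
    rw [add_mul, e3, e4] at h4
    linarith
  have hfin' := le_of_mul_le_mul_left hfin (by positivity)
  refine le_trans hchild (le_trans ?_ hparent)
  rw [le_div_iff₀ hL, show -(lb / log 2) * psiIcpt (tR G₀ h) * log 2
    = -(lb * psiIcpt (tR G₀ h)) by field_simp]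
  linarith

end Vale.Agent.P322
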