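import Vale.Agent.P322.PsiCurv

/-!
The logarithmic inequality behind the regime-one parent bound.
-/

noncomputable section

namespace Vale.Agent.P322

open Real Set

/-- The comparison potential. -/
def potP (v z : ℝ) : ℝ := log z + v / z

/-- `G = phi`-gap of the mean split `m ± δ`. -/
def gapG (m δ : ℝ) : ℝ := (phi (m + δ) + phi (m - δ)) / 2 - phi m

private lemma keyA {m : ℝ} (hm : 0 ≤ m) (hm2 : m ≤ 0.106) :
    0.48046 * m * (4 + 1.7 * (1 - m) ^ 2) ^ 3 * (m + 2) ^ 2 ≤ 19.36 * (1 + m) ^ 6 := by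
  have h1 : 4 + 1.7 * (1 - m) ^ 2 ≤ 5.7 - 3.2198 * m := by nlinarith
  have h1' : (4 + 1.7 * (1 - m) ^ 2) ^ 3 ≤ 185.2 - 295.3 * m := by
    refine (pow_le_pow_left₀ (by positivity) h1 3).trans ?_
    nlinarith [mul_nonneg hm (sub_nonneg.mpr hm2), mul_nonneg (sq_nonneg m) (sub_nonneg.mpr hm2)]
  have h2 : (m + 2) ^ 2 ≤ 4 + 4.106 * m := by nlinarith
  have h3 : 1 + 6 * m + 15 * m ^ 2 + 20 * m ^ 3 ≤ (1 + m) ^ 6 := by
    nlinarith [pow_nonneg hm 4, pow_nonneg hm 5, pow_nonneg hm 6]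
  have h4 : (4 + 1.7 * (1 - m) ^ 2) ^ 3 * (m + 2) ^ 2 ≤ (185.2 - 295.3 * m) * (4 + 4.106 * m) :=
    mul_le_mul h1' h2 (sq_nonneg _) (by linarith)
  have h5 := mul_le_mul_of_nonneg_left h4 (show (0:ℝ) ≤ 0.48046 * m by positivity)
  nlinarith [mul_nonneg hm (sub_nonneg.mpr hm2), mul_nonneg (sq_nonneg m) (sub_nonneg.mpr hm2)]

private lemma keyB {m : ℝ} (hm : 0 ≤ m) (hm2 : m ≤ 0.106) :
    0.48046 * m * (4 + 1.7 * (1 - m) ^ 2) ^ 3 ≤
      (1 - m / 2 + ((1 - m) * 1.7 * (0.5 + 0.19314 * (2 - 1.7 * m)) + m / 2) * (1 - 1.4427 * m)) ^ 2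
        * ((1 + m) ^ 2) ^ 3 := by
  have h1 : 4 + 1.7 * (1 - m) ^ 2 ≤ 5.7 - 3.2198 * m := by nlinarith
  have h1' : (4 + 1.7 * (1 - m) ^ 2) ^ 3 ≤ 185.2 - 295.3 * m := by
    refine (pow_le_pow_left₀ (by positivity) h1 3).trans ?_
    nlinarith [mul_nonneg hm (sub_nonneg.mpr hm2), mul_nonneg (sq_nonneg m) (sub_nonneg.mpr hm2)]
  have h3 : 1 + 3 * m + 3 * m ^ 2 + m ^ 3 = (1 + m) ^ 3 := by ring
  set B := 1 - m / 2 + ((1 - m) * 1.7 * (0.5 + 0.19314 * (2 - 1.7 * m)) + m / 2) * (1 - 1.4427 * m)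
    with hB
  have h4 : 2.506 - 4.22 * m + 2.5 * m ^ 2 ≤ B := by
    rw [hB]
    nlinarith only [hm, hm2, mul_nonneg hm (sub_nonneg.mpr hm2),
      mul_nonneg (sq_nonneg m) (sub_nonneg.mpr hm2), pow_nonneg hm 3]
  have h0 : (0:ℝ) ≤ 2.506 - 4.22 * m + 2.5 * m ^ 2 := by nlinarith only [hm, hm2, sq_nonneg m]
  have hP : 2.506 + 3.298 * m - 3.19 * m ^ 2
      ≤ (2.506 - 4.22 * m + 2.5 * m ^ 2) * (1 + 3 * m + 3 * m ^ 2) := by
    nlinarith only [hm, hm2, mul_nonneg (sq_nonneg m) (sub_nonneg.mpr hm2), pow_nonneg hm 4]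
  have h5 : 2.506 + 3.298 * m - 3.19 * m ^ 2 ≤ B * (1 + m) ^ 3 := by
    refine hP.trans ?_
    rw [← h3]
    exact mul_le_mul h4 (by nlinarith only [pow_nonneg hm 3]) (by positivity) (h0.trans h4)
  have h6 : B ^ 2 * ((1 + m) ^ 2) ^ 3 = (B * (1 + m) ^ 3) ^ 2 := by ring
  have h7 : (0:ℝ) ≤ 2.506 + 3.298 * m - 3.19 * m ^ 2 := by nlinarith only [hm, hm2, sq_nonneg m]
  rw [h6]
  refine le_trans ?_ (pow_le_pow_left₀ h7 h5 2)
  refine (mul_le_mul_of_nonneg_left h1' (by positivity)).trans ?_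
  nlinarith only [hm, hm2, mul_nonneg hm (sub_nonneg.mpr hm2), sq_nonneg m,
    mul_nonneg (sq_nonneg m) (sub_nonneg.mpr hm2), pow_nonneg hm 4]

private lemma keyM {x : ℝ} (hx0 : 0.41 ≤ x) (hx1 : x ≤ 1) :
    0.618569 ≤ (0.894 * x * (0.5 + 0.19314 * (2 - x)) + 0.005618)
      * (1.55 + 1.55 ^ 2 * (0.65337 * (1 - x) + (0.65337 * (1 - x)) ^ 2 / 2) / 2) := by
  nlinarith only [hx0, hx1, mul_nonneg (sub_nonneg.mpr hx0) (sub_nonneg.mpr hx1),
    mul_nonneg (mul_nonneg (sub_nonneg.mpr hx0) (sub_nonneg.mpr hx1)) (sub_nonneg.mpr hx1),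
    mul_nonneg (mul_nonneg (sub_nonneg.mpr hx0) (sub_nonneg.mpr hx1))
      (mul_nonneg (sub_nonneg.mpr hx1) (sub_nonneg.mpr hx1))]

private lemma keyC {m : ℝ} (hm : 0 ≤ m) (hm2 : m ≤ 0.106) :
    0.48046 * (0.41 + 2.36 * m - 3.9 * m ^ 2) ^ 3 ≤ (0.33 + 0.2 * m) ^ 2 := by
  nlinarith only [hm, hm2, mul_nonneg hm (sub_nonneg.mpr hm2),
    mul_nonneg (sq_nonneg m) (sub_nonneg.mpr hm2)]

lemma hasDerivAt_potP {v z : ℝ} (hz : 0 < z) : HasDerivAt (potP v) ((z - v) / z ^ 2) z := by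
  refine ((hasDerivAt_log hz.ne').fun_add ((hasDerivAt_const z v).fun_div (hasDerivAt_id' z) hz.ne')).congr_deriv ?_
  field_simp
  ring

lemma potP_mono {v U T : ℝ} (hU : 0 < U) (hv : v ≤ U) (hUT : U ≤ T) : potP v U ≤ potP v T := by
  have h := monotoneOn_of_hasDerivWithinAt_nonneg (convex_Icc U T)
    (f := potP v) (f' := fun z => (z - v) / z ^ 2)
    (fun z hz => (hasDerivAt_potP (lt_of_lt_of_le hU hz.1)).continuousAt.continuousWithinAt)
    (fun z hz => (hasDerivAt_potP (lt_of_lt_of_le hU (interior_subset hz).1)).hasDerivWithinAt)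
    (fun z hz => div_nonneg (by linarith [(interior_subset hz).1]) (sq_nonneg _))
  exact h ⟨le_rfl, hUT⟩ ⟨hUT, le_rfl⟩ hUT

lemma potP_sub_le_mul {v U T K : ℝ} (hU : 0 < U) (hUT : U ≤ T)
    (hK : ∀ z ∈ Icc U T, (z - v) / z ^ 2 ≤ K) : potP v T - potP v U ≤ K * (T - U) := by
  have hd : ∀ z ∈ Icc U T, HasDerivAt (fun z => K * z - potP v z) (K - (z - v) / z ^ 2) z := by
    intro z hz
    refine (((hasDerivAt_id' z).const_mul K).sub (hasDerivAt_potP (lt_of_lt_of_le hU hz.1))).congr_deriv ?_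
    ring
  have := monotoneOn_of_hasDerivWithinAt_nonneg (convex_Icc U T)
    (fun z hz => (hd z hz).continuousAt.continuousWithinAt)
    (fun z hz => (hd z (interior_subset hz)).hasDerivWithinAt)
    (fun z hz => by linarith [hK z (interior_subset hz)]) ⟨le_rfl, hUT⟩ ⟨hUT, le_rfl⟩ hUT
  simp only at this
  linarith

lemma phi_eq {x : ℝ} (hx : x ∈ Ioo (-1:ℝ) 1) :
    phi x = ((1 + x) * log (1 + x) + (1 - x) * log (1 - x)) / 2 := by
  rw [phi, ent, binEntropy, log_inv, log_inv, show (1:ℝ) - (1 + x) / 2 = (1 - x) / 2 by ring,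
    log_div (by linarith [hx.1]) two_ne_zero, log_div (by linarith [hx.2]) two_ne_zero]
  ring

lemma hasDerivAt_phi {x : ℝ} (hx : x ∈ Ioo (-1:ℝ) 1) : HasDerivAt phi (artanh x) x :=
  ((hasDerivAt_ent hx).const_sub (log 2)).congr_deriv (neg_neg _)

lemma phi_le_log_two_sq {x : ℝ} (hx : x ∈ Icc (-1:ℝ) 1) : phi x ≤ log 2 * x ^ 2 := by
  have := sq_le_ent hx
  unfold phi; linarith

lemma half_sq_le_phi {x : ℝ} (hx : x ∈ Ico (0:ℝ) 1) : x ^ 2 / 2 ≤ phi x := by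
  have hd : ∀ y ∈ Icc (0:ℝ) x, HasDerivAt (fun y => phi y - y ^ 2 / 2) (artanh y - y) y := by
    intro y hy
    refine ((hasDerivAt_phi ⟨by linarith [hy.1], lt_of_le_of_lt hy.2 hx.2⟩).sub
      ((hasDerivAt_pow 2 y).div_const 2)).congr_deriv ?_
    norm_num
  have := monotoneOn_of_hasDerivWithinAt_nonneg (convex_Icc (0:ℝ) x)
    (fun y hy => (hd y hy).continuousAt.continuousWithinAt)
    (fun y hy => (hd y (interior_subset hy)).hasDerivWithinAt)
    (fun y hy => by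
      have hy' := interior_subset hy
      linarith [self_le_artanh ⟨hy'.1, lt_of_le_of_lt hy'.2 hx.2⟩])
    ⟨le_rfl, hx.1⟩ ⟨hx.1, le_rfl⟩ hx.1
  simp [phi, ent_zero] at this ⊢
  linarith

lemma phi_le_quartic {x : ℝ} (hx : x ∈ Ico (0:ℝ) 1) :
    phi x ≤ x ^ 2 / 2 + (log 2 - 1 / 2) * x ^ 4 := by
  rcases eq_or_lt_of_le hx.1 with h0 | h0
  · subst h0; simp [phi, ent_zero]
  have hn : ∀ y ∈ Ico (0:ℝ) 1, 0 ≤ (artanh y - y) * y - 4 * (phi y - y ^ 2 / 2) := by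
    intro y hy
    have h1 : ∀ z ∈ Icc (0:ℝ) y, 0 ≤ z ^ 3 / (1 - z ^ 2) - 3 * (artanh z - z) := by
      intro z hz
      have hd : ∀ t ∈ Icc (0:ℝ) z, HasDerivAt (fun t => t ^ 3 / (1 - t ^ 2) - 3 * (artanh t - t))
          (2 * t ^ 4 / (1 - t ^ 2) ^ 2) t := by
        intro t ht
        have ht1 : t < 1 := by linarith [ht.2, hz.2, hy.2]
        have hne : (1:ℝ) - t ^ 2 ≠ 0 := by nlinarith [ht.1]
        refine (((hasDerivAt_pow 3 t).fun_div ((hasDerivAt_pow 2 t).const_sub 1) hne).sub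
          (((hasDerivAt_artanh ⟨by linarith [ht.1], ht1⟩).sub (hasDerivAt_id t)).const_mul 3)).congr_deriv ?_
        field_simp
        ring
      have := monotoneOn_of_hasDerivWithinAt_nonneg (convex_Icc (0:ℝ) z)
        (fun t ht => (hd t ht).continuousAt.continuousWithinAt)
        (fun t ht => (hd t (interior_subset ht)).hasDerivWithinAt)
        (fun t _ => by positivity) ⟨le_rfl, hz.1⟩ ⟨hz.1, le_rfl⟩ hz.1
      simpa using this
    have hd : ∀ z ∈ Icc (0:ℝ) y,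
        HasDerivAt (fun z => (artanh z - z) * z - 4 * (phi z - z ^ 2 / 2))
        (z ^ 3 / (1 - z ^ 2) - 3 * (artanh z - z)) z := by
      intro z hz
      have hz' : z ∈ Ioo (-1:ℝ) 1 := ⟨by linarith [hz.1], lt_of_le_of_lt hz.2 hy.2⟩
      have hne : (1:ℝ) - z ^ 2 ≠ 0 := by nlinarith [hz.1, hz'.2]
      refine ((((hasDerivAt_artanh hz').sub (hasDerivAt_id z)).fun_mul (hasDerivAt_id z)).sub
        (((hasDerivAt_phi hz').sub ((hasDerivAt_pow 2 z).div_const 2)).const_mul 4)).congr_deriv ?_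
      simp only [Pi.sub_apply, id]
      field_simp
      ring
    have := monotoneOn_of_hasDerivWithinAt_nonneg (convex_Icc (0:ℝ) y)
      (fun z hz => (hd z hz).continuousAt.continuousWithinAt)
      (fun z hz => (hd z (interior_subset hz)).hasDerivWithinAt)
      (fun z hz => h1 z (interior_subset hz)) ⟨le_rfl, hy.1⟩ ⟨hy.1, le_rfl⟩ hy.1
    simpa [phi, ent_zero] using this
  have hm : MonotoneOn (fun y => (phi y - y ^ 2 / 2) / y ^ 4) (Icc x 1) := by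
    refine monotoneOn_of_hasDerivWithinAt_nonneg (convex_Icc _ _)
      (f' := fun y => ((artanh y - y) * y - 4 * (phi y - y ^ 2 / 2)) / y ^ 5)
      (ContinuousOn.div ?_ ?_ (fun y hy => pow_ne_zero _ (by linarith [hy.1]))) (fun y hy => ?_)
      (fun y hy => ?_)
    · exact ((continuous_const.sub ent_continuous).sub (by fun_prop)).continuousOn
    · exact (continuous_pow 4).continuousOn
    · rw [interior_Icc] at hy
      have hy0 : 0 < y := lt_trans h0 hy.1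
      have hy' : y ∈ Ioo (-1:ℝ) 1 := ⟨by linarith, hy.2⟩
      refine HasDerivAt.hasDerivWithinAt ?_
      refine (((hasDerivAt_phi hy').sub ((hasDerivAt_pow 2 y).div_const 2)).fun_div
        (hasDerivAt_pow 4 y) (by positivity)).congr_deriv ?_
      simp only [Pi.sub_apply]
      field_simp
      ring
    · rw [interior_Icc] at hy
      exact div_nonneg (hn y ⟨by linarith [hy.1], hy.2⟩) (pow_nonneg (by linarith [hy.1]) _)
  have := hm ⟨le_rfl, hx.2.le⟩ ⟨hx.2.le, le_rfl⟩ hx.2.le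
  simp only [one_pow, div_one] at this
  rw [show phi 1 = log 2 by simp [phi, ent_one], div_le_iff₀ (by positivity)] at this
  linarith

lemma gapG_eq {m δ : ℝ} (hm : 0 ≤ m) (h0 : 0 < δ) (h1 : δ < 1 - m) :
    gapG m δ = (1 + m) / 2 * phi (δ / (1 + m)) + (1 - m) / 2 * phi (δ / (1 - m)) := by
  have a1 : (0:ℝ) < 1 + m := by linarith
  have a2 : (0:ℝ) < 1 - m := by linarith
  have r1 : δ / (1 + m) < 1 := by rw [div_lt_one a1]; linarith
  have r2 : δ / (1 - m) < 1 := by rw [div_lt_one a2]; linarith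
  have p1 : 0 < δ / (1 + m) := by positivity
  have p2 : 0 < δ / (1 - m) := by positivity
  rw [gapG, phi_eq ⟨by linarith, by linarith⟩, phi_eq ⟨by linarith, by linarith⟩,
    phi_eq ⟨by linarith, by linarith⟩, phi_eq ⟨by linarith, r1⟩, phi_eq ⟨by linarith, r2⟩]
  rw [show 1 + δ / (1 + m) = (1 + (m + δ)) / (1 + m) by field_simp; ring,
    show 1 - δ / (1 + m) = (1 + (m - δ)) / (1 + m) by field_simp; ring,
    show 1 + δ / (1 - m) = (1 - (m - δ)) / (1 - m) by field_simp; ring,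
    show 1 - δ / (1 - m) = (1 - (m + δ)) / (1 - m) by field_simp; ring,
    log_div (by linarith) a1.ne', log_div (by linarith) a1.ne',
    log_div (by linarith) a2.ne', log_div (by linarith) a2.ne']
  field_simp
  ring

lemma gapG_le_crude {m δ : ℝ} (hm : 0 ≤ m) (h0 : 0 < δ) (h1 : δ < 1 - m) :
    gapG m δ ≤ log 2 * δ ^ 2 / ((1 + m) * (1 - m)) := by
  have a1 : (0:ℝ) < 1 + m := by linarith
  have a2 : (0:ℝ) < 1 - m := by linarith
  have e1 := phi_le_log_two_sq (x := δ / (1 + m))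
    ⟨by have := div_pos h0 a1; linarith, by rw [div_le_one a1]; linarith⟩
  have e2 := phi_le_log_two_sq (x := δ / (1 - m))
    ⟨by have := div_pos h0 a2; linarith, by rw [div_le_one a2]; linarith⟩
  rw [gapG_eq hm h0 h1]
  calc _ ≤ (1 + m) / 2 * (log 2 * (δ / (1 + m)) ^ 2)
        + (1 - m) / 2 * (log 2 * (δ / (1 - m)) ^ 2) := by gcongr
    _ = _ := by field_simp; ring

lemma gapG_le_quartic {m δ : ℝ} (hm : 0 ≤ m) (h0 : 0 < δ) (h1 : δ < 1 - m) :
    gapG m δ ≤ δ ^ 2 / (2 * ((1 + m) * (1 - m)))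
      + 0.193148 / 2 * δ ^ 4 * (1 / (1 + m) ^ 3 + 1 / (1 - m) ^ 3) := by
  have a1 : (0:ℝ) < 1 + m := by linarith
  have a2 : (0:ℝ) < 1 - m := by linarith
  have hl : log 2 - 1 / 2 ≤ 0.193148 := by linarith [log_two_lt_d9]
  have e1 := phi_le_quartic (x := δ / (1 + m))
    ⟨(div_pos h0 a1).le, by rw [div_lt_one a1]; linarith⟩
  have e2 := phi_le_quartic (x := δ / (1 - m))
    ⟨(div_pos h0 a2).le, by rw [div_lt_one a2]; linarith⟩
  rw [gapG_eq hm h0 h1]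
  calc _ ≤ (1 + m) / 2 * ((δ / (1 + m)) ^ 2 / 2 + 0.193148 * (δ / (1 + m)) ^ 4)
        + (1 - m) / 2 * ((δ / (1 - m)) ^ 2 / 2 + 0.193148 * (δ / (1 - m)) ^ 4) := by
        gcongr
        · exact e1.trans (by gcongr)
        · exact e2.trans (by gcongr)
    _ = _ := by field_simp; ring

lemma neg_log_one_sub_ge {p : ℝ} (h0 : 0 ≤ p) (h1 : p < 1) :
    p + p ^ 2 / 2 ≤ -log (1 - p) := by
  have hd : ∀ y ∈ Icc (0:ℝ) p, HasDerivAt (fun y => -log (1 - y) - (y + y ^ 2 / 2))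
      (y ^ 2 / (1 - y)) y := by
    intro y hy
    have : (1:ℝ) - y ≠ 0 := by linarith [hy.2]
    refine ((((hasDerivAt_id y).const_sub 1).log this).neg.sub
      ((hasDerivAt_id y).add ((hasDerivAt_pow 2 y).div_const 2))).congr_deriv ?_
    simp only [id]
    field_simp
    ring
  have := monotoneOn_of_hasDerivWithinAt_nonneg (convex_Icc (0:ℝ) p)
    (fun y hy => (hd y hy).continuousAt.continuousWithinAt)
    (fun y hy => (hd y (interior_subset hy)).hasDerivWithinAt)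
    (fun y hy => div_nonneg (sq_nonneg y) (by linarith [(interior_subset hy).2]))
    ⟨le_rfl, h0⟩ ⟨h0, le_rfl⟩ h0
  simp at this
  linarith

/-- The case `(1 + m)² ≥ 2`. -/
lemma core_big {m δ U T : ℝ} (hm : 0 ≤ m) (h0 : 0 < δ) (h1 : δ < 1 - m)
    (hbig : 2 ≤ (1 + m) ^ 2) (hvU : log (1 + m) ≤ U) (hUT : U ≤ T) (hT : T ≤ log 2)
    (hG : T - U ≤ gapG m δ) :
    0.645 * (potP (log (1 + m)) T - potP (log (1 + m)) U) ≤ -log (1 - (δ / (1 + m)) ^ 2) := by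
  have a1 : (0:ℝ) < 1 + m := by linarith
  have a2 : (0:ℝ) < 1 - m := by linarith
  set v := log (1 + m) with hv
  set L := log 2 with hL
  have hLpos : 0 < L := log_pos one_lt_two
  have hv2 : L ≤ 2 * v := by
    have := log_le_log (by norm_num) hbig
    rw [log_pow] at this
    push_cast at this
    exact this
  have hvL : v ≤ L := log_le_log a1 (by linarith)
  have hvpos : 0 < v := by linarith
  have hK : potP v T - potP v U ≤ (L - v) / L ^ 2 * (T - U) := by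
    refine potP_sub_le_mul (by linarith) hUT ?_
    intro z hz
    have hz0 : 0 < z := by linarith [hz.1]
    rw [div_le_div_iff₀ (by positivity) (by positivity)]
    have : 0 ≤ (L - z) * (v * L - (L - v) * z) := by
      refine mul_nonneg (by linarith [hz.2]) ?_
      nlinarith [hz.2, mul_le_mul_of_nonneg_left (le_trans hz.2 hT) (sub_nonneg.mpr hvL)]
    nlinarith [this]
  have hlu : L - v ≤ (1 - m) / (1 + m) := by
    have := log_le_sub_one_of_pos (show (0:ℝ) < 2 / (1 + m) by positivity)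
    rw [log_div two_ne_zero a1.ne'] at this
    have e : 2 / (1 + m) - 1 = (1 - m) / (1 + m) := by field_simp; ring
    linarith
  have hp0 : 0 ≤ (δ / (1 + m)) ^ 2 := sq_nonneg _
  have hp1 : (δ / (1 + m)) ^ 2 < 1 := by
    have h := (div_lt_one a1).mpr (show δ < 1 + m by linarith)
    have := div_pos h0 a1
    nlinarith
  have hlog := neg_log_one_sub_ge hp0 hp1
  calc 0.645 * (potP v T - potP v U)
      ≤ 0.645 * ((L - v) / L ^ 2 * (L * δ ^ 2 / ((1 + m) * (1 - m)))) := by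
        refine mul_le_mul_of_nonneg_left (hK.trans ?_) (by norm_num)
        exact mul_le_mul_of_nonneg_left (hG.trans (gapG_le_crude hm h0 h1))
          (div_nonneg (by linarith) (sq_nonneg _))
    _ = 0.645 / L * (δ ^ 2 / ((1 + m) * (1 - m))) * (L - v) := by field_simp
    _ ≤ 1 * (δ ^ 2 / ((1 + m) * (1 - m))) * ((1 - m) / (1 + m)) := by
        refine mul_le_mul ?_ hlu (by linarith) (by positivity)
        refine mul_le_mul_of_nonneg_right ?_ (by positivity)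
        rw [div_le_one hLpos]; linarith [log_two_gt_d9]
    _ = (δ / (1 + m)) ^ 2 := by field_simp
    _ ≤ _ := by nlinarith

/-- The case `0.106 ≤ m`, `(1 + m)² ≤ 2`. -/
lemma core_mid {m δ U T : ℝ} (hm : 0.106 ≤ m) (h0 : 0 < δ) (h1 : δ < 1 - m)
    (hmid : (1 + m) ^ 2 ≤ 2) (hU : 0 < U) (hUT : U ≤ T) (hG : T - U ≤ gapG m δ) :
    0.645 * (potP (log (1 + m)) T - potP (log (1 + m)) U) ≤ -log (1 - (δ / (1 + m)) ^ 2) := by
  have a1 : (0:ℝ) < 1 + m := by linarith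
  have a2 : (0:ℝ) < 1 - m := by linarith
  have hm0 : 0 < m := by linarith
  have hm2 : m ≤ 0.4143 := by nlinarith
  set v := log (1 + m) with hv
  have hv' : 2 * m / (m + 2) ≤ v := le_log_one_add_of_nonneg hm0.le
  have hvpos : 0 < v := log_pos (by linarith)
  have hK : potP v T - potP v U ≤ 1 / (4 * v) * (T - U) := by
    refine potP_sub_le_mul hU hUT ?_
    intro z hz
    have hz0 : 0 < z := by linarith [hz.1]
    rw [div_le_div_iff₀ (by positivity) (by positivity)]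
    nlinarith [sq_nonneg (z - 2 * v)]
  have hlog := neg_log_one_sub_ge (sq_nonneg (δ / (1 + m))) (by
    have h := (div_lt_one a1).mpr (show δ < 1 + m by linarith)
    have := div_pos h0 a1
    nlinarith)
  have hgap := hG.trans (gapG_le_quartic hm0.le h0 h1)
  set Gb := δ ^ 2 / (2 * ((1 + m) * (1 - m)))
      + 0.193148 / 2 * δ ^ 4 * (1 / (1 + m) ^ 3 + 1 / (1 - m) ^ 3) with hGb
  have hGb0 : 0 ≤ Gb := by rw [hGb]; positivity
  have hvb : 1 / (4 * v) ≤ (m + 2) / (8 * m) := by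
    rw [div_le_div_iff₀ (by positivity) (by positivity)]
    rw [div_le_iff₀ (by positivity)] at hv'
    nlinarith
  have k0 : 0.645 * (2 + m) * (1 + m) ≤ 16 * m * (1 - m) := by
    nlinarith [mul_nonneg (sub_nonneg.mpr hm) (sub_nonneg.mpr hm2)]
  have k1 : 0.645 * (2 + m) * ((1 + m) ^ 3 + 0.193148 * (1 - m) ^ 3 * (1 + m)
        + 0.193148 * (1 + m) ^ 4)
      ≤ 16 * m * (1 - m) * ((1 + m) ^ 2 + (1 - m) ^ 2 / 2) := by
    nlinarith [mul_nonneg (sub_nonneg.mpr hm) (sub_nonneg.mpr hm2),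
      mul_nonneg (mul_nonneg (sub_nonneg.mpr hm) (sub_nonneg.mpr hm2)) hm0.le,
      mul_nonneg (mul_nonneg (sub_nonneg.mpr hm) (sub_nonneg.mpr hm2)) (sq_nonneg m)]
  have hfin : 0.645 * ((m + 2) / (8 * m) * Gb)
      ≤ (δ / (1 + m)) ^ 2 + ((δ / (1 + m)) ^ 2) ^ 2 / 2 := by
    set D := δ ^ 2 with hD
    have hD1 : D ≤ (1 - m) ^ 2 := by rw [hD]; nlinarith
    have hD0 : 0 < D := by rw [hD]; positivity
    have e : 16 * m * (1 + m) ^ 4 * (1 - m) * (1 - m) ^ 2 / D *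
        ((δ / (1 + m)) ^ 2 + ((δ / (1 + m)) ^ 2) ^ 2 / 2 - 0.645 * ((m + 2) / (8 * m) * Gb))
        = ((1 - m) ^ 2 - D) * (1 + m) ^ 2 * (16 * m * (1 - m) - 0.645 * (2 + m) * (1 + m))
        + D * (16 * m * (1 - m) * ((1 + m) ^ 2 + (1 - m) ^ 2 / 2)
          - 0.645 * (2 + m) * ((1 + m) ^ 3 + 0.193148 * (1 - m) ^ 3 * (1 + m)
            + 0.193148 * (1 + m) ^ 4)) := by
      rw [hGb, hD]
      field_simp
      ring
    have hpos : 0 < 16 * m * (1 + m) ^ 4 * (1 - m) * (1 - m) ^ 2 / D := by positivity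
    have hr : 0 ≤ 16 * m * (1 + m) ^ 4 * (1 - m) * (1 - m) ^ 2 / D *
        ((δ / (1 + m)) ^ 2 + ((δ / (1 + m)) ^ 2) ^ 2 / 2 - 0.645 * ((m + 2) / (8 * m) * Gb)) := by
      rw [e]
      have := sub_nonneg.mpr k0
      have := sub_nonneg.mpr k1
      have := sub_nonneg.mpr hD1
      positivity
    have := nonneg_of_mul_nonneg_right hr hpos
    linarith
  calc 0.645 * (potP v T - potP v U) ≤ 0.645 * ((m + 2) / (8 * m) * Gb) := by
        refine mul_le_mul_of_nonneg_left (hK.trans ?_) (by norm_num)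
        exact mul_le_mul hvb hgap (by linarith) (by positivity)
    _ ≤ _ := hfin.trans hlog

/-- The case `m ≤ 0.106`, `1 - r² ≥ 0.41`. -/
lemma core_small_far {m δ x U T : ℝ} (hm : 0 ≤ m) (hm2 : m ≤ 0.106) (h0 : 0 < δ) (h1 : δ < 1 - m)
    (hx : x = 1 - (δ / (1 - m)) ^ 2) (hx0 : 0.41 ≤ x)
    (hU : (1 - m) * x * (0.5 + 0.19314 * (2 - x)) + m ^ 2 / 2 ≤ U) (hUT : U ≤ T)
    (hG : T - U ≤ gapG m δ) :
    0.645 * (potP (log (1 + m)) T - potP (log (1 + m)) U) ≤ -log (1 - (δ / (1 + m)) ^ 2) := by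
  have a1 : (0:ℝ) < 1 + m := by linarith
  have a2 : (0:ℝ) < 1 - m := by linarith
  have hx1 : x ≤ 1 := by rw [hx]; nlinarith [sq_nonneg (δ / (1 - m))]
  set v := log (1 + m) with hv
  set p := (δ / (1 + m)) ^ 2 with hp
  have hp0 : 0 ≤ p := sq_nonneg _
  have hp1 : p < 1 := by
    have h := (div_lt_one a1).mpr (show δ < 1 + m by linarith)
    have := div_pos h0 a1
    rw [hp]; nlinarith
  set L := -log (1 - p) with hL
  have hlog : p + p ^ 2 / 2 ≤ L := neg_log_one_sub_ge hp0 hp1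
  have hLn : 0 ≤ L := le_trans (by positivity) hlog
  have hg : T - U ≤ (1 + m) / (2 * (1 - m)) * L := by
    refine (hG.trans (gapG_le_quartic hm h0 h1)).trans ?_
    refine le_trans ?_ (mul_le_mul_of_nonneg_left hlog (by positivity))
    have kk : 2 * 0.193148 * ((1 - m) ^ 3 + (1 + m) ^ 3) ≤ (1 - m) ^ 2 := by
      nlinarith [mul_nonneg hm (sub_nonneg.mpr hm2)]
    have e : (1 + m) / (2 * (1 - m)) * (p + p ^ 2 / 2)
        - (δ ^ 2 / (2 * ((1 + m) * (1 - m)))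
          + 0.193148 / 2 * δ ^ 4 * (1 / (1 + m) ^ 3 + 1 / (1 - m) ^ 3))
        = δ ^ 4 / (4 * (1 + m) ^ 3 * (1 - m) ^ 3)
          * ((1 - m) ^ 2 - 2 * 0.193148 * ((1 - m) ^ 3 + (1 + m) ^ 3)) := by
      rw [hp]; field_simp; ring
    have : 0 ≤ δ ^ 4 / (4 * (1 + m) ^ 3 * (1 - m) ^ 3)
        * ((1 - m) ^ 2 - 2 * 0.193148 * ((1 - m) ^ 3 + (1 + m) ^ 3)) :=
      mul_nonneg (by positivity) (sub_nonneg.mpr kk)
    linarith
  have hU0 : 0.894 * x * (0.5 + 0.19314 * (2 - x)) + 0.005618 ≤ U := by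
    refine le_trans ?_ hU
    have h2 : 0 ≤ x * (0.5 + 0.19314 * (2 - x)) - (0.106 + m) / 2 := by nlinarith
    nlinarith [mul_nonneg (sub_nonneg.mpr hm2) h2]
  have hUpos : 0 < U := by nlinarith
  have hpx : 0.65337 * (1 - x) ≤ p := by
    have : p = ((1 - m) / (1 + m)) ^ 2 * (1 - x) := by rw [hp, hx]; field_simp; ring
    rw [this]
    refine mul_le_mul_of_nonneg_right ?_ (by linarith)
    rw [div_pow, le_div_iff₀ (by positivity)]
    nlinarith
  have hM : (1 + m) / (2 * (1 - m)) ≤ U * (1.55 + 1.55 ^ 2 * L / 2) := by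
    have h2 : (1 + m) / (2 * (1 - m)) ≤ 0.618569 := by
      rw [div_le_iff₀ (by positivity)]; linarith
    refine h2.trans ?_
    set q := 0.65337 * (1 - x) with hq
    have hq0 : 0 ≤ q := by rw [hq]; linarith
    have hLq : q + q ^ 2 / 2 ≤ L := le_trans (by nlinarith) hlog
    refine le_trans ?_ (mul_le_mul hU0
      (show 1.55 + 1.55 ^ 2 * (q + q ^ 2 / 2) / 2 ≤ 1.55 + 1.55 ^ 2 * L / 2 by linarith)
      (by positivity) hUpos.le)
    rw [hq]
    exact keyM hx0 hx1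
  have hexp : T / U ≤ exp (1.55 * L) := by
    refine le_trans ?_ (quadratic_le_exp_of_nonneg (by positivity))
    rw [div_le_iff₀ hUpos]
    nlinarith [mul_le_mul_of_nonneg_right hM hLn]
  have hlogTU : log T - log U ≤ 1.55 * L := by
    rw [← log_div (by linarith) hUpos.ne']
    exact (log_le_iff_le_exp (div_pos (by linarith) hUpos)).mpr hexp
  have hv0 : 0 ≤ v := log_nonneg (by linarith)
  have hvT : v / T ≤ v / U := div_le_div_of_nonneg_left hv0 hUpos hUT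
  unfold potP
  nlinarith

/-- The comparison used when `1 - r² ≤ 0.41`. -/
lemma core_near_aux {v U s R : ℝ} (hU : 0 < U) (hs : 0 < s) (hR : 0 < R)
    (hsq : log 2 ^ 2 * s ^ 3 ≤ R ^ 2) (hRU : R ≤ U * exp (v / U - v / log 2)) :
    0.645 * (potP v (log 2) - potP v U) ≤ -log s ∨ 1 < s := by
  have hl : 0 < log 2 := log_pos one_lt_two
  rcases le_or_gt s 1 with hs1 | hs1
  · left
    have h1 := log_le_log (by positivity) hsq
    rw [log_mul (by positivity) (by positivity), log_pow, log_pow, log_pow] at h1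
    have h2 := log_le_log hR hRU
    rw [log_mul hU.ne' (exp_ne_zero _), log_exp] at h2
    have h3 : log s ≤ 0 := log_nonpos hs.le hs1
    push_cast at h1
    unfold potP
    linarith
  · exact Or.inr hs1

private lemma rpow_three_halves_sq {s : ℝ} (hs : 0 ≤ s) : (s ^ (3 / 2 : ℝ)) ^ 2 = s ^ 3 := by
  rw [← rpow_natCast (s ^ (3 / 2 : ℝ)) 2, ← rpow_mul hs,
    show ((3:ℝ) / 2 * ((2:ℕ):ℝ)) = ((3:ℕ):ℝ) by norm_num, rpow_natCast]

private lemma log_two_sq_le : log 2 ^ 2 ≤ 0.48046 := by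
  nlinarith only [log_two_lt_d9, log_two_gt_d9]

/-- The left end `x = 1.7 m`. -/
private lemma near_left {m : ℝ} (hm : 0 ≤ m) (hm2 : m ≤ 0.106) :
    log 2 * ((4 * m + (1 - m) ^ 2 * (1.7 * m)) / (1 + m) ^ 2) ^ (3 / 2 : ℝ) ≤
      2 * m / (m + 2) + ((1 - m) * (1.7 * m) * (0.5 + 0.19314 * (2 - 1.7 * m)) + m ^ 2 / 2)
        * (1 - 1.4427 * m) := by
  have hw : 0 ≤ 1 - 1.4427 * m := by linarith
  have hc : 0 ≤ 0.5 + 0.19314 * (2 - 1.7 * m) := by linarith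
  have ha : 0 ≤ 1 - m := by linarith
  have h2 : 1 - m / 2 ≤ 2 / (m + 2) := by
    rw [le_div_iff₀ (by positivity)]; nlinarith only [hm, sq_nonneg m]
  set B := (1 - m) * 1.7 * (0.5 + 0.19314 * (2 - 1.7 * m)) + m / 2 with hB
  have hB0 : 0 ≤ B := by rw [hB]; positivity
  have hQ0 : 0 ≤ 1 - m / 2 + B * (1 - 1.4427 * m) := add_nonneg (by linarith) (mul_nonneg hB0 hw)
  have hlo : m * (1 - m / 2 + B * (1 - 1.4427 * m)) ≤
      2 * m / (m + 2) + ((1 - m) * (1.7 * m) * (0.5 + 0.19314 * (2 - 1.7 * m)) + m ^ 2 / 2)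
        * (1 - 1.4427 * m) := by
    have e : 2 * m / (m + 2) = m * (2 / (m + 2)) := by ring
    rw [e, hB]
    nlinarith only [mul_le_mul_of_nonneg_left h2 hm]
  have hs0 : 0 ≤ (4 * m + (1 - m) ^ 2 * (1.7 * m)) / (1 + m) ^ 2 := by positivity
  refine le_trans ?_ hlo
  refine (pow_le_pow_iff_left₀ (by positivity) (mul_nonneg hm hQ0) two_ne_zero).mp ?_
  rw [mul_pow, rpow_three_halves_sq hs0]
  calc log 2 ^ 2 * ((4 * m + (1 - m) ^ 2 * (1.7 * m)) / (1 + m) ^ 2) ^ 3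
      ≤ 0.48046 * ((4 * m + (1 - m) ^ 2 * (1.7 * m)) / (1 + m) ^ 2) ^ 3 :=
        mul_le_mul_of_nonneg_right log_two_sq_le (pow_nonneg hs0 3)
    _ = m ^ 2 * (0.48046 * m * (4 + 1.7 * (1 - m) ^ 2) ^ 3 / ((1 + m) ^ 2) ^ 3) := by
          rw [div_pow]; ring
    _ ≤ m ^ 2 * (1 - m / 2 + B * (1 - 1.4427 * m)) ^ 2 :=
        mul_le_mul_of_nonneg_left ((div_le_iff₀ (by positivity)).mpr (keyB hm hm2)) (sq_nonneg m)
    _ = (m * (1 - m / 2 + B * (1 - 1.4427 * m))) ^ 2 := by ring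

/-- The right end `x = 0.41`. -/
private lemma near_right {m : ℝ} (hm : 0 ≤ m) (hm2 : m ≤ 0.106) :
    log 2 * ((4 * m + (1 - m) ^ 2 * 0.41) / (1 + m) ^ 2) ^ (3 / 2 : ℝ) ≤
      2 * m / (m + 2) + ((1 - m) * 0.41 * (0.5 + 0.19314 * (2 - 0.41)) + m ^ 2 / 2)
        * (1 - 1.4427 * m) := by
  have hs0 : 0 ≤ (4 * m + (1 - m) ^ 2 * 0.41) / (1 + m) ^ 2 := by positivity
  have hs : (4 * m + (1 - m) ^ 2 * 0.41) / (1 + m) ^ 2 ≤ 0.41 + 2.36 * m - 3.9 * m ^ 2 := by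
    rw [div_le_iff₀ (by positivity)]
    nlinarith only [hm, hm2, mul_nonneg (sq_nonneg m) (sub_nonneg.mpr hm2), pow_nonneg hm 3,
      sq_nonneg m]
  have hR : 0.33 + 0.2 * m ≤ 2 * m / (m + 2)
      + ((1 - m) * 0.41 * (0.5 + 0.19314 * (2 - 0.41)) + m ^ 2 / 2) * (1 - 1.4427 * m) := by
    have h2 : m - m ^ 2 / 2 ≤ 2 * m / (m + 2) := by
      rw [le_div_iff₀ (by positivity)]; nlinarith only [pow_nonneg hm 3]
    nlinarith only [h2, hm, hm2, mul_nonneg hm (sub_nonneg.mpr hm2), pow_nonneg hm 3, sq_nonneg m,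
      mul_nonneg (sq_nonneg m) (sub_nonneg.mpr hm2)]
  refine le_trans ?_ hR
  refine (pow_le_pow_iff_left₀ (by positivity) (by linarith) two_ne_zero).mp ?_
  rw [mul_pow, rpow_three_halves_sq hs0]
  exact le_trans (mul_le_mul log_two_sq_le (pow_le_pow_left₀ hs0 hs 3) (pow_nonneg hs0 3)
    (by norm_num)) (keyC hm hm2)

/-- Squared comparison on `1.7 m < x ≤ 0.41`. -/
lemma near_sq {m x : ℝ} (hm : 0 ≤ m) (hm2 : m ≤ 0.106) (hxm : 1.7 * m < x) (hx0 : x ≤ 0.41) :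
    log 2 ^ 2 * ((4 * m + (1 - m) ^ 2 * x) / (1 + m) ^ 2) ^ 3 ≤ (2 * m / (m + 2)
      + ((1 - m) * x * (0.5 + 0.19314 * (2 - x)) + m ^ 2 / 2) * (1 - 1.4427 * m)) ^ 2 := by
  have hxpos : 0 < x := by linarith
  have hl0 : 0 < log 2 := log_pos one_lt_two
  have hs0 : 0 ≤ (4 * m + (1 - m) ^ 2 * x) / (1 + m) ^ 2 := by positivity
  have hden : 0 < 0.41 - 1.7 * m := by linarith
  obtain ⟨t, ht⟩ : ∃ t, t = (x - 1.7 * m) / (0.41 - 1.7 * m) := ⟨_, rfl⟩
  have ht0 : 0 ≤ t := ht ▸ div_nonneg (by linarith) hden.le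
  have ht1 : t ≤ 1 := by rw [ht, div_le_one hden]; linarith
  have hxe : x = (1 - t) * (1.7 * m) + t * 0.41 := by rw [ht]; field_simp; ring
  have hsa : 0 ≤ (4 * m + (1 - m) ^ 2 * (1.7 * m)) / (1 + m) ^ 2 := by positivity
  have hsb : 0 ≤ (4 * m + (1 - m) ^ 2 * 0.41) / (1 + m) ^ 2 := by positivity
  have hc := (convexOn_rpow (show (1:ℝ) ≤ 3 / 2 by norm_num)).2 (mem_Ici.mpr hsa) (mem_Ici.mpr hsb)
    (sub_nonneg.mpr ht1) ht0 (by ring)
  simp only [smul_eq_mul] at hc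
  have hmix : (1 - t) * ((4 * m + (1 - m) ^ 2 * (1.7 * m)) / (1 + m) ^ 2)
      + t * ((4 * m + (1 - m) ^ 2 * 0.41) / (1 + m) ^ 2)
      = (4 * m + (1 - m) ^ 2 * x) / (1 + m) ^ 2 := by rw [hxe]; ring
  rw [hmix] at hc
  have hl := mul_le_mul_of_nonneg_left hc hl0.le
  have ea := mul_le_mul_of_nonneg_left (near_left hm hm2) (sub_nonneg.mpr ht1)
  have eb := mul_le_mul_of_nonneg_left (near_right hm hm2) ht0
  have hquad : 0 ≤ 0.19314 * ((1 - m) * (1 - 1.4427 * m) * (t * (1 - t))) * (0.41 - 1.7 * m) ^ 2 :=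
    mul_nonneg (mul_nonneg (by norm_num) (mul_nonneg (mul_nonneg (by linarith) (by linarith))
      (mul_nonneg ht0 (sub_nonneg.mpr ht1)))) (sq_nonneg _)
  have hmain : log 2 * ((4 * m + (1 - m) ^ 2 * x) / (1 + m) ^ 2) ^ (3 / 2 : ℝ) ≤
      2 * m / (m + 2) + ((1 - m) * x * (0.5 + 0.19314 * (2 - x)) + m ^ 2 / 2)
        * (1 - 1.4427 * m) := by
    rw [hxe] at hl ⊢
    nlinarith only [hl, ea, eb, hquad]
  have h2 := pow_le_pow_left₀ (by positivity) hmain 2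
  rwa [mul_pow, rpow_three_halves_sq hs0] at h2

private lemma near_step {v U U' T s R : ℝ} (hU' : 0 < U') (hvU' : v ≤ U') (hU'U : U' ≤ U)
    (hvU : v ≤ U) (hUT : U ≤ T) (hT : T ≤ log 2) (hs : 0 < s) (hs1 : s ≤ 1) (hR : 0 < R)
    (hsq : log 2 ^ 2 * s ^ 3 ≤ R ^ 2) (hRU : R ≤ U' * exp (v / U' - v / log 2)) :
    0.645 * (potP v T - potP v U) ≤ -log s := by
  rcases core_near_aux hU' hs hR hsq hRU with h | h
  · have h2 := potP_mono (lt_of_lt_of_le hU' hU'U |>.trans_le hUT) (hvU.trans hUT) hT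
    have h3 := potP_mono hU' hvU' hU'U
    linarith
  · linarith

/-- The piece `x ≤ 1.7 m`. -/
private lemma near_low {m x : ℝ} (hm : 0 < m) (hm2 : m ≤ 0.106) (hx : 0 ≤ x) (hxm : x ≤ 1.7 * m) :
    log 2 ^ 2 * ((4 * m + (1 - m) ^ 2 * x) / (1 + m) ^ 2) ^ 3 ≤ (2.2 * (2 * m / (m + 2))) ^ 2 ∧
    2.2 * (2 * m / (m + 2)) ≤ log (1 + m)
      * exp (log (1 + m) / log (1 + m) - log (1 + m) / log 2) := by
  have hl0 : 0 < log 2 := log_pos one_lt_two
  have hv' : 2 * m / (m + 2) ≤ log (1 + m) := le_log_one_add_of_nonneg hm.le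
  have hvm : log (1 + m) ≤ m := by
    linarith [log_le_sub_one_of_pos (show (0:ℝ) < 1 + m by linarith)]
  have hvp : 0 < log (1 + m) := log_pos (by linarith)
  constructor
  · have hnum : 4 * m + (1 - m) ^ 2 * x ≤ m * (4 + 1.7 * (1 - m) ^ 2) := by
      nlinarith only [mul_le_mul_of_nonneg_left hxm (sq_nonneg (1 - m))]
    calc log 2 ^ 2 * ((4 * m + (1 - m) ^ 2 * x) / (1 + m) ^ 2) ^ 3
        ≤ 0.48046 * ((m * (4 + 1.7 * (1 - m) ^ 2)) / (1 + m) ^ 2) ^ 3 :=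
          mul_le_mul log_two_sq_le (pow_le_pow_left₀ (by positivity)
            (div_le_div_of_nonneg_right hnum (sq_nonneg _)) 3) (by positivity) (by norm_num)
      _ = m ^ 2 * (0.48046 * m * (4 + 1.7 * (1 - m) ^ 2) ^ 3 * (m + 2) ^ 2)
            / ((1 + m) ^ 6 * (m + 2) ^ 2) := by field_simp
      _ ≤ m ^ 2 * (19.36 * (1 + m) ^ 6) / ((1 + m) ^ 6 * (m + 2) ^ 2) :=
          div_le_div_of_nonneg_right (mul_le_mul_of_nonneg_left (keyA hm.le hm2) (sq_nonneg m))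
            (by positivity)
      _ = (2.2 * (2 * m / (m + 2))) ^ 2 := by field_simp; ring
  · rw [div_self hvp.ne']
    have h1 : log (1 + m) / log 2 ≤ 0.153 := by
      rw [div_le_iff₀ hl0]; linarith only [hvm, hm2, log_two_gt_d9]
    have hy : 0.847 ≤ 1 - log (1 + m) / log 2 := by linarith only [h1]
    have he : (2.2 : ℝ) ≤ exp (1 - log (1 + m) / log 2) :=
      le_trans (by nlinarith only [hy]) (quadratic_le_exp_of_nonneg (by linarith only [hy]))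
    calc 2.2 * (2 * m / (m + 2)) ≤ exp (1 - log (1 + m) / log 2) * log (1 + m) :=
          mul_le_mul he hv' (by positivity) (exp_pos _).le
      _ = _ := mul_comm _ _

/-- The piece `1.7 m < x ≤ 0.41`. -/
private lemma near_high {m x : ℝ} (hm : 0 ≤ m) (hm2 : m ≤ 0.106) (hxm : 1.7 * m < x)
    (hx0 : x ≤ 0.41) :
    m ≤ (1 - m) * x * (0.5 + 0.19314 * (2 - x)) + m ^ 2 / 2 ∧
    0 < (1 - m) * x * (0.5 + 0.19314 * (2 - x)) + m ^ 2 / 2 ∧
    2 * m / (m + 2) + ((1 - m) * x * (0.5 + 0.19314 * (2 - x)) + m ^ 2 / 2) * (1 - 1.4427 * m)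
      ≤ ((1 - m) * x * (0.5 + 0.19314 * (2 - x)) + m ^ 2 / 2)
        * exp (log (1 + m) / ((1 - m) * x * (0.5 + 0.19314 * (2 - x)) + m ^ 2 / 2)
          - log (1 + m) / log 2) := by
  have hxpos : 0 < x := by linarith
  have ha : 0 < 1 - m := by linarith
  have e1 : 0.894 * 0.8 ≤ (1 - m) * (0.5 + 0.19314 * (2 - x)) :=
    mul_le_mul (by linarith) (by linarith) (by norm_num) ha.le
  have e2 := mul_le_mul_of_nonneg_left e1 hxpos.le
  obtain ⟨W, hW⟩ : ∃ W, W = (1 - m) * x * (0.5 + 0.19314 * (2 - x)) + m ^ 2 / 2 := ⟨_, rfl⟩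
  rw [← hW]
  have hWm : m ≤ W := by rw [hW]; nlinarith only [e2, hxm, hm, sq_nonneg m]
  have hWp : 0 < W := by rw [hW]; nlinarith only [e2, hxpos, sq_nonneg m]
  have hl0 : 0 < log 2 := log_pos one_lt_two
  have hv' : 2 * m / (m + 2) ≤ log (1 + m) := le_log_one_add_of_nonneg hm
  have hvm : log (1 + m) ≤ m := by
    linarith [log_le_sub_one_of_pos (show (0:ℝ) < 1 + m by linarith)]
  have h2 : log (1 + m) / log 2 ≤ 1.4427 * m := by
    rw [div_le_iff₀ hl0]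
    nlinarith only [hvm, hm, log_two_gt_d9]
  refine ⟨hWm, hWp, ?_⟩
  have he := mul_le_mul_of_nonneg_left (add_one_le_exp (log (1 + m) / W - log (1 + m) / log 2)) hWp.le
  have e3 : W * (log (1 + m) / W - log (1 + m) / log 2 + 1)
      = log (1 + m) + W * (1 - log (1 + m) / log 2) := by field_simp; ring
  nlinarith only [he, e3, hv', mul_le_mul_of_nonneg_left h2 hWp.le]

/-- The case `m ≤ 0.106`, `1 - r² ≤ 0.41`. -/
lemma core_small_near {m δ x U T : ℝ} (hm : 0 ≤ m) (hm2 : m ≤ 0.106) (h0 : 0 < δ) (h1 : δ < 1 - m)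
    (hx : x = 1 - (δ / (1 - m)) ^ 2) (hx0 : x ≤ 0.41)
    (hU : (1 - m) * x * (0.5 + 0.19314 * (2 - x)) + m ^ 2 / 2 ≤ U)
    (hvU : log (1 + m) ≤ U) (hUT : U ≤ T) (hT : T ≤ log 2) :
    0.645 * (potP (log (1 + m)) T - potP (log (1 + m)) U) ≤ -log (1 - (δ / (1 + m)) ^ 2) := by
  have a1 : (0:ℝ) < 1 + m := by linarith
  have a2 : (0:ℝ) < 1 - m := by linarith
  have hxpos : 0 < x := by
    have h := (div_lt_one a2).mpr h1
    have := div_pos h0 a2
    rw [hx]; nlinarith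
  have hse : 1 - (δ / (1 + m)) ^ 2 = (4 * m + (1 - m) ^ 2 * x) / (1 + m) ^ 2 := by
    rw [hx]; field_simp; ring
  have hs1 : 1 - (δ / (1 + m)) ^ 2 ≤ 1 := by linarith [sq_nonneg (δ / (1 + m))]
  rw [hse] at hs1 ⊢
  have hs0 : 0 < (4 * m + (1 - m) ^ 2 * x) / (1 + m) ^ 2 := by positivity
  rcases le_or_gt x (1.7 * m) with hxm | hxm
  · have hm0 : 0 < m := by linarith
    obtain ⟨q1, q2⟩ := near_low hm0 hm2 hxpos.le hxm
    exact near_step (log_pos (by linarith)) le_rfl hvU hvU hUT hT hs0 hs1 (by positivity) q1 q2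
  · obtain ⟨q1, q2, q3⟩ := near_high hm hm2 hxm hx0
    have hvm : log (1 + m) ≤ m := by linarith [log_le_sub_one_of_pos a1]
    refine near_step q2 (hvm.trans q1) hU hvU hUT hT hs0 hs1 ?_ (near_sq hm hm2 hxm hx0) q3
    exact add_pos_of_nonneg_of_pos (by positivity) (mul_pos q2 (by linarith))

lemma ent_ge_poly {r : ℝ} (hr : r ∈ Ico (0:ℝ) 1) :
    (1 - r ^ 2) * (0.5 + 0.19314 * (2 - (1 - r ^ 2))) ≤ ent r := by
  have h := phi_le_quartic hr
  have hk : 0.19314 ≤ log 2 - 1 / 2 := by linarith [log_two_gt_d9]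
  unfold phi at h
  have hr2 : r ^ 2 ≤ 1 := by nlinarith [hr.1, hr.2]
  nlinarith [mul_le_mul_of_nonneg_right hk (show 0 ≤ 1 - (r ^ 2) ^ 2 by nlinarith)]

/-- The logarithmic core inequality. -/
theorem core_potP {m δ U T : ℝ} (hm : 0 ≤ m) (h0 : 0 < δ) (h1 : δ < 1 - m)
    (hvU : log (1 + m) ≤ U) (hU0 : (1 - m) * ent (δ / (1 - m)) + phi m ≤ U)
    (hUT : U ≤ T) (hT : T ≤ log 2) (hG : T - U ≤ gapG m δ) :
    0.645 * (potP (log (1 + m)) T - potP (log (1 + m)) U) ≤ -log (1 - (δ / (1 + m)) ^ 2) := by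
  have a2 : (0:ℝ) < 1 - m := by linarith
  have hr : δ / (1 - m) ∈ Ico (0:ℝ) 1 := ⟨(div_pos h0 a2).le, (div_lt_one a2).mpr h1⟩
  have hUpos : 0 < U := by
    have : 0 ≤ phi m := sub_nonneg.mpr (ent_le m)
    have := mul_pos a2 (ent_pos ⟨by linarith [hr.1], hr.2⟩)
    linarith
  rcases le_or_gt 2 ((1 + m) ^ 2) with hb | hb
  · exact core_big hm h0 h1 hb hvU hUT hT hG
  rcases le_or_gt 0.106 m with hmid | hsmall
  · exact core_mid hmid h0 h1 hb.le hUpos hUT hG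
  have hphi := half_sq_le_phi (x := m) ⟨hm, by linarith⟩
  have hU' : (1 - m) * (1 - (δ / (1 - m)) ^ 2)
      * (0.5 + 0.19314 * (2 - (1 - (δ / (1 - m)) ^ 2))) + m ^ 2 / 2 ≤ U := by
    have := mul_le_mul_of_nonneg_left (ent_ge_poly hr) a2.le
    linarith
  rcases le_or_gt 0.41 (1 - (δ / (1 - m)) ^ 2) with hx | hx
  · exact core_small_far hm hsmall.le h0 h1 rfl hx hU' hUT hG
  · exact core_small_near hm hsmall.le h0 h1 rfl hx.le hU' hvU hUT hT

end Vale.Agent.P322
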