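import Vale.Agent.P322.Tbasic
import Vale.Agent.P322.RegimeOneCore

/-!
The base inequality `tT (ent m) ((ent a + ent b)/2) ≤ edgeJ a b`.

`g(φ(r)) = r artanh r - 2 φ(r)` has a convex square root as a function of `φ(r)`, which reduces
the inequality to `c E[φ(ρ)²] ≥ G²` for the two-point law of `ρ`.
-/

noncomputable section

namespace Vale.Agent.P322

open Real Set

/-- The superlinear part of `Ψ`, in the parameter `r`. -/
def psiG (r : ℝ) : ℝ := r * artanh r - 2 * phi r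

lemma hasDerivAt_psiG {r : ℝ} (hr : r ∈ Ioo (0:ℝ) 1) :
    HasDerivAt psiG ((psiSlope r - 2) * artanh r) r := by
  have hr' : r ∈ Ioo (-1:ℝ) 1 := ⟨by linarith [hr.1], hr.2⟩
  refine (((hasDerivAt_id r).fun_mul (hasDerivAt_artanh hr')).sub
    ((hasDerivAt_phi hr').const_mul 2)).congr_deriv ?_
  have hne : (1:ℝ) - r ^ 2 ≠ 0 := by nlinarith [hr.1, hr.2]
  have := (artanh_pos hr).ne'
  simp only [id, psiSlope]
  field_simp

lemma psiG_pos {r : ℝ} (hr : r ∈ Ioo (0:ℝ) 1) : 0 < psiG r := by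
  have hslope : ∀ x ∈ Ioo (0:ℝ) 1, 2 < psiSlope x := by
    intro x hx
    have hm : StrictMonoOn (fun y => y / (1 - y ^ 2) - artanh y) (Icc 0 x) := by
      have hd : ∀ y ∈ Icc (0:ℝ) x, HasDerivAt (fun y => y / (1 - y ^ 2) - artanh y)
          (2 * y ^ 2 / (1 - y ^ 2) ^ 2) y := by
        intro y hy
        have hy1 : y < 1 := lt_of_le_of_lt hy.2 hx.2
        have hne : (1:ℝ) - y ^ 2 ≠ 0 := by nlinarith [hy.1]
        refine (((hasDerivAt_id y).fun_div ((hasDerivAt_pow 2 y).const_sub 1) hne).sub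
          (hasDerivAt_artanh ⟨by linarith [hy.1], hy1⟩)).congr_deriv ?_
        simp only [id]
        field_simp
        ring
      refine strictMonoOn_of_hasDerivWithinAt_pos (convex_Icc _ _)
        (fun y hy => (hd y hy).continuousAt.continuousWithinAt)
        (fun y hy => (hd y (interior_subset hy)).hasDerivWithinAt) ?_
      intro y hy
      rw [interior_Icc] at hy
      have : 0 < 1 - y ^ 2 := by nlinarith [hy.1, hy.2, hx.2]
      have := hy.1
      positivity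
    have := hm ⟨le_rfl, hx.1.le⟩ ⟨hx.1.le, le_rfl⟩ hx.1
    simp at this
    have h1 : 0 < 1 - x ^ 2 := by nlinarith [hx.1, hx.2]
    have h2 := artanh_pos hx
    have h3 : 1 < x / ((1 - x ^ 2) * artanh x) := by
      rw [one_lt_div (mul_pos h1 h2)]
      rw [lt_div_iff₀ h1] at this
      linarith
    unfold psiSlope
    linarith
  have hm : StrictMonoOn psiG (Icc 0 r) := by
    refine strictMonoOn_of_hasDerivWithinAt_pos (f' := fun x => (psiSlope x - 2) * artanh x)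
      (convex_Icc _ _) ?_ ?_ ?_
    · intro x hx
      have hx' : x ∈ Ioo (-1:ℝ) 1 := ⟨by linarith [hx.1], lt_of_le_of_lt hx.2 hr.2⟩
      exact ((continuousAt_id.mul (artanh_continuousAt hx')).sub
        ((hasDerivAt_phi hx').continuousAt.const_mul 2)).continuousWithinAt
    · intro x hx
      rw [interior_Icc] at hx
      exact (hasDerivAt_psiG ⟨hx.1, lt_trans hx.2 hr.2⟩).hasDerivWithinAt
    · intro x hx
      rw [interior_Icc] at hx
      have hx' : x ∈ Ioo (0:ℝ) 1 := ⟨hx.1, lt_trans hx.2 hr.2⟩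
      exact mul_pos (by linarith [hslope x hx']) (artanh_pos hx')
  have := hm ⟨le_rfl, hr.1.le⟩ ⟨hr.1.le, le_rfl⟩ hr.1
  simpa [psiG, phi, ent_zero] using this

lemma three_auxE_le {w : ℝ} (hw : 0 ≤ w) : 3 * auxE w ≤ 4 * w ^ 2 * (sinh w * cosh w) := by
  have hd : ∀ x : ℝ, HasDerivAt (fun x => 4 * x ^ 2 * (sinh x * cosh x) - 3 * auxE x)
      (4 * x * auxE x) x := by
    intro x
    refine ((((hasDerivAt_pow 2 x).const_mul 4).fun_mul ((hasDerivAt_sinh x).fun_mul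
      (hasDerivAt_cosh x))).sub ((hasDerivAt_auxE x).const_mul 3)).congr_deriv ?_
    simp only [auxE]
    norm_num
    ring
  have := monotoneOn_of_hasDerivWithinAt_nonneg (convex_Ici (0:ℝ))
    (fun x _ => (hd x).continuousAt.continuousWithinAt)
    (fun x _ => (hd x).hasDerivWithinAt)
    (fun x hx => by
      rw [interior_Ici] at hx
      have hx' : (0:ℝ) ≤ x := le_of_lt hx
      exact mul_nonneg (by linarith) (auxE_nonneg hx')) self_mem_Ici (show (0:ℝ) ≤ w from hw) hw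
  simp [auxE] at this
  simp only [auxE]
  linarith

/-- `Ψ''` as a function of the parameter. -/
def psiSecond (r : ℝ) : ℝ := ((1 + r ^ 2) * artanh r - r) / ((1 - r ^ 2) ^ 2 * artanh r ^ 3)

lemma psiSlope'_eq {r : ℝ} (hr : r ∈ Ioo (0:ℝ) 1) : psiSlope' r = artanh r * psiSecond r := by
  have hne : (1:ℝ) - r ^ 2 ≠ 0 := by nlinarith [hr.1, hr.2]
  have := (artanh_pos hr).ne'
  unfold psiSlope' psiSecond
  field_simp

lemma exists_deriv_psiSecond {r : ℝ} (hr : r ∈ Ioo (0:ℝ) 1) :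
    ∃ d, 0 ≤ d ∧ HasDerivAt psiSecond d r := by
  have hr' : r ∈ Ioo (-1:ℝ) 1 := ⟨by linarith [hr.1], hr.2⟩
  have h1 : 0 < 1 - r ^ 2 := by nlinarith [hr.1, hr.2]
  have hA := artanh_pos hr
  have hN := ((((hasDerivAt_pow 2 r).const_add 1).fun_mul (hasDerivAt_artanh hr')).sub
    (hasDerivAt_id r))
  have hD := ((((hasDerivAt_pow 2 r).const_sub 1).fun_pow 2).fun_mul
    ((hasDerivAt_artanh hr').fun_pow 3))
  have h := hN.fun_div hD (by positivity)
  refine ⟨_, ?_, h⟩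
  refine div_nonneg ?_ (sq_nonneg _)
  have hN0 : 0 ≤ (1 + r ^ 2) * artanh r - r := by
    nlinarith [self_le_artanh ⟨hr.1.le, hr.2⟩, sq_nonneg r]
  have key : 3 * ((1 + r ^ 2) * artanh r - r) ≤ 4 * r * artanh r ^ 2 := by
    obtain ⟨w, hw⟩ : ∃ w, w = artanh r := ⟨_, rfl⟩
    have hrt : r = tanh w := by rw [hw, tanh_artanh hr']
    have hc := cosh_pos w
    have h3 := three_auxE_le (w := w) (by rw [hw]; exact hA.le)
    rw [← hw, hrt, tanh_eq_sinh_div_cosh]
    rw [← mul_le_mul_iff_of_pos_right (show 0 < cosh w ^ 2 by positivity)]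
    unfold auxE at h3
    field_simp
    linarith
  simp only [Pi.sub_apply, id]
  norm_num
  field_simp
  nlinarith [mul_nonneg (mul_nonneg hr.1.le hA.le) hN0, key]

/-- `√g` has increasing slope: `2 g g'' ≥ g'^2`. -/
lemma psiG_logconvex {r : ℝ} (hr : r ∈ Ioo (0:ℝ) 1) :
    (psiSlope r - 2) ^ 2 ≤ 2 * psiG r * psiSecond r := by
  refine le_of_forall_pos_le_add fun η hη => ?_
  obtain ⟨ε, hε0, hεr, hεb⟩ : ∃ ε, 0 < ε ∧ ε < r ∧ (ε ^ 2 / (1 - ε ^ 2)) ^ 2 ≤ η := by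
    have hc : ContinuousAt (fun x : ℝ => (x ^ 2 / (1 - x ^ 2)) ^ 2) 0 := by
      refine ((continuousAt_id.pow 2).div (continuousAt_const.sub (continuousAt_id.pow 2)) ?_).pow 2
      simp
    obtain ⟨δ, hδ, hδb⟩ := Metric.continuousAt_iff.mp hc η hη
    refine ⟨min (δ / 2) (r / 2), lt_min (by linarith) (by linarith [hr.1]),
      lt_of_le_of_lt (min_le_right _ _) (by linarith [hr.1]), ?_⟩
    have hlt : dist (min (δ / 2) (r / 2)) 0 < δ := by
      rw [Real.dist_eq, sub_zero, abs_of_pos (lt_min (by linarith) (by linarith [hr.1]))]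
      linarith [min_le_left (δ / 2) (r / 2)]
    have := hδb hlt
    simp only [Real.dist_eq] at this
    rw [abs_lt] at this
    norm_num at this
    linarith [this.2]
  have hεm : ε ∈ Ioo (0:ℝ) 1 := ⟨hε0, lt_trans hεr hr.2⟩
  let F : ℝ → ℝ := fun x => 2 * psiG x * psiSecond x - (psiSlope x - 2) ^ 2
  have hd : ∀ x ∈ Icc ε r, ∃ d, 0 ≤ d ∧ HasDerivAt F d x := by
    intro x hx
    have hx' : x ∈ Ioo (0:ℝ) 1 := ⟨lt_of_lt_of_le hε0 hx.1, lt_of_le_of_lt hx.2 hr.2⟩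
    obtain ⟨d, hd0, hdd⟩ := exists_deriv_psiSecond hx'
    refine ⟨2 * psiG x * d, mul_nonneg (by linarith [psiG_pos hx']) hd0, ?_⟩
    refine ((((hasDerivAt_psiG hx').const_mul 2).fun_mul hdd).sub
      (((hasDerivAt_psiSlope hx').sub_const 2).fun_pow 2)).congr_deriv ?_
    rw [psiSlope'_eq hx']
    norm_num
    ring
  have hcont : ContinuousOn F (Icc ε r) := fun x hx => by
    obtain ⟨d, _, hdd⟩ := hd x hx
    exact hdd.continuousAt.continuousWithinAt
  have hm : MonotoneOn F (Icc ε r) := by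
    refine monotoneOn_of_deriv_nonneg (convex_Icc _ _) hcont (fun x hx => ?_) (fun x hx => ?_)
    · obtain ⟨d, _, hdd⟩ := hd x (interior_subset hx)
      exact hdd.differentiableAt.differentiableWithinAt
    · obtain ⟨d, hd0, hdd⟩ := hd x (interior_subset hx)
      rw [hdd.deriv]; exact hd0
  have h := hm ⟨le_rfl, hεr.le⟩ ⟨hεr.le, le_rfl⟩ hεr.le
  have h2 : (psiSlope ε - 2) ^ 2 ≤ (ε ^ 2 / (1 - ε ^ 2)) ^ 2 := by
    refine pow_le_pow_left₀ (by linarith [two_le_psiSlope hεm]) ?_ 2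
    have h1 : 0 < 1 - ε ^ 2 := by nlinarith [hεm.1, hεm.2]
    have hA := artanh_pos hεm
    have h3 : ε / ((1 - ε ^ 2) * artanh ε) ≤ 1 / (1 - ε ^ 2) := by
      rw [div_le_div_iff₀ (mul_pos h1 hA) h1]
      nlinarith [self_le_artanh ⟨hεm.1.le, hεm.2⟩]
    have h4 : 1 / (1 - ε ^ 2) = 1 + ε ^ 2 / (1 - ε ^ 2) := by field_simp; ring
    unfold psiSlope
    linarith
  have h5 : 0 ≤ 2 * psiG ε * psiSecond ε := by
    refine mul_nonneg (by linarith [psiG_pos hεm]) (div_nonneg ?_ ?_)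
    · nlinarith [self_le_artanh ⟨hεm.1.le, hεm.2⟩, sq_nonneg ε, artanh_pos hεm]
    · have := (artanh_pos hεm).le
      positivity
  simp only [F] at h
  linarith

/-- The square root of `psiG`. -/
def psiK (r : ℝ) : ℝ := Real.sqrt (psiG r)

/-- The slope of `psiK` against `phi`. -/
def psiSig (r : ℝ) : ℝ := (psiSlope r - 2) / (2 * psiK r)

lemma psiK_pos {r : ℝ} (hr : r ∈ Ioo (0:ℝ) 1) : 0 < psiK r := Real.sqrt_pos.mpr (psiG_pos hr)

lemma psiSig_nonneg {r : ℝ} (hr : r ∈ Ioo (0:ℝ) 1) : 0 ≤ psiSig r :=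
  div_nonneg (by linarith [two_le_psiSlope hr]) (by linarith [psiK_pos hr])

lemma hasDerivAt_psiK {r : ℝ} (hr : r ∈ Ioo (0:ℝ) 1) :
    HasDerivAt psiK (psiSig r * artanh r) r := by
  refine ((hasDerivAt_psiG hr).sqrt (psiG_pos hr).ne').congr_deriv ?_
  rw [psiSig, psiK]
  ring

lemma psiSig_mono {x y : ℝ} (hx : 0 < x) (hxy : x ≤ y) (hy : y < 1) : psiSig x ≤ psiSig y := by
  have hd : ∀ t ∈ Icc x y, HasDerivAt psiSig
      (artanh t * (2 * psiG t * psiSecond t - (psiSlope t - 2) ^ 2) / (4 * psiK t ^ 3)) t := by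
    intro t ht
    have ht' : t ∈ Ioo (0:ℝ) 1 := ⟨lt_of_lt_of_le hx ht.1, lt_of_le_of_lt ht.2 hy⟩
    have hk := (psiK_pos ht').ne'
    refine (((hasDerivAt_psiSlope ht').sub_const 2).fun_div
      ((hasDerivAt_psiK ht').const_mul 2) (mul_ne_zero two_ne_zero hk)).congr_deriv ?_
    have hsq : psiG t = psiK t ^ 2 := (Real.sq_sqrt (psiG_pos ht').le).symm
    rw [psiSlope'_eq ht', hsq, psiSig]
    field_simp
    ring
  refine monotoneOn_of_hasDerivWithinAt_nonneg (convex_Icc x y)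
    (fun t ht => (hd t ht).continuousAt.continuousWithinAt)
    (fun t ht => (hd t (interior_subset ht)).hasDerivWithinAt) ?_ ⟨le_rfl, hxy⟩ ⟨hxy, le_rfl⟩ hxy
  intro t ht
  have ht0 := interior_subset ht
  have ht' : t ∈ Ioo (0:ℝ) 1 := ⟨lt_of_lt_of_le hx ht0.1, lt_of_le_of_lt ht0.2 hy⟩
  have := psiK_pos ht'
  exact div_nonneg (mul_nonneg (artanh_pos ht').le (sub_nonneg.mpr (psiG_logconvex ht')))
    (by positivity)

lemma psiK_tangent {r₀ r : ℝ} (hr₀ : r₀ ∈ Ioo (0:ℝ) 1) (hr : r ∈ Ioo (0:ℝ) 1) :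
    psiK r₀ + psiSig r₀ * (phi r - phi r₀) ≤ psiK r := by
  let f : ℝ → ℝ := fun x => psiK x - psiSig r₀ * phi x
  have hd : ∀ x ∈ Ioo (0:ℝ) 1, HasDerivAt f (artanh x * (psiSig x - psiSig r₀)) x := fun x hx =>
    ((hasDerivAt_psiK hx).sub ((hasDerivAt_phi ⟨by linarith [hx.1], hx.2⟩).const_mul
      (psiSig r₀))).congr_deriv (by ring)
  have key : f r₀ ≤ f r := by
    rcases le_total r r₀ with h | h
    · have hin : ∀ x ∈ Icc r r₀, x ∈ Ioo (0:ℝ) 1 := fun x hx =>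
        ⟨lt_of_lt_of_le hr.1 hx.1, lt_of_le_of_lt hx.2 hr₀.2⟩
      exact antitoneOn_of_hasDerivWithinAt_nonpos (convex_Icc r r₀)
        (fun x hx => (hd x (hin x hx)).continuousAt.continuousWithinAt)
        (fun x hx => (hd x (hin x (interior_subset hx))).hasDerivWithinAt)
        (fun x hx => mul_nonpos_of_nonneg_of_nonpos (artanh_pos (hin x (interior_subset hx))).le
          (sub_nonpos.mpr (psiSig_mono (hin x (interior_subset hx)).1 (interior_subset hx).2 hr₀.2)))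
        ⟨le_rfl, h⟩ ⟨h, le_rfl⟩ h
    · have hin : ∀ x ∈ Icc r₀ r, x ∈ Ioo (0:ℝ) 1 := fun x hx =>
        ⟨lt_of_lt_of_le hr₀.1 hx.1, lt_of_le_of_lt hx.2 hr.2⟩
      exact monotoneOn_of_hasDerivWithinAt_nonneg (convex_Icc r₀ r)
        (fun x hx => (hd x (hin x hx)).continuousAt.continuousWithinAt)
        (fun x hx => (hd x (hin x (interior_subset hx))).hasDerivWithinAt)
        (fun x hx => mul_nonneg (artanh_pos (hin x (interior_subset hx))).le
          (sub_nonneg.mpr (psiSig_mono hr₀.1 (interior_subset hx).1 (hin x (interior_subset hx)).2)))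
        ⟨le_rfl, h⟩ ⟨h, le_rfl⟩ h
  simp only [f] at key
  linarith

lemma phi_pos {x : ℝ} (hx : x ∈ Ioo (0:ℝ) 1) : 0 < phi x :=
  lt_of_lt_of_le (by have := hx.1; positivity) (half_sq_le_phi ⟨hx.1.le, hx.2⟩)

lemma phi_div_sq_mono {x y : ℝ} (hx : 0 < x) (hxy : x ≤ y) (hy : y < 1) :
    phi x * y ^ 2 ≤ phi y * x ^ 2 := by
  have hd : ∀ t ∈ Icc x y, HasDerivAt (fun t => phi t / t ^ 2)
      ((t * artanh t - 2 * phi t) / t ^ 3) t := by
    intro t ht
    have ht0 : 0 < t := lt_of_lt_of_le hx ht.1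
    refine ((hasDerivAt_phi ⟨by linarith, lt_of_le_of_lt ht.2 hy⟩).fun_div (hasDerivAt_pow 2 t)
      (by positivity)).congr_deriv ?_
    field_simp
    ring
  have h := monotoneOn_of_hasDerivWithinAt_nonneg (convex_Icc x y)
    (fun t ht => (hd t ht).continuousAt.continuousWithinAt)
    (fun t ht => (hd t (interior_subset ht)).hasDerivWithinAt)
    (fun t ht => by
      have ht' := interior_subset ht
      have ht0 : 0 < t := lt_of_lt_of_le hx ht'.1
      exact div_nonneg (sub_nonneg.mpr (two_mul_phi_le ⟨ht0.le, lt_of_le_of_lt ht'.2 hy⟩))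
        (by positivity))
    ⟨le_rfl, hxy⟩ ⟨hxy, le_rfl⟩ hxy
  simp only at h
  rwa [div_le_div_iff₀ (by positivity) (pow_pos (lt_of_lt_of_le hx hxy) 2)] at h

/-- The second-moment inequality, in algebraic form. -/
lemma second_moment {m F P c : ℝ} (hm : 0 ≤ m) (hm1 : m < 1) (hF : 0 < F) (hP : 0 < P)
    (hPF : (1 + m) ^ 2 * P ≤ (1 - m) ^ 2 * F) (hc : 1 - m ^ 2 ≤ c) :
    ((1 + m) / 2 * P + (1 - m) / 2 * F) ^ 2
      ≤ c * ((1 + m) / 2 * P ^ 2 + (1 - m) / 2 * F ^ 2) := by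
  have key : (1 + 3 * m ^ 2) * ((1 + m) / 2 * P + (1 - m) / 2 * F) ^ 2
      ≤ (1 - m ^ 2) * ((1 + m) / 2 * P ^ 2 + (1 - m) / 2 * F ^ 2) := by
    nlinarith [mul_nonneg (sub_nonneg.mpr hPF) (mul_nonneg (sub_nonneg.mpr hm1.le) hF.le),
      mul_nonneg (sub_nonneg.mpr hPF) (mul_nonneg (add_nonneg zero_le_one hm) hP.le),
      mul_nonneg (mul_nonneg (sub_nonneg.mpr hPF) hm) hF.le,
      mul_nonneg (mul_nonneg (sub_nonneg.mpr hPF) hm) hP.le,
      mul_nonneg (mul_nonneg (sub_nonneg.mpr hPF) (sq_nonneg m)) hF.le,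
      mul_nonneg (mul_nonneg (sub_nonneg.mpr hPF) (sq_nonneg m)) hP.le]
  have h2 : ((1 + m) / 2 * P + (1 - m) / 2 * F) ^ 2
      ≤ (1 + 3 * m ^ 2) * ((1 + m) / 2 * P + (1 - m) / 2 * F) ^ 2 :=
    le_mul_of_one_le_left (sq_nonneg _) (by nlinarith [sq_nonneg m])
  refine h2.trans (key.trans (mul_le_mul_of_nonneg_right hc ?_))
  have : 0 ≤ 1 - m := by linarith
  positivity

/-- A line squared: the two-point bound. -/
lemma two_point_line {p q x y c s K Kx Ky : ℝ} (hp : 0 ≤ p) (hq : 0 ≤ q) (hpq : p + q = 1)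
    (hmean : p * x + q * y = c) (hsec : c ≤ p * x ^ 2 + q * y ^ 2) (hy : 1 ≤ y)
    (hs : 0 ≤ s) (hK : 0 ≤ K) (hc : c ≤ 1)
    (hx : K * (1 + s * (x - 1)) ≤ Kx) (hyK : K * (1 + s * (y - 1)) ≤ Ky) :
    c * K ^ 2 ≤ p * Kx ^ 2 + q * Ky ^ 2 := by
  have ident : ∀ t : ℝ, p * (1 + t * (x - 1)) ^ 2 + q * (1 + t * (y - 1)) ^ 2
      = c + (1 - c) * (t - 1) ^ 2 + t ^ 2 * (p * x ^ 2 + q * y ^ 2 - c) := by
    intro t
    have hq' : q = 1 - p := by linarith
    subst hq'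
    rw [← hmean]
    ring
  have hc1 : ∀ t : ℝ, c ≤ 1 →
      c ≤ p * (1 + t * (x - 1)) ^ 2 + q * (1 + t * (y - 1)) ^ 2 := by
    intro t hc
    rw [ident t]
    have := mul_nonneg (sub_nonneg.mpr hc) (sq_nonneg (t - 1))
    have := mul_nonneg (sq_nonneg t) (sub_nonneg.mpr hsec)
    linarith
  have hy0 : 0 ≤ K * (1 + s * (y - 1)) :=
    mul_nonneg hK (by have := mul_nonneg hs (sub_nonneg.mpr hy); linarith)
  have hY : (K * (1 + s * (y - 1))) ^ 2 ≤ Ky ^ 2 := pow_le_pow_left₀ hy0 hyK 2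
  rcases le_or_gt 0 (1 + s * (x - 1)) with h | h
  · have hX : (K * (1 + s * (x - 1))) ^ 2 ≤ Kx ^ 2 := pow_le_pow_left₀ (mul_nonneg hK h) hx 2
    have := mul_le_mul_of_nonneg_right (hc1 s hc) (sq_nonneg K)
    nlinarith only [this, mul_le_mul_of_nonneg_left hX hp, mul_le_mul_of_nonneg_left hY hq]
  · -- the left value is clamped at zero
    have hx1 : x < 1 := by
      by_contra hcon
      have := mul_nonneg hs (show 0 ≤ x - 1 by linarith)
      linarith
    obtain ⟨t, ht⟩ : ∃ t, t = 1 / (1 - x) := ⟨_, rfl⟩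
    have ht0 : 0 ≤ t := ht ▸ div_nonneg zero_le_one (by linarith)
    have hts : t ≤ s := by
      rw [ht, div_le_iff₀ (by linarith)]
      linarith
    have hz : 1 + t * (x - 1) = 0 := by
      have : (1:ℝ) - x ≠ 0 := by linarith
      rw [ht]; field_simp; ring
    have hle : 1 + t * (y - 1) ≤ 1 + s * (y - 1) := by
      have := mul_le_mul_of_nonneg_right hts (sub_nonneg.mpr hy)
      linarith
    have h1 : 0 ≤ 1 + t * (y - 1) := by have := mul_nonneg ht0 (sub_nonneg.mpr hy); linarith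
    have hY2 : (1 + t * (y - 1)) ^ 2 * K ^ 2 ≤ Ky ^ 2 := by
      refine le_trans ?_ hY
      rw [mul_pow, mul_comm (K ^ 2)]
      exact mul_le_mul_of_nonneg_right (pow_le_pow_left₀ h1 hle 2) (sq_nonneg K)
    have hct : c ≤ q * (1 + t * (y - 1)) ^ 2 := by
      have := hc1 t hc
      rw [hz] at this
      simpa using this
    nlinarith only [mul_le_mul_of_nonneg_right hct (sq_nonneg K), mul_nonneg hp (sq_nonneg Kx),
      mul_le_mul_of_nonneg_left hY2 hq]

lemma edgeJ_split {m δ : ℝ} (hm : 0 ≤ m) (h0 : 0 < δ) (h1 : δ < 1 - m) :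
    edgeJ (m + δ) (m - δ) = (1 + m) / 2 * (δ / (1 + m) * artanh (δ / (1 + m)))
      + (1 - m) / 2 * (δ / (1 - m) * artanh (δ / (1 - m))) := by
  have a1 : (0:ℝ) < 1 + m := by linarith
  have a2 : (0:ℝ) < 1 - m := by linarith
  have r1 : δ / (1 + m) < 1 := by rw [div_lt_one a1]; linarith
  have r2 : δ / (1 - m) < 1 := by rw [div_lt_one a2]; linarith
  have p1 := div_pos h0 a1
  have p2 := div_pos h0 a2
  have l : ∀ x ∈ Ioo (-1:ℝ) 1, artanh x = (log (1 + x) - log (1 - x)) / 2 :=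
    fun x hx => artanh_eq_half_log_sub hx
  rw [edgeJ, l _ ⟨by linarith, by linarith⟩, l _ ⟨by linarith, by linarith⟩,
    l _ ⟨by linarith, r1⟩, l _ ⟨by linarith, r2⟩]
  rw [show 1 + δ / (1 + m) = (1 + (m + δ)) / (1 + m) by field_simp; ring,
    show 1 - δ / (1 + m) = (1 + (m - δ)) / (1 + m) by field_simp; ring,
    show 1 + δ / (1 - m) = (1 - (m - δ)) / (1 - m) by field_simp; ring,
    show 1 - δ / (1 - m) = (1 - (m + δ)) / (1 - m) by field_simp; ring,
    log_div (by linarith) a1.ne', log_div (by linarith) a1.ne',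
    log_div (by linarith) a2.ne', log_div (by linarith) a2.ne']
  field_simp
  ring

/-- `tT = 2 G + c K²`. -/
lemma tT_split {H h : ℝ} (hh : 0 < h) (hlt : h < H) (hl : H ≤ log 2) :
    ∃ r ∈ Ioo (0:ℝ) 1, phi r = (H - h) / tC H h ∧
      tT H h = 2 * (H - h) + tC H h * psiK r ^ 2 := by
  have hl0 := log_two_pos'
  have hH : 0 < H := by linarith
  have hcpos := tC_pos hh hlt.le
  obtain ⟨z, hz⟩ : ∃ z, z = log 2 * (h / H) / tC H h := ⟨_, rfl⟩
  have hzY : z = log 2 - (H - h) / tC H h := by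
    rw [hz, div_eq_iff hcpos.ne', sub_mul, div_mul_cancel₀ _ hcpos.ne', tC]
    field_simp
    ring
  have hz0 : 0 < z := by rw [hz]; positivity
  have hzl : z < log 2 := by rw [hzY]; linarith [div_pos (sub_pos.mpr hlt) hcpos]
  have hr0 : rEnt z ∈ Ioo (0:ℝ) 1 := by
    refine ⟨?_, rEnt_lt_one hz0⟩
    rcases eq_or_lt_of_le (rEnt_spec z).1.1 with h | h
    · have h2 := (rEnt_spec z).2
      rw [← h, ent_zero, max_eq_left hz0.le, min_eq_left hzl.le] at h2
      linarith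
    · exact h
  have hphi0 : phi (rEnt z) = (H - h) / tC H h := by
    rw [phi, (rEnt_spec z).2, max_eq_left hz0.le, min_eq_left hzl.le]
    linarith
  refine ⟨rEnt z, hr0, hphi0, ?_⟩
  rw [tT, ← hz, psiK, Real.sq_sqrt (psiG_pos hr0).le, psiG, hphi0, psiD]
  field_simp
  ring

lemma base_aux {m δ : ℝ} (hm : 0 ≤ m) (h0 : 0 < δ) (h1 : δ < 1 - m) :
    tT (ent m) ((ent (m + δ) + ent (m - δ)) / 2) ≤ edgeJ (m + δ) (m - δ) := by
  have a1 : (0:ℝ) < 1 + m := by linarith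
  have a2 : (0:ℝ) < 1 - m := by linarith
  have hl := log_two_pos'
  have hmI : m ∈ Ioo (-1:ℝ) 1 := ⟨by linarith, by linarith⟩
  have hH := ent_pos hmI
  obtain ⟨h, hh⟩ : ∃ h, h = (ent (m + δ) + ent (m - δ)) / 2 := ⟨_, rfl⟩
  rw [← hh]
  have hhp : 0 < h := by
    rw [hh]
    linarith [ent_pos (x := m + δ) ⟨by linarith, by linarith⟩,
      ent_pos (x := m - δ) ⟨by linarith, by linarith⟩]
  obtain ⟨rp, hrp⟩ : ∃ x, x = δ / (1 + m) := ⟨_, rfl⟩
  obtain ⟨rq, hrq⟩ : ∃ x, x = δ / (1 - m) := ⟨_, rfl⟩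
  have hrp' : rp ∈ Ioo (0:ℝ) 1 :=
    ⟨hrp ▸ div_pos h0 a1, by rw [hrp, div_lt_one a1]; linarith⟩
  have hrq' : rq ∈ Ioo (0:ℝ) 1 := ⟨hrq ▸ div_pos h0 a2, by rw [hrq, div_lt_one a2]; linarith⟩
  have hP := phi_pos hrp'
  have hF := phi_pos hrq'
  have hG : ent m - h = (1 + m) / 2 * phi rp + (1 - m) / 2 * phi rq := by
    rw [hh, hrp, hrq, ← gapG_eq hm h0 h1, gapG, phi, phi, phi]
    ring
  obtain ⟨G, hGd⟩ : ∃ G, G = ent m - h := ⟨_, rfl⟩
  have hGpos : 0 < G := by rw [hGd, hG]; positivity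
  obtain ⟨c, hc⟩ : ∃ c, c = tC (ent m) h := ⟨_, rfl⟩
  have hcpos : 0 < c := hc ▸ tC_pos hhp (by linarith)
  have hcl : 1 - m ^ 2 ≤ c := by
    have h2 : 1 - c = G / ent m * (phi m / log 2) := by
      rw [hc, hGd, tC, phi]; field_simp; ring
    have h3 : G / ent m ≤ 1 := by rw [div_le_one hH]; linarith
    have h4 : phi m / log 2 ≤ m ^ 2 := by
      rw [div_le_iff₀ hl]; linarith [phi_le_log_two_sq (Ioo_subset_Icc_self hmI)]
    have h5 : 0 ≤ phi m / log 2 := div_nonneg (sub_nonneg.mpr (ent_le m)) hl.le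
    have h6 := mul_le_mul_of_nonneg_right h3 h5
    linarith
  obtain ⟨r0, hr0, hphi0, hTe⟩ := tT_split hhp (show h < ent m by linarith) (ent_le m)
  rw [← hc, ← hGd] at hphi0 hTe
  have hJ2 : edgeJ (m + δ) (m - δ) = 2 * G
      + ((1 + m) / 2 * psiK rp ^ 2 + (1 - m) / 2 * psiK rq ^ 2) := by
    rw [edgeJ_split hm h0 h1, ← hrp, ← hrq, psiK, psiK, Real.sq_sqrt (psiG_pos hrp').le, Real.sq_sqrt (psiG_pos hrq').le,
      psiG, psiG, hGd, hG]
    ring
  have hPF : (1 + m) ^ 2 * phi rp ≤ (1 - m) ^ 2 * phi rq := by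
    have h := phi_div_sq_mono hrp'.1
      (by rw [hrp, hrq]; exact div_le_div_of_nonneg_left h0.le a2 (by linarith)) hrq'.2
    rw [hrp, hrq, div_pow, div_pow, ← mul_div_assoc, ← mul_div_assoc,
      div_le_div_iff₀ (by positivity) (by positivity)] at h
    rw [hrp, hrq]
    have hd2 : 0 < δ ^ 2 := by positivity
    refine le_of_mul_le_mul_left ?_ hd2
    linarith
  have hsm := second_moment hm (by linarith) hF hP hPF hcl
  rw [← hG, ← hGd] at hsm
  have hY : 0 < G / c := div_pos hGpos hcpos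
  have hmean : (1 + m) / 2 * (phi rp / (G / c)) + (1 - m) / 2 * (phi rq / (G / c)) = c := by
    rw [← mul_div_assoc, ← mul_div_assoc, ← add_div, ← hG, ← hGd]
    field_simp
  have hsec : c ≤ (1 + m) / 2 * (phi rp / (G / c)) ^ 2 + (1 - m) / 2 * (phi rq / (G / c)) ^ 2 := by
    rw [show (1 + m) / 2 * (phi rp / (G / c)) ^ 2 + (1 - m) / 2 * (phi rq / (G / c)) ^ 2
      = c * (c * ((1 + m) / 2 * phi rp ^ 2 + (1 - m) / 2 * phi rq ^ 2)) / G ^ 2 by field_simp,
      le_div_iff₀ (by positivity)]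
    exact mul_le_mul_of_nonneg_left hsm hcpos.le
  have hy1 : 1 ≤ phi rq / (G / c) := by
    rw [one_le_div hY, div_le_iff₀ hcpos]
    have hPF' : phi rp ≤ phi rq := by
      refine le_of_mul_le_mul_left (hPF.trans ?_) (show 0 < (1 + m) ^ 2 by positivity)
      exact mul_le_mul_of_nonneg_right (pow_le_pow_left₀ a2.le (by linarith) 2) hF.le
    have e : (1 + m) / 2 * phi rp ^ 2 + (1 - m) / 2 * phi rq ^ 2 ≤ phi rq * G := by
      rw [hGd, hG]
      nlinarith [mul_le_mul_of_nonneg_left hPF' (mul_nonneg a1.le hP.le)]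
    have h7 := hsm.trans (mul_le_mul_of_nonneg_left e hcpos.le)
    nlinarith
  have ht : ∀ r ∈ Ioo (0:ℝ) 1,
      psiK r0 * (1 + psiSig r0 * (G / c) / psiK r0 * (phi r / (G / c) - 1)) ≤ psiK r := by
    intro r hr
    refine le_of_eq_of_le ?_ (psiK_tangent hr0 hr)
    have := (psiK_pos hr0).ne'
    rw [hphi0]
    field_simp
  have hmain := two_point_line (p := (1 + m) / 2) (q := (1 - m) / 2)
    (s := psiSig r0 * (G / c) / psiK r0) (by linarith) (by linarith) (by ring) hmean hsec hy1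
    (div_nonneg (mul_nonneg (psiSig_nonneg hr0) hY.le) (psiK_pos hr0).le) (psiK_pos hr0).le
    (hc ▸ tC_le_one hhp (by linarith) (ent_le m))
    (ht rp hrp') (ht rq hrq')
  rw [hTe, hJ2]
  linarith

/-- The base inequality. -/
theorem base_holds : BaseStmt := by
  intro a ha b hb
  wlog hab : b ≤ a generalizing a b
  · have := this b hb a ha (le_of_not_ge hab)
    rwa [add_comm b a, add_comm (ent b), edgeJ_comm b a] at this
  wlog hm : 0 ≤ (a + b) / 2 generalizing a b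
  · have := this (-b) ⟨by linarith [hb.2], by linarith [hb.1]⟩ (-a)
      ⟨by linarith [ha.2], by linarith [ha.1]⟩ (by linarith) (by linarith [not_le.mp hm])
    rw [show (-b + -a) / 2 = -((a + b) / 2) by ring, ent_neg, ent_neg, ent_neg,
      add_comm (ent b)] at this
    convert this using 1
    rw [edgeJ, edgeJ, artanh_neg' ha, artanh_neg' hb]
    ring
  rcases eq_or_lt_of_le hab with heq | hlt
  · subst heq
    rw [show (b + b) / 2 = b by ring, show (ent b + ent b) / 2 = ent b by ring,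
      tT_self (ent_pos hb)]
    exact edgeJ_nonneg hb hb
  have := base_aux (m := (a + b) / 2) (δ := (a - b) / 2) hm (by linarith) (by linarith [ha.2])
  rwa [show (a + b) / 2 + (a - b) / 2 = a by ring, show (a + b) / 2 - (a - b) / 2 = b by ring]
    at this

end Vale.Agent.P322
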