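import Vale.Agent.P322.Defs
import Mathlib.Analysis.Calculus.Deriv.MeanValue
import Mathlib.Analysis.SpecialFunctions.Trigonometric.DerivHyp
import Mathlib.Analysis.Convex.SpecificFunctions.Deriv

/-! Properties of `ent`, `artanh` and `psiD`. -/

noncomputable section

namespace Vale.Agent.P322

open Real Set

lemma ent_continuous : Continuous ent := by
  unfold ent; fun_prop

lemma ent_zero : ent 0 = log 2 := by
  simp [ent]

lemma ent_one : ent 1 = 0 := by
  simp [ent]

lemma ent_neg (x : ℝ) : ent (-x) = ent x := by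
  unfold ent
  rw [← binEntropy_one_sub]
  congr 1
  ring

lemma ent_neg_one : ent (-1) = 0 := by rw [ent_neg, ent_one]

lemma ent_le (x : ℝ) : ent x ≤ log 2 := binEntropy_le_log_two

lemma ent_nonneg {x : ℝ} (hx : x ∈ Icc (-1:ℝ) 1) : 0 ≤ ent x :=
  binEntropy_nonneg (by linarith [hx.1]) (by linarith [hx.2])

lemma ent_pos {x : ℝ} (hx : x ∈ Ioo (-1:ℝ) 1) : 0 < ent x :=
  binEntropy_pos (by linarith [hx.1]) (by linarith [hx.2])

lemma artanh_eq_half_log_sub {x : ℝ} (hx : x ∈ Ioo (-1:ℝ) 1) :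
    artanh x = (log (1 + x) - log (1 - x)) / 2 := by
  rw [artanh_eq_half_log (Ioo_subset_Icc_self hx),
    log_div (by linarith [hx.1]) (by linarith [hx.2])]
  ring

lemma hasDerivAt_artanh {x : ℝ} (hx : x ∈ Ioo (-1:ℝ) 1) :
    HasDerivAt artanh (1 / (1 - x ^ 2)) x := by
  have h1 : (1:ℝ) + x ≠ 0 := by linarith [hx.1]
  have h2 : (1:ℝ) - x ≠ 0 := by linarith [hx.2]
  have ha := ((hasDerivAt_id x).const_add 1).log h1
  have hb := ((hasDerivAt_id x).const_sub 1).log h2
  have h := (ha.sub hb).div_const 2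
  have heq : (fun y => artanh y) =ᶠ[nhds x] fun y => (log (1 + id y) - log (1 - id y)) / 2 := by
    filter_upwards [isOpen_Ioo.mem_nhds hx] with y hy
    exact artanh_eq_half_log_sub hy
  refine (h.congr_of_eventuallyEq heq).congr_deriv ?_
  simp only [id]
  have h3 : (1:ℝ) - x ^ 2 ≠ 0 := by
    rw [show (1:ℝ) - x ^ 2 = (1 + x) * (1 - x) by ring]; exact mul_ne_zero h1 h2
  field_simp
  ring

lemma artanh_neg' {x : ℝ} (hx : x ∈ Ioo (-1:ℝ) 1) : artanh (-x) = - artanh x := by
  rw [artanh_eq_half_log_sub hx,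
    artanh_eq_half_log_sub (show -x ∈ Ioo (-1:ℝ) 1 from ⟨by linarith [hx.2], by linarith [hx.1]⟩)]
  ring_nf

lemma hasDerivAt_ent {x : ℝ} (hx : x ∈ Ioo (-1:ℝ) 1) :
    HasDerivAt ent (- artanh x) x := by
  have h1 : (1 + x) / 2 ≠ 0 := by linarith [hx.1]
  have h2 : (1 + x) / 2 ≠ 1 := by linarith [hx.2]
  have h := (hasDerivAt_binEntropy h1 h2).comp x (((hasDerivAt_id x).const_add 1).div_const 2)
  refine h.congr_deriv ?_
  rw [artanh_eq_half_log_sub hx]
  have e1 : (1:ℝ) - (1 + x) / 2 = (1 - x) / 2 := by ring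
  rw [e1, log_div (by linarith [hx.1, hx.2]) (by norm_num),
    log_div (by linarith [hx.1, hx.2]) (by norm_num)]
  ring

lemma ent_strictAntiOn : StrictAntiOn ent (Icc (0:ℝ) 1) := by
  intro a ha b hb hab
  exact binEntropy_strictAntiOn ⟨by linarith [ha.1], by linarith [ha.2]⟩
    ⟨by linarith [hb.1], by linarith [hb.2]⟩ (by linarith)

lemma ent_abs (x : ℝ) : ent |x| = ent x := by
  rcases abs_choice x with h | h <;> rw [h]
  exact ent_neg x

lemma surj_ent {d : ℝ} (h0 : 0 ≤ d) (h1 : d ≤ log 2) : ∃ r ∈ Icc (0:ℝ) 1, ent r = d := by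
  have := intermediate_value_Icc' (zero_le_one) (ent_continuous.continuousOn)
  rw [ent_one, ent_zero] at this
  exact this ⟨h0, h1⟩

lemma rEnt_spec (d : ℝ) :
    rEnt d ∈ Icc (0:ℝ) 1 ∧ ent (rEnt d) = min (max d 0) (log 2) := by
  have h := surj_ent (d := min (max d 0) (log 2))
    (le_min (le_max_right _ _) (log_nonneg (by norm_num))) (min_le_right _ _)
  exact ⟨Function.invFunOn_mem h, Function.invFunOn_eq h⟩

lemma rEnt_ent {r : ℝ} (hr : r ∈ Icc (0:ℝ) 1) : rEnt (ent r) = r := by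
  have h := rEnt_spec (ent r)
  rw [max_eq_left (ent_nonneg ⟨by linarith [hr.1], hr.2⟩), min_eq_left (ent_le r)] at h
  exact ent_strictAntiOn.injOn h.1 hr h.2

lemma rEnt_lt_one {d : ℝ} (hd : 0 < d) : rEnt d < 1 := by
  rcases lt_or_eq_of_le (rEnt_spec d).1.2 with h | h
  · exact h
  · have h2 := (rEnt_spec d).2
    rw [h, ent_one] at h2
    have : 0 < min (max d 0) (log 2) :=
      lt_min (lt_of_lt_of_le hd (le_max_left _ _)) (log_pos (by norm_num))
    linarith

lemma rEnt_mem {d : ℝ} (hd : 0 < d) : rEnt d ∈ Ioo (-1:ℝ) 1 :=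
  ⟨by linarith [(rEnt_spec d).1.1], rEnt_lt_one hd⟩

lemma rEnt_of_log_two_le {d : ℝ} (hd : log 2 ≤ d) : rEnt d = 0 := by
  have h := rEnt_spec d
  rw [min_eq_right (le_trans hd (le_max_left _ _)), ← ent_zero] at h
  exact ent_strictAntiOn.injOn h.1 ⟨le_rfl, zero_le_one⟩ h.2

lemma rEnt_antitone : Antitone rEnt := by
  intro a b hab
  by_contra h
  push Not at h
  have := ent_strictAntiOn (rEnt_spec a).1 (rEnt_spec b).1 h
  rw [(rEnt_spec a).2, (rEnt_spec b).2] at this
  exact absurd this (not_lt.mpr (min_le_min (max_le_max hab le_rfl) le_rfl))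

lemma psiD_ent {r : ℝ} (hr : r ∈ Icc (0:ℝ) 1) : psiD (ent r) = r * artanh r := by
  unfold psiD; rw [rEnt_ent hr]

lemma psiD_ent_abs {r : ℝ} (hr : r ∈ Ioo (-1:ℝ) 1) : psiD (ent r) = r * artanh r := by
  rw [← ent_abs, psiD_ent ⟨abs_nonneg r, le_of_lt (abs_lt.mpr hr)⟩]
  rcases abs_choice r with h | h <;> rw [h]
  rw [artanh_neg' hr]; ring

lemma psiD_nonneg (d : ℝ) : 0 ≤ psiD d :=
  mul_nonneg (rEnt_spec d).1.1 (artanh_nonneg (rEnt_spec d).1.1)

lemma psiD_of_log_two_le {d : ℝ} (hd : log 2 ≤ d) : psiD d = 0 := by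
  simp [psiD, rEnt_of_log_two_le hd]

lemma mul_artanh_le_mul_artanh {a b : ℝ} (ha : 0 ≤ a) (hab : a ≤ b) (hb : b < 1) :
    a * artanh a ≤ b * artanh b :=
  mul_le_mul hab (artanh_le_artanh (by linarith) hb hab) (artanh_nonneg ha) (le_trans ha hab)

lemma psiD_anti {a b : ℝ} (ha : 0 < a) (hab : a ≤ b) : psiD b ≤ psiD a :=
  mul_artanh_le_mul_artanh (rEnt_spec b).1.1 (rEnt_antitone hab) (rEnt_lt_one ha)

/-- The negative slope of `psiD` at `ent r`. -/
def psiSlope (r : ℝ) : ℝ := 1 + r / ((1 - r ^ 2) * artanh r)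

lemma psiSlope_pos {r : ℝ} (hr : r ∈ Ioo (0:ℝ) 1) : 0 < psiSlope r := by
  have : 0 < (1 - r ^ 2) * artanh r := mul_pos (by nlinarith [hr.1, hr.2]) (artanh_pos hr)
  unfold psiSlope
  have := div_pos hr.1 this
  linarith

lemma artanh_le_div {r : ℝ} (hr : r ∈ Ico (0:ℝ) 1) : artanh r ≤ r / (1 - r ^ 2) := by
  have hmono : MonotoneOn (fun x => x / (1 - x ^ 2) - artanh x) (Icc 0 r) := by
    have hd : ∀ x ∈ Icc (0:ℝ) r, HasDerivAt (fun x => x / (1 - x ^ 2) - artanh x)
        (2 * x ^ 2 / (1 - x ^ 2) ^ 2) x := by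
      intro x hx
      have hx1 : x < 1 := lt_of_le_of_lt hx.2 hr.2
      have hne : (1:ℝ) - x ^ 2 ≠ 0 := by nlinarith [hx.1]
      refine (((hasDerivAt_id x).fun_div ((hasDerivAt_pow 2 x).const_sub 1) hne).sub
        (hasDerivAt_artanh ⟨by linarith [hx.1], hx1⟩)).congr_deriv ?_
      simp only [id]
      field_simp
      ring
    refine monotoneOn_of_hasDerivWithinAt_nonneg (convex_Icc _ _)
      (fun x hx => (hd x hx).continuousAt.continuousWithinAt)
      (fun x hx => (hd x (interior_subset hx)).hasDerivWithinAt) ?_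
    intro x _; positivity
  have := hmono ⟨le_rfl, hr.1⟩ ⟨hr.1, le_rfl⟩ hr.1
  simp at this
  linarith

lemma psiSlope_mono {a b : ℝ} (ha : 0 < a) (hab : a ≤ b) (hb : b < 1) :
    psiSlope a ≤ psiSlope b := by
  have hd : ∀ x ∈ Icc a b, HasDerivAt psiSlope
      (((1 + x ^ 2) * artanh x - x) / ((1 - x ^ 2) * artanh x) ^ 2) x := by
    intro x hx
    have hx' : x ∈ Ioo (0:ℝ) 1 := ⟨lt_of_lt_of_le ha hx.1, lt_of_le_of_lt hx.2 hb⟩
    have hne : (1:ℝ) - x ^ 2 ≠ 0 := by nlinarith [hx'.1, hx'.2]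
    have hA : artanh x ≠ 0 := (artanh_pos hx').ne'
    refine (((hasDerivAt_id x).fun_div (((hasDerivAt_pow 2 x).const_sub 1).fun_mul
      (hasDerivAt_artanh ⟨by linarith [hx'.1], hx'.2⟩)) (mul_ne_zero hne hA)).const_add 1).congr_deriv ?_
    simp only [id]
    field_simp
    ring
  refine monotoneOn_of_hasDerivWithinAt_nonneg (convex_Icc a b)
      (fun x hx => (hd x hx).continuousAt.continuousWithinAt)
      (fun x hx => (hd x (interior_subset hx)).hasDerivWithinAt) ?_ ⟨le_rfl, hab⟩ ⟨hab, le_rfl⟩ hab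
  intro x hx
  have hx' := interior_subset hx
  have hx'' : x ∈ Ioo (0:ℝ) 1 := ⟨lt_of_lt_of_le ha hx'.1, lt_of_le_of_lt hx'.2 hb⟩
  refine div_nonneg ?_ (sq_nonneg _)
  have h1 : x ≤ artanh x := by
    have hm : MonotoneOn (fun y => artanh y - y) (Icc 0 x) := by
      have hd' : ∀ y ∈ Icc (0:ℝ) x, HasDerivAt (fun y => artanh y - y) (1 / (1 - y ^ 2) - 1) y :=
        fun y hy => (hasDerivAt_artanh ⟨by linarith [hy.1], lt_of_le_of_lt hy.2 hx''.2⟩).sub
          (hasDerivAt_id y)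
      refine monotoneOn_of_hasDerivWithinAt_nonneg (convex_Icc _ _)
        (fun y hy => (hd' y hy).continuousAt.continuousWithinAt)
        (fun y hy => (hd' y (interior_subset hy)).hasDerivWithinAt) ?_
      intro y hy
      have hy' := interior_subset hy
      have : 0 < 1 - y ^ 2 := by nlinarith [hy'.1, hy'.2, hx''.2]
      rw [sub_nonneg, le_div_iff₀ this]; nlinarith
    have := hm ⟨le_rfl, hx''.1.le⟩ ⟨hx''.1.le, le_rfl⟩ hx''.1.le
    simpa using this
  nlinarith [artanh_pos hx'', sq_nonneg x]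

lemma artanh_continuousAt {x : ℝ} (hx : x ∈ Ioo (-1:ℝ) 1) : ContinuousAt artanh x :=
  (hasDerivAt_artanh hx).continuousAt

/-- Tangent lines below `psiD`; they give its convexity and that of its perspective. -/
lemma psiD_tangent {r₀ : ℝ} (hr₀ : r₀ ∈ Ioo (0:ℝ) 1) {d : ℝ} (hd : 0 < d) :
    r₀ * artanh r₀ - psiSlope r₀ * (d - ent r₀) ≤ psiD d := by
  set c := psiSlope r₀ with hc
  let f : ℝ → ℝ := fun r => r * artanh r + c * ent r
  have hder : ∀ r ∈ Ioo (-1:ℝ) 1,
      HasDerivAt f (artanh r + r / (1 - r ^ 2) - c * artanh r) r := by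
    intro r hr
    refine (((hasDerivAt_id r).mul (hasDerivAt_artanh hr)).add
      ((hasDerivAt_ent hr).const_mul c)).congr_deriv ?_
    simp only [id]; ring
  have key : ∀ r ∈ Ico (0:ℝ) 1, f r₀ ≤ f r := by
    intro r hr
    have hsign : ∀ x ∈ Ioo (0:ℝ) 1, artanh x + x / (1 - x ^ 2) - c * artanh x
        = artanh x * (psiSlope x - c) := by
      intro x hx
      have hne : (1:ℝ) - x ^ 2 ≠ 0 := by nlinarith [hx.1, hx.2]
      have hA : artanh x ≠ 0 := (artanh_pos hx).ne'
      unfold psiSlope; field_simp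
    rcases le_total r r₀ with h | h
    · have hm : AntitoneOn f (Icc r r₀) := by
        refine antitoneOn_of_hasDerivWithinAt_nonpos (convex_Icc _ _)
          (f' := fun x => artanh x + x / (1 - x ^ 2) - c * artanh x)
          (fun x hx => (hder x ⟨by linarith [hx.1, hr.1], lt_of_le_of_lt hx.2 hr₀.2⟩).continuousAt.continuousWithinAt)
          (fun x hx => (hder x ⟨by linarith [(interior_subset hx).1, hr.1],
            lt_of_le_of_lt (interior_subset hx).2 hr₀.2⟩).hasDerivWithinAt) ?_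
        intro x hx
        rw [interior_Icc] at hx
        have hx' : x ∈ Ioo (0:ℝ) 1 := ⟨lt_of_le_of_lt hr.1 hx.1, lt_trans hx.2 hr₀.2⟩
        show artanh x + x / (1 - x ^ 2) - c * artanh x ≤ 0
        rw [hsign x hx']
        exact mul_nonpos_of_nonneg_of_nonpos (artanh_pos hx').le
          (sub_nonpos.mpr (psiSlope_mono hx'.1 hx.2.le hr₀.2))
      exact hm ⟨le_rfl, h⟩ ⟨h, le_rfl⟩ h
    · have hm : MonotoneOn f (Icc r₀ r) := by
        refine monotoneOn_of_hasDerivWithinAt_nonneg (convex_Icc _ _)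
          (f' := fun x => artanh x + x / (1 - x ^ 2) - c * artanh x)
          (fun x hx => (hder x ⟨by linarith [hx.1, hr₀.1], lt_of_le_of_lt hx.2 hr.2⟩).continuousAt.continuousWithinAt)
          (fun x hx => (hder x ⟨by linarith [(interior_subset hx).1, hr₀.1],
            lt_of_le_of_lt (interior_subset hx).2 hr.2⟩).hasDerivWithinAt) ?_
        intro x hx
        rw [interior_Icc] at hx
        have hx' : x ∈ Ioo (0:ℝ) 1 := ⟨lt_trans hr₀.1 hx.1, lt_trans hx.2 hr.2⟩
        show 0 ≤ artanh x + x / (1 - x ^ 2) - c * artanh x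
        rw [hsign x hx']
        exact mul_nonneg (artanh_pos hx').le
          (sub_nonneg.mpr (psiSlope_mono hr₀.1 hx.1.le hx'.2))
      exact hm ⟨le_rfl, h⟩ ⟨h, le_rfl⟩ h
  have hk := key (rEnt d) ⟨(rEnt_spec d).1.1, rEnt_lt_one hd⟩
  have hle : ent (rEnt d) ≤ d := by
    rw [(rEnt_spec d).2, max_eq_left hd.le]; exact min_le_left _ _
  have hc0 : 0 ≤ c := (psiSlope_pos hr₀).le
  have := mul_le_mul_of_nonneg_left hle hc0
  simp only [f] at hk
  unfold psiD
  linarith

lemma psiD_midpoint {a b : ℝ} (ha : 0 < a) (hb : 0 < b) :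
    psiD ((a + b) / 2) ≤ (psiD a + psiD b) / 2 := by
  rcases le_or_gt (log 2) ((a + b) / 2) with h | h
  · rw [psiD_of_log_two_le h]; linarith [psiD_nonneg a, psiD_nonneg b]
  · have hd : 0 < (a + b) / 2 := by linarith
    obtain ⟨r, hr, he⟩ := surj_ent hd.le h.le
    have hr' : r ∈ Ioo (0:ℝ) 1 := by
      constructor
      · rcases lt_or_eq_of_le hr.1 with h0 | h0
        · exact h0
        · subst h0; rw [ent_zero] at he; linarith
      · rcases lt_or_eq_of_le hr.2 with h0 | h0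
        · exact h0
        · rw [h0, ent_one] at he; linarith
    have h1 := psiD_tangent hr' ha
    have h2 := psiD_tangent hr' hb
    rw [← he, psiD_ent hr]
    rw [he] at h1 h2
    nlinarith

lemma two_mul_phi_le {x : ℝ} (hx : x ∈ Ico (0:ℝ) 1) : 2 * phi x ≤ x * artanh x := by
  have hd : ∀ y ∈ Icc (0:ℝ) x, HasDerivAt (fun y => y * artanh y - 2 * phi y)
      (y / (1 - y ^ 2) - artanh y) y := by
    intro y hy
    have hy' : y ∈ Ioo (-1:ℝ) 1 := ⟨by linarith [hy.1], lt_of_le_of_lt hy.2 hx.2⟩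
    refine (((hasDerivAt_id y).mul (hasDerivAt_artanh hy')).sub
      (((hasDerivAt_ent hy').const_sub (log 2)).const_mul 2)).congr_deriv ?_
    simp only [id]; ring
  have hm : MonotoneOn (fun y => y * artanh y - 2 * phi y) (Icc 0 x) := by
    refine monotoneOn_of_hasDerivWithinAt_nonneg (convex_Icc _ _)
      (fun y hy => (hd y hy).continuousAt.continuousWithinAt)
      (fun y hy => (hd y (interior_subset hy)).hasDerivWithinAt) ?_
    intro y hy
    have hy' := interior_subset hy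
    exact sub_nonneg.mpr (artanh_le_div ⟨hy'.1, lt_of_le_of_lt hy'.2 hx.2⟩)
  have := hm ⟨le_rfl, hx.1⟩ ⟨hx.1, le_rfl⟩ hx.1
  simp [phi, ent_zero] at this ⊢
  linarith

lemma sq_le_ent {x : ℝ} (hx : x ∈ Icc (-1:ℝ) 1) : (1 - x ^ 2) * log 2 ≤ ent x := by
  rw [← ent_abs, ← sq_abs]
  have h1 : |x| ≤ 1 := abs_le.mpr hx
  rcases eq_or_lt_of_le (abs_nonneg x) with h0 | h0
  · rw [← h0, ent_zero]; simp
  · have hm : MonotoneOn (fun y => phi y / y ^ 2) (Icc |x| 1) := by
      have hd : ∀ y ∈ Ioo |x| 1, HasDerivAt (fun y => phi y / y ^ 2)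
          ((y * artanh y - 2 * phi y) / y ^ 3) y := by
        intro y hy
        have hy0 : 0 < y := lt_trans h0 hy.1
        refine (((hasDerivAt_ent ⟨by linarith, hy.2⟩).const_sub (log 2)).fun_div
          (hasDerivAt_pow 2 y) (by positivity)).congr_deriv ?_
        simp only [phi]
        field_simp
        ring
      refine monotoneOn_of_hasDerivWithinAt_nonneg (convex_Icc _ _)
        (f' := fun y => (y * artanh y - 2 * phi y) / y ^ 3)
        (fun y hy => ?_) (fun y hy => ?_) (fun y hy => ?_)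
      · have hy0 : 0 < y := lt_of_lt_of_le h0 hy.1
        apply ContinuousAt.continuousWithinAt
        exact ((continuous_const.sub ent_continuous).continuousAt).div
          (by fun_prop) (by positivity)
      · rw [interior_Icc] at hy; exact (hd y hy).hasDerivWithinAt
      · rw [interior_Icc] at hy
        have hy0 : 0 < y := lt_trans h0 hy.1
        exact div_nonneg (sub_nonneg.mpr (two_mul_phi_le ⟨hy0.le, hy.2⟩)) (by positivity)
    have := hm ⟨le_rfl, h1⟩ ⟨h1, le_rfl⟩ h1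
    simp only [phi, ent_one, sub_zero, one_pow, div_one] at this
    rw [div_le_iff₀ (by positivity)] at this
    linarith

lemma edgeJ_comm (a b : ℝ) : edgeJ a b = edgeJ b a := by unfold edgeJ; ring

lemma edgeJ_nonneg {a b : ℝ} (ha : a ∈ Ioo (-1:ℝ) 1) (hb : b ∈ Ioo (-1:ℝ) 1) :
    0 ≤ edgeJ a b := by
  unfold edgeJ
  rcases le_total a b with h | h
  · have := (artanh_le_artanh_iff ha hb).mpr h
    nlinarith
  · have := (artanh_le_artanh_iff hb ha).mpr h
    nlinarith

end Vale.Agent.P322
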