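import Mathlib.Analysis.SpecialFunctions.Log.Base
import Mathlib.Analysis.SpecialFunctions.BinaryEntropy
import Mathlib.Algebra.BigOperators.Ring.Finset
import Mathlib.Data.Fintype.Pi
import Mathlib.Data.Fintype.Prod

/-! The objects of the Courtade-Kumar question. A sign is a `Bool`, `true` standing for `+1`. -/

noncomputable section

namespace Vale.Agent.P322

/-- Transition probability of `n` independent binary symmetric channels of crossover `ε`. -/
def bscW {n : ℕ} (ε : ℝ) (x y : Fin n → Bool) : ℝ :=
  ∏ i, if y i = x i then 1 - ε else ε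

/-- Joint law of `(f X, Y)`: `X` uniform, `Y` the channel output. -/
def jointP {n : ℕ} (f : (Fin n → Bool) → Bool) (ε : ℝ) (b : Bool) (y : Fin n → Bool) : ℝ :=
  ∑ x, if f x = b then (1 / 2 : ℝ) ^ n * bscW ε x y else 0

/-- Mutual information `I(f X; Y)` in bits, by the standard formula, with `0 * log = 0`. -/
def mutualInfo {n : ℕ} (f : (Fin n → Bool) → Bool) (ε : ℝ) : ℝ :=
  ∑ b : Bool, ∑ y : Fin n → Bool,
    jointP f ε b y *
      Real.logb 2 (jointP f ε b y / ((∑ y', jointP f ε b y') * (∑ b', jointP f ε b' y)))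

end Vale.Agent.P322
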