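import Vale.Agent.P322.Tbasic
import Vale.Agent.P322.Channel
import Mathlib.Algebra.BigOperators.Field
import Mathlib.Algebra.BigOperators.Fin
import Mathlib.Analysis.Calculus.Deriv.Mul
import Mathlib.Topology.Order.IntermediateValue

/-! From the one-step inequality to the Courtade-Kumar bound. -/

noncomputable section

namespace Vale.Agent.P322

open Real Set Finset

variable {n : ℕ}

/-- Flip coordinate `i`. -/
def flipAt (i : Fin n) (x : Fin n → Bool) : Fin n → Bool := Function.update x i (!(x i))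

/-- `true ↦ 1`, `false ↦ -1`. -/
def sgn (b : Bool) : ℝ := if b then 1 else -1

/-- The energy `E⟨g, L artanh g⟩`. -/
def dirE (g : (Fin n → Bool) → ℝ) : ℝ :=
  ∑ i : Fin n, avg (fun x => edgeJ (g x) (g (flipAt i x)))

lemma avg_cube (F : (Fin n → Bool) → ℝ) : avg F = (∑ x, F x) / 2 ^ n := by
  simp [avg]

lemma avg_cube_succ (F : (Fin (n + 1) → Bool) → ℝ) :
    avg F = (avg (fun x => F (Fin.cons true x)) + avg (fun x => F (Fin.cons false x))) / 2 := by
  simp only [avg_cube]
  rw [← Equiv.sum_comp (Fin.consEquiv fun _ => Bool), Fintype.sum_prod_type, Fintype.sum_bool]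
  simp only [pow_succ]
  field_simp
  rfl

lemma flipAt_zero_cons (b : Bool) (x : Fin n → Bool) :
    flipAt 0 (Fin.cons b x) = Fin.cons (!b) x := by
  simp [flipAt, Fin.update_cons_zero]

lemma flipAt_succ_cons (i : Fin n) (b : Bool) (x : Fin n → Bool) :
    flipAt i.succ (Fin.cons b x) = Fin.cons b (flipAt i x) := by
  simp [flipAt, Fin.cons_update]

lemma dirE_succ (g : (Fin (n + 1) → Bool) → ℝ) :
    dirE g = (dirE (fun x => g (Fin.cons true x)) + dirE (fun x => g (Fin.cons false x))) / 2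
      + avg (fun x => edgeJ (g (Fin.cons true x)) (g (Fin.cons false x))) := by
  unfold dirE
  rw [Fin.sum_univ_succ]
  simp only [avg_cube_succ, flipAt_zero_cons, flipAt_succ_cons, Bool.not_true, Bool.not_false]
  rw [← Finset.sum_div, Finset.sum_add_distrib]
  have e : ∀ x : Fin n → Bool, edgeJ (g (Fin.cons false x)) (g (Fin.cons true x))
      = edgeJ (g (Fin.cons true x)) (g (Fin.cons false x)) := fun x => edgeJ_comm _ _
  simp only [e]
  ring

/-- The Bellman function bounds the energy. -/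
theorem bellF_le_dirE (tp : TwoPointStmt) :
    ∀ (n : ℕ) (g : (Fin n → Bool) → ℝ), (∀ x, g x ∈ Set.Ioo (-1:ℝ) 1) →
      bellF (avg g) (avg (fun x => ent (g x))) ≤ dirE g := by
  intro n
  induction n with
  | zero =>
    intro g hg
    have h1 : ∀ F : (Fin 0 → Bool) → ℝ, avg F = F Fin.elim0 := by
      intro F; rw [avg_cube, Fintype.sum_unique]; simp only [pow_zero, div_one]; congr 1
    rw [h1, h1]
    set a := g Fin.elim0 with ha
    have hI : a ∈ Set.Ioo (-1:ℝ) 1 := hg _
    unfold bellF dirE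
    rw [tT_self (ent_pos hI)]
    simp
  | succ n ih =>
    intro g hg
    have h := tp (Fin n → Bool) (fun x => g (Fin.cons true x)) (fun x => g (Fin.cons false x))
      (fun x => hg _) (fun x => hg _)
    have h1 := ih (fun x => g (Fin.cons true x)) (fun x => hg _)
    have h2 := ih (fun x => g (Fin.cons false x)) (fun x => hg _)
    rw [avg_cube_succ g, avg_cube_succ (fun x => ent (g x)), dirE_succ]
    linarith

/-- The noise kernel at correlation `ρ`. -/
def kern (ρ : ℝ) (x y : Fin n → Bool) : ℝ :=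
  ∏ i, (1 + ρ * (if y i = x i then 1 else -1)) / 2

/-- `T_ρ f` with `±1` values. -/
def gT (f : (Fin n → Bool) → Bool) (ρ : ℝ) (y : Fin n → Bool) : ℝ :=
  ∑ x, kern ρ x y * sgn (f x)

/-- `I(f X; Y)` in nats. -/
def infoT (f : (Fin n → Bool) → Bool) (ρ : ℝ) : ℝ :=
  ent (avg fun x => sgn (f x)) - avg (fun y => ent (gT f ρ y))

lemma kern_sum_left (ρ : ℝ) (y : Fin n → Bool) : ∑ x, kern ρ x y = 1 := by
  unfold kern
  rw [← Fintype.prod_sum (fun i b => (1 + ρ * (if y i = b then 1 else -1)) / 2)]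
  apply Finset.prod_eq_one
  intro i _
  rw [Fintype.sum_bool]
  cases y i <;> simp <;> ring

lemma kern_sum_right (ρ : ℝ) (x : Fin n → Bool) : ∑ y, kern ρ x y = 1 := by
  unfold kern
  rw [← Fintype.prod_sum (fun i b => (1 + ρ * (if b = x i then 1 else -1)) / 2)]
  apply Finset.prod_eq_one
  intro i _
  rw [Fintype.sum_bool]
  cases x i <;> simp <;> ring

lemma kern_nonneg {ρ : ℝ} (hρ : ρ ∈ Set.Icc (0:ℝ) 1) (x y : Fin n → Bool) : 0 ≤ kern ρ x y := by
  refine Finset.prod_nonneg fun i _ => ?_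
  split_ifs <;> linarith [hρ.1, hρ.2]

lemma kern_pos {ρ : ℝ} (hρ : ρ ∈ Set.Ico (0:ℝ) 1) (x y : Fin n → Bool) : 0 < kern ρ x y := by
  refine Finset.prod_pos fun i _ => ?_
  split_ifs <;> linarith [hρ.1, hρ.2]

lemma sgn_mem (b : Bool) : sgn b ∈ Set.Icc (-1:ℝ) 1 := by
  cases b <;> simp [sgn]

lemma gT_mem {ρ : ℝ} (hρ : ρ ∈ Set.Icc (0:ℝ) 1) (f : (Fin n → Bool) → Bool) (y : Fin n → Bool) :
    gT f ρ y ∈ Set.Icc (-1:ℝ) 1 := by
  constructor
  · have h := Finset.sum_le_sum (s := Finset.univ) fun x (_ : x ∈ Finset.univ) =>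
      mul_le_mul_of_nonneg_left (sgn_mem (f x)).1 (kern_nonneg hρ x y)
    rw [← Finset.sum_mul, kern_sum_left, one_mul] at h
    exact h
  · have h := Finset.sum_le_sum (s := Finset.univ) fun x (_ : x ∈ Finset.univ) =>
      mul_le_mul_of_nonneg_left (sgn_mem (f x)).2 (kern_nonneg hρ x y)
    rw [← Finset.sum_mul, kern_sum_left, one_mul] at h
    exact h

lemma gT_mem_Ioo {ρ : ℝ} (hρ : ρ ∈ Set.Ico (0:ℝ) 1) {f : (Fin n → Bool) → Bool}
    (h0 : ∃ x, f x = false) (h1 : ∃ x, f x = true) (y : Fin n → Bool) :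
    gT f ρ y ∈ Set.Ioo (-1:ℝ) 1 := by
  obtain ⟨u, hu⟩ := h0
  obtain ⟨v, hv⟩ := h1
  constructor
  · have h := Finset.sum_lt_sum (s := Finset.univ)
      (fun x (_ : x ∈ Finset.univ) => mul_le_mul_of_nonneg_left (sgn_mem (f x)).1 (kern_pos hρ x y).le)
      ⟨v, Finset.mem_univ v, by rw [hv]; simp [sgn]; linarith [kern_pos hρ v y]⟩
    rw [← Finset.sum_mul, kern_sum_left, one_mul] at h
    exact h
  · have h := Finset.sum_lt_sum (s := Finset.univ)
      (fun x (_ : x ∈ Finset.univ) => mul_le_mul_of_nonneg_left (sgn_mem (f x)).2 (kern_pos hρ x y).le)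
      ⟨u, Finset.mem_univ u, by rw [hu]; simp [sgn]; linarith [kern_pos hρ u y]⟩
    rw [← Finset.sum_mul, kern_sum_left, one_mul] at h
    exact h

lemma avg_gT (f : (Fin n → Bool) → Bool) (ρ : ℝ) :
    avg (gT f ρ) = avg (fun x => sgn (f x)) := by
  simp only [avg_cube, gT]
  rw [Finset.sum_comm]
  congr 1
  refine Finset.sum_congr rfl fun x _ => ?_
  rw [← Finset.sum_mul, kern_sum_right, one_mul]

/-- The kernel without coordinate `i`. -/
def kernRest (ρ : ℝ) (i : Fin n) (x y : Fin n → Bool) : ℝ :=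
  ∏ j ∈ Finset.univ.erase i, (1 + ρ * (if y j = x j then 1 else -1)) / 2

lemma kern_sub_flip (ρ : ℝ) (i : Fin n) (x y : Fin n → Bool) :
    kern ρ x y - kern ρ x (flipAt i y)
      = ρ * (if y i = x i then 1 else -1) * kernRest ρ i x y := by
  have e : kernRest ρ i x (flipAt i y) = kernRest ρ i x y := by
    refine Finset.prod_congr rfl fun j hj => ?_
    rw [flipAt, Function.update_of_ne (Finset.ne_of_mem_erase hj)]
  unfold kern
  rw [← Finset.mul_prod_erase _ _ (Finset.mem_univ i),
    ← Finset.mul_prod_erase _ _ (Finset.mem_univ i)]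
  change _ * kernRest ρ i x y - _ * kernRest ρ i x (flipAt i y) = _
  rw [e, flipAt, Function.update_self]
  cases y i <;> cases x i <;> simp <;> ring

/-- The derivative of `gT` in `ρ`. -/
def gdot (f : (Fin n → Bool) → Bool) (ρ : ℝ) (y : Fin n → Bool) : ℝ :=
  ∑ x, (∑ i, kernRest ρ i x y * ((if y i = x i then 1 else -1) / 2)) * sgn (f x)

lemma hasDerivAt_gT (f : (Fin n → Bool) → Bool) (ρ : ℝ) (y : Fin n → Bool) :
    HasDerivAt (fun r => gT f r y) (gdot f ρ y) ρ := by
  unfold gT gdot
  refine HasDerivAt.fun_sum fun x _ => HasDerivAt.mul_const ?_ _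
  unfold kern kernRest
  have := HasDerivAt.fun_finsetProd (u := (Finset.univ : Finset (Fin n)))
    (f := fun i r => (1 + r * (if y i = x i then 1 else -1)) / 2)
    (f' := fun i => (if y i = x i then 1 else -1) / 2) (x := ρ)
    (fun i _ => ((hasDerivAt_mul_const _).const_add 1).div_const 2)
  simpa [smul_eq_mul] using this

lemma mul_gdot (f : (Fin n → Bool) → Bool) (ρ : ℝ) (y : Fin n → Bool) :
    ρ * gdot f ρ y = ∑ i, (gT f ρ y - gT f ρ (flipAt i y)) / 2 := by
  simp only [gdot, gT, ← Finset.sum_sub_distrib, Finset.sum_div, Finset.mul_sum, Finset.sum_mul]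
  rw [Finset.sum_comm]
  refine Finset.sum_congr rfl fun i _ => Finset.sum_congr rfl fun x _ => ?_
  rw [← sub_mul, kern_sub_flip]
  ring

lemma flipAt_flipAt (i : Fin n) (x : Fin n → Bool) : flipAt i (flipAt i x) = x := by
  simp [flipAt]

lemma avg_flip (i : Fin n) (F : (Fin n → Bool) → ℝ) : avg (fun x => F (flipAt i x)) = avg F := by
  simp only [avg_cube]
  congr 1
  exact Equiv.sum_comp (Function.Involutive.toPerm (flipAt i) (flipAt_flipAt i)) F

lemma avg_artanh_mul (g : (Fin n → Bool) → ℝ) :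
    avg (fun y => artanh (g y) * ∑ i, (g y - g (flipAt i y)) / 2) = dirE g := by
  have hi : ∀ i, avg (fun y => artanh (g y) * ((g y - g (flipAt i y)) / 2))
      = avg (fun y => edgeJ (g y) (g (flipAt i y))) := by
    intro i
    have h := avg_flip i (fun y => artanh (g y) * ((g y - g (flipAt i y)) / 2))
    simp only [flipAt_flipAt] at h
    have hs : avg (fun y => edgeJ (g y) (g (flipAt i y)))
        = (avg (fun y => artanh (g y) * ((g y - g (flipAt i y)) / 2))
          + avg (fun y => artanh (g (flipAt i y)) * ((g (flipAt i y) - g y) / 2))) / 2 := by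
      have e : ∀ y, edgeJ (g y) (g (flipAt i y))
          = (artanh (g y) * ((g y - g (flipAt i y)) / 2)
            + artanh (g (flipAt i y)) * ((g (flipAt i y) - g y) / 2)) / 2 := by
        intro y; unfold edgeJ; ring
      simp only [avg_cube, e]
      rw [← Finset.sum_div, Finset.sum_add_distrib]
      ring
    rw [hs, h]; ring
  unfold dirE
  simp only [← hi, avg_cube, Finset.mul_sum]
  rw [Finset.sum_comm, Finset.sum_div]

lemma continuous_gT (f : (Fin n → Bool) → Bool) (y : Fin n → Bool) :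
    Continuous (fun r => gT f r y) :=
  continuous_iff_continuousAt.mpr fun r => (hasDerivAt_gT f r y).continuousAt

lemma continuous_infoT (f : (Fin n → Bool) → Bool) : Continuous (infoT f) := by
  unfold infoT
  simp only [avg_cube]
  exact continuous_const.sub ((continuous_finsetSum _ fun y _ =>
    ent_continuous.comp (continuous_gT f y)).div_const _)

lemma hasDerivAt_infoT {f : (Fin n → Bool) → Bool} {ρ : ℝ} (hρ : ρ ∈ Set.Ioo (0:ℝ) 1)
    (h0 : ∃ x, f x = false) (h1 : ∃ x, f x = true) :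
    HasDerivAt (infoT f) (dirE (gT f ρ) / ρ) ρ := by
  have hmem := gT_mem_Ioo ⟨hρ.1.le, hρ.2⟩ h0 h1
  have h : HasDerivAt (infoT f) (avg fun y => artanh (gT f ρ y) * gdot f ρ y) ρ := by
    unfold infoT
    simp only [avg_cube]
    have hy : ∀ y ∈ (Finset.univ : Finset (Fin n → Bool)),
        HasDerivAt (fun r => ent (gT f r y)) (-artanh (gT f ρ y) * gdot f ρ y) ρ := fun y _ =>
      HasDerivAt.comp (h₂ := ent) ρ (hasDerivAt_ent (hmem y)) (hasDerivAt_gT f ρ y)
    have hsum := (HasDerivAt.fun_sum hy).div_const ((2:ℝ) ^ n)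
    refine (hsum.const_sub _).congr_deriv ?_
    rw [← neg_div, ← Finset.sum_neg_distrib]
    congr 1
    refine Finset.sum_congr rfl fun y _ => ?_
    ring
  refine h.congr_deriv ?_
  rw [← avg_artanh_mul, eq_div_iff hρ.1.ne']
  simp only [avg_cube, div_mul_eq_mul_div, Finset.sum_mul, ← mul_gdot]
  congr 1
  refine Finset.sum_congr rfl fun y _ => ?_
  ring

lemma phi_continuous : Continuous phi := continuous_const.sub ent_continuous

lemma infoT_le_of_nonconst (tp : TwoPointStmt) {f : (Fin n → Bool) → Bool} {ρ : ℝ}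
    (hρ : ρ ∈ Set.Ioo (0:ℝ) 1) (h0 : ∃ x, f x = false) (h1 : ∃ x, f x = true) :
    infoT f ρ ≤ phi ρ := by
  by_contra hcon
  push Not at hcon
  have hev : ∀ᶠ s in nhdsWithin ρ (Set.Ioi ρ), phi s < infoT f ρ ∧ s < 1 :=
    nhdsWithin_le_nhds ((phi_continuous.continuousAt.eventually_lt continuousAt_const hcon).and
      (eventually_lt_nhds hρ.2))
  obtain ⟨s, ⟨hs, hs1⟩, hρs⟩ := (hev.and self_mem_nhdsWithin).exists
  have hρs' : ρ < s := hρs
  have hs0 : 0 < s := lt_trans hρ.1 hρs'
  set c := s / ρ with hc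
  set b := ρ / s with hb
  have hcρ : c * ρ = s := div_mul_cancel₀ s hρ.1.ne'
  have hcb : c * b = 1 := by rw [hc, hb]; field_simp [hρ.1.ne', hs0.ne']
  have hc1 : 1 < c := (one_lt_div hρ.1).mpr hρs'
  have hb1 : b < 1 := (div_lt_one hs0).mpr hρs'
  have hρb : ρ < b := by rw [hb, lt_div_iff₀ hs0]; nlinarith [hρ.1]
  have hinfo : ∀ r ∈ Set.Ico (0:ℝ) 1, infoT f r < log 2 := by
    intro r hr
    have hp : 0 < avg (fun y => ent (gT f r y)) := by
      rw [avg_cube]
      exact div_pos (Finset.sum_pos (fun y _ => ent_pos (gT_mem_Ioo hr h0 h1 y))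
        Finset.univ_nonempty) (by positivity)
    have := ent_le (avg fun x => sgn (f x))
    unfold infoT
    linarith
  set D : ℝ → ℝ := fun r => infoT f r - phi (c * r) with hD
  have hDc : Continuous D :=
    (continuous_infoT f).sub (phi_continuous.comp (continuous_const.mul continuous_id))
  have hD0 : 0 < D ρ := by simp only [hD, hcρ]; linarith
  have hDb : D b ≤ D ρ / 2 := by
    have h2 := hinfo b ⟨by linarith [hρ.1], hb1⟩
    have h3 : phi (c * b) = log 2 := by rw [hcb]; simp [phi, ent_one]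
    have : D b < 0 := by simp only [hD]; linarith
    linarith
  have hcomp : IsCompact (Set.Icc ρ b ∩ D ⁻¹' Set.Iic (D ρ / 2)) :=
    isCompact_Icc.inter_right (isClosed_Iic.preimage hDc)
  obtain ⟨t, ⟨htI, htD⟩, hmin⟩ := hcomp.exists_isLeast ⟨b, ⟨hρb.le, le_rfl⟩, hDb⟩
  have htD' : D t ≤ D ρ / 2 := htD
  have hmono : MonotoneOn D (Set.Icc ρ t) := by
    refine monotoneOn_of_hasDerivWithinAt_nonneg (convex_Icc _ _) hDc.continuousOn
      (f' := fun r => dirE (gT f r) / r - c * artanh (c * r)) ?_ ?_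
    · intro r hr
      rw [interior_Icc] at hr
      have hr0 : 0 < r := lt_trans hρ.1 hr.1
      have hr1 : r < b := lt_of_lt_of_le hr.2 htI.2
      have hcr : c * r < 1 := by rw [← hcb]; gcongr
      refine ((hasDerivAt_infoT ⟨hr0, lt_trans hr1 hb1⟩ h0 h1).sub
        (((hasDerivAt_ent (x := c * r) ⟨by nlinarith, hcr⟩).const_sub (log 2)).comp r
          ((hasDerivAt_id r).const_mul c)) |>.congr_deriv ?_).hasDerivWithinAt
      ring
    · intro r hr
      rw [interior_Icc] at hr
      have hr0 : 0 < r := lt_trans hρ.1 hr.1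
      have hr1 : r < b := lt_of_lt_of_le hr.2 htI.2
      have hcr : c * r < 1 := by rw [← hcb]; gcongr
      have hDr : D ρ / 2 < D r := by
        by_contra hle
        push Not at hle
        exact absurd (hmin ⟨⟨hr.1.le, le_trans hr1.le le_rfl⟩, hle⟩) (not_le.mpr hr.2)
      have hmem := gT_mem_Ioo (ρ := r) ⟨hr0.le, lt_trans hr1 hb1⟩ h0 h1
      have hF := bellF_le_dirE tp n (gT f r) hmem
      rw [avg_gT] at hF
      have hI := hinfo r ⟨hr0.le, lt_trans hr1 hb1⟩
      have hle : log 2 - infoT f r ≤ ent (c * r) := by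
        simp only [hD, phi] at hDr hD0; linarith
      have e : avg (fun y => ent (gT f r y)) + log 2 - ent (avg fun x => sgn (f x))
          = log 2 - infoT f r := by unfold infoT; ring
      have hps := psiD_anti (sub_pos.mpr hI) hle
      rw [psiD_ent ⟨by positivity, hcr.le⟩] at hps
      have hjen := avg_ent_le hmem
      rw [avg_gT] at hjen
      have hd : psiD (log 2 - infoT f r) ≤ dirE (gT f r) := by
        rw [← e]; exact le_trans (psiD_le_tT (avg_ent_pos hmem) hjen (ent_le _)) hF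
      show 0 ≤ dirE (gT f r) / r - c * artanh (c * r)
      rw [sub_nonneg, le_div_iff₀ hr0]
      linarith
  have := hmono ⟨le_rfl, htI.1⟩ ⟨htI.1, le_rfl⟩ htI.1
  linarith

lemma phi_nonneg (x : ℝ) : 0 ≤ phi x := sub_nonneg.mpr (ent_le x)

lemma infoT_le (tp : TwoPointStmt) (f : (Fin n → Bool) → Bool) {ρ : ℝ}
    (hρ : ρ ∈ Set.Icc (0:ℝ) 1) : infoT f ρ ≤ phi ρ := by
  by_cases hf : (∃ x, f x = false) ∧ (∃ x, f x = true)
  · rcases eq_or_lt_of_le hρ.1 with h | h
    · subst h
      have e : ∀ y, gT f 0 y = avg (fun x => sgn (f x)) := by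
        intro y
        simp [gT, kern, avg_cube, div_eq_mul_inv, mul_comm, Finset.mul_sum]
      have : infoT f 0 = 0 := by
        unfold infoT
        simp only [e]
        simp [avg]
      linarith [phi_nonneg 0]
    · rcases eq_or_lt_of_le hρ.2 with h' | h'
      · subst h'
        have hp : 0 ≤ avg (fun y => ent (gT f 1 y)) := by
          rw [avg_cube]
          exact div_nonneg (Finset.sum_nonneg fun y _ => ent_nonneg (gT_mem hρ f y)) (by positivity)
        have := ent_le (avg fun x => sgn (f x))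
        unfold infoT
        simp only [phi, ent_one]
        linarith
      · exact infoT_le_of_nonconst tp ⟨h, h'⟩ hf.1 hf.2
  · obtain ⟨v, hv⟩ : ∃ v, ∀ x, f x = v := by
      by_cases h : ∃ x, f x = false
      · refine ⟨false, fun x => ?_⟩
        by_contra hx
        exact hf ⟨h, x, by simpa using hx⟩
      · exact ⟨true, fun x => by simpa using fun hx => h ⟨x, hx⟩⟩
    have e : ∀ y, gT f ρ y = sgn v := by
      intro y; simp only [gT, hv]; rw [← Finset.sum_mul, kern_sum_left, one_mul]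
    have : infoT f ρ = 0 := by
      unfold infoT
      simp only [e, hv]
      simp [avg]
    linarith [phi_nonneg ρ]

lemma bscW_eq (ε : ℝ) (x y : Fin n → Bool) : bscW ε x y = kern (1 - 2 * ε) x y := by
  refine Finset.prod_congr rfl fun i _ => ?_
  split_ifs <;> ring

lemma jointP_eq (f : (Fin n → Bool) → Bool) (ε : ℝ) (b : Bool) (y : Fin n → Bool) :
    jointP f ε b y = (1 / 2) ^ n * ((1 + sgn b * gT f (1 - 2 * ε) y) / 2) := by
  have h1 : ((1 + sgn b * gT f (1 - 2 * ε) y) / 2)
      = ∑ x, kern (1 - 2 * ε) x y * ((1 + sgn b * sgn (f x)) / 2) := by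
    simp only [mul_div_assoc', mul_add, mul_one, ← Finset.sum_div, Finset.sum_add_distrib,
      kern_sum_left, gT, Finset.mul_sum]
    congr 2
    refine Finset.sum_congr rfl fun x _ => ?_
    ring
  rw [h1, Finset.mul_sum]
  refine Finset.sum_congr rfl fun x _ => ?_
  rw [bscW_eq]
  cases b <;> cases f x <;> norm_num [sgn]

lemma mutualInfo_eq (f : (Fin n → Bool) → Bool) {ε : ℝ} (hε : ε ∈ Set.Icc (0:ℝ) (1 / 2)) :
    mutualInfo f ε = infoT f (1 - 2 * ε) / log 2 := by
  set g := gT f (1 - 2 * ε) with hg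
  set μ := avg (fun x => sgn (f x)) with hμ
  have hmem : ∀ y, g y ∈ Set.Icc (-1:ℝ) 1 :=
    gT_mem ⟨by linarith [hε.2], by linarith [hε.1]⟩ f
  have hrow : ∀ b, (∑ y', jointP f ε b y') = (1 + sgn b * μ) / 2 := by
    intro b
    have h2 : avg g = μ := avg_gT f _
    rw [avg_cube] at h2
    simp only [jointP_eq, ← hg, ← Finset.mul_sum, ← Finset.sum_div, Finset.sum_add_distrib]
    rw [← h2]
    simp
    field_simp
  have hcol : ∀ y, (∑ b', jointP f ε b' y) = (1 / 2 : ℝ) ^ n := by
    intro y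
    rw [Fintype.sum_bool, jointP_eq, jointP_eq]
    simp [sgn]; ring
  set q : Bool → (Fin n → Bool) → ℝ := fun b y => (1 + sgn b * g y) / 2 with hq
  set p : Bool → ℝ := fun b => (1 + sgn b * μ) / 2 with hp
  have hq0 : ∀ b y, 0 ≤ q b y := by
    intro b y; cases b <;> simp [hq, sgn] <;> linarith [(hmem y).1, (hmem y).2]
  have hterm : ∀ b y, jointP f ε b y *
      logb 2 (jointP f ε b y / ((∑ y', jointP f ε b y') * (∑ b', jointP f ε b' y)))
      = (1 / 2 : ℝ) ^ n * (-negMulLog (q b y) - q b y * log (p b)) / log 2 := by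
    intro b y
    rw [hrow, hcol, jointP_eq, ← hg]
    change (1 / 2 : ℝ) ^ n * q b y * logb 2 ((1 / 2 : ℝ) ^ n * q b y / (p b * (1 / 2) ^ n)) = _
    rw [mul_comm (p b), mul_div_mul_left _ _ (pow_ne_zero n (by norm_num : (1 / 2 : ℝ) ≠ 0))]
    by_cases hz : q b y = 0
    · simp [hz]
    · have hp0 : p b ≠ 0 := by
        intro h0
        have hs : ∑ y', q b y' = 0 := by
          have hr := hrow b
          simp only [jointP_eq, ← hg, ← Finset.mul_sum] at hr
          rw [show (1 + sgn b * μ) / 2 = p b from rfl, h0] at hr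
          rcases mul_eq_zero.mp hr with h | h
          · exact absurd h (pow_ne_zero n (by norm_num))
          · exact h
        exact hz ((Finset.sum_eq_zero_iff_of_nonneg fun y' _ => hq0 b y').mp hs y (Finset.mem_univ y))
      rw [logb, log_div hz hp0, negMulLog]
      ring
  unfold mutualInfo
  simp only [hterm]
  rw [Finset.sum_comm]
  simp only [Fintype.sum_bool]
  have e : ∀ y, (1 / 2 : ℝ) ^ n * (-negMulLog (q true y) - q true y * log (p true)) / log 2
      + (1 / 2 : ℝ) ^ n * (-negMulLog (q false y) - q false y * log (p false)) / log 2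
      = (1 / 2 : ℝ) ^ n / log 2 * (-ent (g y) - (1 + g y) / 2 * log (p true)
        - (1 - g y) / 2 * log (p false)) := by
    intro y
    have e1 : (1 : ℝ) - (1 + g y) / 2 = (1 - g y) / 2 := by ring
    simp only [hq, sgn, ent, binEntropy_eq_negMulLog_add_negMulLog_one_sub, e1, if_true, one_mul,
      Bool.false_eq_true, if_false, neg_mul, ← sub_eq_add_neg]
    ring
  simp only [e]
  rw [← Finset.mul_sum]
  have h2 : ∑ y, g y = μ * 2 ^ n := by
    have h2 : avg g = μ := avg_gT f _
    rw [avg_cube, div_eq_iff (by positivity)] at h2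
    exact h2
  simp only [infoT, avg_cube, ← hg, Finset.sum_sub_distrib, Finset.sum_neg_distrib, ← Finset.sum_mul,
    ← Finset.sum_div, Finset.sum_add_distrib, Finset.sum_sub_distrib, h2]
  simp only [Finset.sum_const, Finset.card_univ, Fintype.card_pi, Fintype.card_bool,
    Finset.prod_const, Fintype.card_fin, nsmul_eq_mul, Nat.cast_pow, Nat.cast_ofNat, mul_one]
  rw [show (∑ x, sgn (f x)) / 2 ^ n = μ by rw [hμ, avg_cube]]
  rw [show ent μ = -((1 + μ) / 2 * log (p true)) - (1 - μ) / 2 * log (p false) by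
    have e1 : (1 : ℝ) - (1 + μ) / 2 = (1 - μ) / 2 := by ring
    simp only [hp, sgn, ent, binEntropy_eq_negMulLog_add_negMulLog_one_sub, e1, negMulLog, if_true,
      one_mul, Bool.false_eq_true, if_false, neg_mul, ← sub_eq_add_neg]]
  rw [div_pow, one_pow]
  field_simp
  ring

/-- The Courtade-Kumar inequality follows from the one-step inequality. -/
theorem mutualInfo_le_of_twoPoint (tp : TwoPointStmt) (n : ℕ) (f : (Fin n → Bool) → Bool)
    (ε : ℝ) (hε : ε ∈ Set.Icc (0:ℝ) (1 / 2)) :
    mutualInfo f ε ≤ 1 - binEntropy ε / log 2 := by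
  rw [mutualInfo_eq f hε]
  have h := infoT_le tp f (ρ := 1 - 2 * ε) ⟨by linarith [hε.2], by linarith [hε.1]⟩
  have e : phi (1 - 2 * ε) = log 2 - binEntropy ε := by
    unfold phi ent
    rw [show (1 + (1 - 2 * ε)) / 2 = 1 - ε by ring, binEntropy_one_sub]
  have hl : (0:ℝ) < log 2 := log_pos (by norm_num)
  rw [e] at h
  rw [div_le_iff₀ hl, sub_mul, one_mul, div_mul_cancel₀ _ hl.ne']
  exact h

end Vale.Agent.P322
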