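import Vale.Agent.P322.Q4Reduce
import Vale.Agent.P322.Base
import Vale.Agent.P322.Semigroup

/-! The Courtade-Kumar inequality from the two elementary inequalities. -/

noncomputable section

namespace Vale.Agent.P322

open Real

/-- The one-step inequality from `ElemM` and `ElemOne`. -/
theorem twoPoint_of_elem (em : ElemM) (e1 : ElemOne) : TwoPointStmt :=
  twoPoint_of_Q4_base (q4K_of_elem em e1) base_holds

/-- `I(f X; Y) ≤ 1 - h₂ ε` in bits, from `ElemM` and `ElemOne`. -/
theorem courtadeKumar_of_elem (em : ElemM) (e1 : ElemOne) (n : ℕ)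
    (f : (Fin n → Bool) → Bool) (ε : ℝ) (hε : ε ∈ Set.Icc (0:ℝ) (1 / 2)) :
    mutualInfo f ε ≤ 1 - binEntropy ε / log 2 :=
  mutualInfo_le_of_twoPoint (twoPoint_of_elem em e1) n f ε hε

end Vale.Agent.P322
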