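import Vale.Agent.P322.Basic
import Mathlib.Analysis.Complex.ExponentialBounds
import Mathlib.Algebra.BigOperators.Field

/-! The cross bound: `edgeJ a b` lies above the perspective tangents at antipodal pairs. -/

noncomputable section

namespace Vale.Agent.P322

open Real Set

/-- `log (2 cosh w)`. -/
def lcosh (w : ℝ) : ℝ := log (2 * cosh w)

/-- `ent r / r` at `r = tanh W`. -/
def kV (W : ℝ) : ℝ := ent (tanh W) / tanh W

/-- Tangent slope. -/
def kBet (W : ℝ) : ℝ := sinh W ^ 2 / lcosh W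

/-- Tangent offset. -/
def kAlpha (W : ℝ) : ℝ := W + kBet W * kV W

lemma lcosh_pos (w : ℝ) : 0 < lcosh w :=
  log_pos (by linarith [one_le_cosh w])

lemma lcosh_neg (w : ℝ) : lcosh (-w) = lcosh w := by simp [lcosh, cosh_neg]

lemma hasDerivAt_lcosh (w : ℝ) : HasDerivAt lcosh (tanh w) w := by
  refine (((hasDerivAt_cosh w).const_mul 2).log
    (by linarith [one_le_cosh w])).congr_deriv ?_
  rw [tanh_eq_sinh_div_cosh]; field_simp

lemma ent_tanh (w : ℝ) : ent (tanh w) = lcosh w - w * tanh w := by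
  have hc := cosh_pos w
  have h1 : (1 + tanh w) / 2 = exp w / (2 * cosh w) := by
    rw [tanh_eq_sinh_div_cosh, ← sinh_add_cosh]; field_simp; ring
  have h2 : 1 - exp w / (2 * cosh w) = exp (-w) / (2 * cosh w) := by
    rw [← sinh_add_cosh, ← cosh_sub_sinh]; field_simp; ring
  unfold ent
  rw [binEntropy_eq_negMulLog_add_negMulLog_one_sub, h1, h2]
  simp only [negMulLog]
  rw [log_div (exp_ne_zero _) (by positivity), log_div (exp_ne_zero _) (by positivity),
    log_exp, log_exp, ← sinh_add_cosh, ← cosh_sub_sinh, tanh_eq_sinh_div_cosh]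
  unfold lcosh
  field_simp
  ring

lemma tanh_pos_of_pos {W : ℝ} (hW : 0 < W) : 0 < tanh W := by
  rw [tanh_eq_sinh_div_cosh]; exact div_pos (sinh_pos_iff.mpr hW) (cosh_pos W)

lemma kV_eq {W : ℝ} (hW : 0 < W) : kV W = lcosh W * cosh W / sinh W - W := by
  have := sinh_pos_iff.mpr hW
  have := cosh_pos W
  unfold kV
  rw [ent_tanh, tanh_eq_sinh_div_cosh]
  field_simp

lemma kV_nonneg {W : ℝ} (hW : 0 < W) : 0 ≤ kV W :=
  div_nonneg (ent_nonneg ⟨(neg_one_lt_tanh W).le, (tanh_lt_one W).le⟩) (tanh_pos_of_pos hW).le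

lemma kBet_nonneg (W : ℝ) : 0 ≤ kBet W := div_nonneg (sq_nonneg _) (lcosh_pos W).le

lemma kAlpha_nonneg {W : ℝ} (hW : 0 < W) : 0 ≤ kAlpha W :=
  add_nonneg hW.le (mul_nonneg (kBet_nonneg W) (kV_nonneg hW))

lemma kBet_mono {a b : ℝ} (ha : 0 ≤ a) (hab : a ≤ b) : kBet a ≤ kBet b := by
  have hd : ∀ x : ℝ, HasDerivAt kBet
      ((2 * sinh x * cosh x * lcosh x - sinh x ^ 2 * tanh x) / lcosh x ^ 2) x := by
    intro x
    refine (((hasDerivAt_sinh x).fun_pow 2).fun_div (hasDerivAt_lcosh x)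
      (lcosh_pos x).ne').congr_deriv ?_
    norm_num
  refine monotoneOn_of_hasDerivWithinAt_nonneg (convex_Ici (0:ℝ))
    (fun x _ => (hd x).continuousAt.continuousWithinAt)
    (fun x _ => (hd x).hasDerivWithinAt) ?_ ha (le_trans ha hab) hab
  intro x hx
  rw [interior_Ici] at hx
  refine div_nonneg ?_ (sq_nonneg _)
  have hs := sinh_pos_iff.mpr hx
  have hc := cosh_pos x
  have e : 2 * sinh x * cosh x * lcosh x - sinh x ^ 2 * tanh x
      = sinh x / cosh x * (2 * cosh x ^ 2 * lcosh x - sinh x ^ 2) := by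
    rw [tanh_eq_sinh_div_cosh]; field_simp
  rw [e]
  refine mul_nonneg (div_nonneg hs.le hc.le) ?_
  have hl : log 2 ≤ lcosh x := log_le_log (by norm_num) (by linarith [one_le_cosh x])
  nlinarith [log_two_gt_d9, cosh_sq x, sq_nonneg (sinh x)]

/-- Every tangent of the decreasing convex curve `kV W ↦ W` lies below it. -/
lemma kAlpha_le {W₀ W : ℝ} (h₀ : 0 < W₀) (hW : 0 < W) :
    kAlpha W₀ ≤ W + kBet W₀ * kV W := by
  let f : ℝ → ℝ := fun x => x + kBet W₀ * (lcosh x * cosh x / sinh x - x)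
  have hder : ∀ x : ℝ, 0 < x → HasDerivAt f (1 - kBet W₀ / kBet x) x := by
    intro x hx
    have hs := sinh_pos_iff.mpr hx
    refine ((hasDerivAt_id x).add (((((hasDerivAt_lcosh x).fun_mul (hasDerivAt_cosh x)).fun_div
      (hasDerivAt_sinh x) hs.ne').sub (hasDerivAt_id x)).const_mul (kBet W₀))).congr_deriv ?_
    have := cosh_pos x
    have := lcosh_pos x
    have hb : kBet x = sinh x ^ 2 / lcosh x := rfl
    rw [hb, tanh_eq_sinh_div_cosh]
    field_simp
    rw [cosh_sq]
    ring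
  have key : f W₀ ≤ f W := by
    rcases le_total W W₀ with h | h
    · refine antitoneOn_of_hasDerivWithinAt_nonpos (convex_Icc W W₀)
        (fun x hx => (hder x (lt_of_lt_of_le hW hx.1)).continuousAt.continuousWithinAt)
        (fun x hx => (hder x (lt_of_lt_of_le hW (interior_subset hx).1)).hasDerivWithinAt) ?_
        ⟨le_rfl, h⟩ ⟨h, le_rfl⟩ h
      intro x hx
      rw [interior_Icc] at hx
      have hx0 : 0 < x := lt_trans hW hx.1
      have hp : 0 < kBet x := div_pos (pow_pos (sinh_pos_iff.mpr hx0) 2) (lcosh_pos x)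
      rw [sub_nonpos, one_le_div hp]
      exact kBet_mono hx0.le hx.2.le
    · refine monotoneOn_of_hasDerivWithinAt_nonneg (convex_Icc W₀ W)
        (fun x hx => (hder x (lt_of_lt_of_le h₀ hx.1)).continuousAt.continuousWithinAt)
        (fun x hx => (hder x (lt_of_lt_of_le h₀ (interior_subset hx).1)).hasDerivWithinAt) ?_
        ⟨le_rfl, h⟩ ⟨h, le_rfl⟩ h
      intro x hx
      rw [interior_Icc] at hx
      have hx0 : 0 < x := lt_trans h₀ hx.1
      have hp : 0 < kBet x := div_pos (pow_pos (sinh_pos_iff.mpr hx0) 2) (lcosh_pos x)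
      rw [sub_nonneg, div_le_one hp]
      exact kBet_mono h₀.le hx.1.le
  unfold kAlpha
  rw [kV_eq h₀, kV_eq hW]
  exact key

lemma mul_cosh_le_log {z : ℝ} (hz : 0 ≤ z) :
    z * cosh z ≤ log (2 * cosh z + 2) * sinh z := by
  set e := exp (-z) with he
  have hep : 0 < e := exp_pos _
  have hE : exp z = 1 / e := by rw [he, exp_neg]; simp
  have h1 : 2 * cosh z + 2 = exp z * (1 + e) ^ 2 := by
    rw [cosh_eq, ← he, hE]; field_simp; ring
  have h2 : log (2 * cosh z + 2) = z + 2 * log (1 + e) := by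
    rw [h1, log_mul (exp_ne_zero _) (by positivity), log_exp, log_pow]; push_cast; ring
  have h3 : e / (1 + e) ≤ log (1 + e) := by
    have := one_sub_inv_le_log_of_pos (show (0:ℝ) < 1 + e by linarith)
    have e1 : 1 - (1 + e)⁻¹ = e / (1 + e) := by field_simp; ring
    linarith
  have hs : 0 ≤ sinh z := sinh_nonneg_iff.mpr hz
  have h4 : z * (cosh z - sinh z) ≤ 2 * (e / (1 + e)) * sinh z := by
    rw [cosh_sub_sinh, ← he, sinh_eq, ← he, hE]
    have h5 : z ≤ 1 / e - 1 := by rw [← hE]; linarith [add_one_le_exp z]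
    have h6 : 2 * (e / (1 + e)) * ((1 / e - e) / 2) = (1 / e - 1) * e := by field_simp; ring
    rw [h6]
    exact mul_le_mul_of_nonneg_right h5 hep.le
  rw [h2]
  nlinarith [mul_le_mul_of_nonneg_right h3 hs]

/-- `(ent a + ent b) cosh A cosh B` as a function of the midpoint `M` of `A, B`. -/
def kN (W M : ℝ) : ℝ :=
  (lcosh (M + W) + lcosh (M - W)) * (cosh (M + W) * cosh (M - W))
    - (M + W) * (sinh (M + W) * cosh (M - W)) - (M - W) * (cosh (M + W) * sinh (M - W))

lemma kN_neg (W M : ℝ) : kN W (-M) = kN W M := by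
  unfold kN
  rw [show -M + W = -(M - W) by ring, show -M - W = -(M + W) by ring]
  simp only [lcosh_neg, cosh_neg, sinh_neg]
  ring

lemma kN_zero_le (W M : ℝ) : kN W 0 ≤ kN W M := by
  wlog hM : 0 ≤ M generalizing M
  · rw [← kN_neg W M]; exact this (-M) (by linarith [not_le.mp hM])
  have hd : ∀ x : ℝ, HasDerivAt (kN W)
      ((lcosh (x + W) + lcosh (x - W)) * sinh (2 * x) - 2 * x * cosh (2 * x)) x := by
    intro x
    have hp := (hasDerivAt_id' x).add_const W
    have hq := (hasDerivAt_id' x).sub_const W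
    have h1 := (((hasDerivAt_lcosh _).comp x hp).fun_add ((hasDerivAt_lcosh _).comp x hq)).fun_mul
      (((hasDerivAt_cosh _).comp x hp).fun_mul ((hasDerivAt_cosh _).comp x hq))
    have h2 := hp.fun_mul (((hasDerivAt_sinh _).comp x hp).fun_mul ((hasDerivAt_cosh _).comp x hq))
    have h3 := hq.fun_mul (((hasDerivAt_cosh _).comp x hp).fun_mul ((hasDerivAt_sinh _).comp x hq))
    refine ((h1.fun_sub h2).fun_sub h3).congr_deriv ?_
    simp only [Function.comp, mul_one]
    rw [show sinh (2 * x) = sinh (x + W) * cosh (x - W) + cosh (x + W) * sinh (x - W) by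
        rw [← sinh_add]; ring_nf,
      show cosh (2 * x) = cosh (x + W) * cosh (x - W) + sinh (x + W) * sinh (x - W) by
        rw [← cosh_add]; ring_nf,
      tanh_eq_sinh_div_cosh, tanh_eq_sinh_div_cosh]
    have := cosh_pos (x + W)
    have := cosh_pos (x - W)
    field_simp
    ring
  refine monotoneOn_of_hasDerivWithinAt_nonneg (convex_Ici (0:ℝ))
    (fun x _ => (hd x).continuousAt.continuousWithinAt)
    (fun x _ => (hd x).hasDerivWithinAt) ?_ self_mem_Ici hM hM
  intro x hx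
  rw [interior_Ici] at hx
  have hx' : (0:ℝ) < x := hx
  rw [sub_nonneg]
  refine le_trans (mul_cosh_le_log (by linarith)) ?_
  refine mul_le_mul_of_nonneg_right ?_ (sinh_nonneg_iff.mpr (by linarith))
  unfold lcosh
  rw [← log_mul (by linarith [one_le_cosh (x + W)]) (by linarith [one_le_cosh (x - W)])]
  refine log_le_log (by linarith [one_le_cosh (2 * x)]) ?_
  have e1 : cosh (2 * x) = cosh (x + W) * cosh (x - W) + sinh (x + W) * sinh (x - W) := by
    rw [← cosh_add]; ring_nf
  have e2 : cosh (2 * W) = cosh (x + W) * cosh (x - W) - sinh (x + W) * sinh (x - W) := by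
    rw [← cosh_sub]; ring_nf
  nlinarith [one_le_cosh (2 * W)]

lemma kV_mul_le {A B : ℝ} (h : B < A) :
    kV ((A - B) / 2) * ((tanh A - tanh B) / 2) ≤ (ent (tanh A) + ent (tanh B)) / 2 := by
  set W := (A - B) / 2 with hW
  set M := (A + B) / 2 with hM
  have hWp : 0 < W := by rw [hW]; linarith
  have hA : A = M + W := by rw [hW, hM]; ring
  have hB : B = M - W := by rw [hW, hM]; ring
  have hs := sinh_pos_iff.mpr hWp
  have hc := cosh_pos W
  have h0 : kN W 0 = kV W * sinh (2 * W) := by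
    rw [kV_eq hWp, kN, zero_add, zero_sub, lcosh_neg, cosh_neg, sinh_neg, sinh_two_mul]
    field_simp; ring
  have hk := kN_zero_le W M
  have hcA := cosh_pos (M + W)
  have hcB := cosh_pos (M - W)
  have h2 : sinh (2 * W) = sinh (M + W) * cosh (M - W) - cosh (M + W) * sinh (M - W) := by
    rw [← sinh_sub]; ring_nf
  rw [h0, h2] at hk
  rw [hA, hB, ent_tanh, ent_tanh, tanh_eq_sinh_div_cosh, tanh_eq_sinh_div_cosh]
  rw [← mul_le_mul_iff_of_pos_right (show 0 < 2 * (cosh (M + W) * cosh (M - W)) by positivity)]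
  unfold kN at hk
  field_simp
  linarith

lemma edgeJ_ge_tangent {W₀ : ℝ} (h₀ : 0 < W₀) {a b : ℝ} (ha : a ∈ Ioo (-1:ℝ) 1)
    (hb : b ∈ Ioo (-1:ℝ) 1) :
    kAlpha W₀ * (|a - b| / 2) - kBet W₀ * ((ent a + ent b) / 2) ≤ edgeJ a b := by
  wlog h : b ≤ a generalizing a b
  · have := this hb ha (le_of_not_ge h)
    rw [abs_sub_comm, add_comm (ent b), edgeJ_comm] at this
    exact this
  rw [abs_of_nonneg (sub_nonneg.mpr h)]
  rcases eq_or_lt_of_le h with h | h
  · subst h
    have := mul_nonneg (kBet_nonneg W₀) (ent_pos ha).le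
    simp [edgeJ]; linarith
  have hA : artanh b < artanh a := artanh_lt_artanh hb.1 ha.2 h
  have hk := kV_mul_le hA
  rw [tanh_artanh ha, tanh_artanh hb] at hk
  have ht := kAlpha_le h₀ (show 0 < (artanh a - artanh b) / 2 by linarith)
  have hd : 0 ≤ (a - b) / 2 := by linarith
  have e : edgeJ a b = (a - b) / 2 * ((artanh a - artanh b) / 2) := by unfold edgeJ; ring
  nlinarith [mul_le_mul_of_nonneg_right ht hd, mul_le_mul_of_nonneg_left hk (kBet_nonneg W₀)]

lemma avg_edgeJ_ge_tangent {W₀ : ℝ} (h₀ : 0 < W₀) {ι : Type} [Fintype ι] (a b : ι → ℝ)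
    (ha : ∀ i, a i ∈ Ioo (-1:ℝ) 1) (hb : ∀ i, b i ∈ Ioo (-1:ℝ) 1) :
    kAlpha W₀ * (|avg a - avg b| / 2)
      - kBet W₀ * ((avg (fun i => ent (a i)) + avg (fun i => ent (b i))) / 2)
      ≤ avg (fun i => edgeJ (a i) (b i)) := by
  have h1 : |avg a - avg b| ≤ avg (fun i => |a i - b i|) := by
    unfold avg
    rw [← sub_div, ← Finset.sum_sub_distrib, abs_div, Nat.abs_cast]
    gcongr
    exact Finset.abs_sum_le_sum_abs _ _
  have h2 : avg (fun i => kAlpha W₀ * (|a i - b i| / 2) - kBet W₀ * ((ent (a i) + ent (b i)) / 2))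
      ≤ avg (fun i => edgeJ (a i) (b i)) := by
    unfold avg
    gcongr with i
    exact edgeJ_ge_tangent h₀ (ha i) (hb i)
  refine le_trans ?_ h2
  have h3 : avg (fun i => kAlpha W₀ * (|a i - b i| / 2) - kBet W₀ * ((ent (a i) + ent (b i)) / 2))
      = kAlpha W₀ * (avg (fun i => |a i - b i|) / 2)
        - kBet W₀ * ((avg (fun i => ent (a i)) + avg (fun i => ent (b i))) / 2) := by
    simp only [avg, Finset.sum_sub_distrib, ← Finset.mul_sum, ← Finset.sum_div,
      Finset.sum_add_distrib]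
    ring
  rw [h3]
  have := kAlpha_nonneg h₀
  gcongr

lemma exists_kV {v : ℝ} (hv : 0 < v) : ∃ W : ℝ, 0 < W ∧ kV W = v := by
  have hc : ContinuousOn (fun r : ℝ => ent r - v * r) (Icc 0 1) :=
    (ent_continuous.sub (continuous_const.mul continuous_id)).continuousOn
  obtain ⟨r, hr, he⟩ := intermediate_value_Icc' zero_le_one hc
    (show (0:ℝ) ∈ Icc (ent 1 - v * 1) (ent 0 - v * 0) by
      rw [ent_one, ent_zero]; constructor <;> [linarith; linarith [log_pos (show (1:ℝ) < 2 by norm_num)]])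
  simp only at he
  have hr0 : 0 < r := by
    rcases eq_or_lt_of_le hr.1 with h | h
    · rw [← h, ent_zero] at he; linarith [log_pos (show (1:ℝ) < 2 by norm_num)]
    · exact h
  have hr1 : r < 1 := by
    rcases eq_or_lt_of_le hr.2 with h | h
    · rw [h, ent_one] at he; linarith
    · exact h
  refine ⟨artanh r, artanh_pos ⟨hr0, hr1⟩, ?_⟩
  rw [kV, tanh_artanh ⟨by linarith, hr1⟩, div_eq_iff hr0.ne']
  linarith

/-- The cross bound in closed form. -/
lemma avg_edgeJ_ge_cross {W : ℝ} (hW : 0 < W) {ι : Type} [Fintype ι] (a b : ι → ℝ)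
    (ha : ∀ i, a i ∈ Ioo (-1:ℝ) 1) (hb : ∀ i, b i ∈ Ioo (-1:ℝ) 1)
    (hv : kV W * (|avg a - avg b| / 2)
      = (avg (fun i => ent (a i)) + avg (fun i => ent (b i))) / 2) :
    |avg a - avg b| / 2 * W ≤ avg (fun i => edgeJ (a i) (b i)) := by
  have h := avg_edgeJ_ge_tangent hW a b ha hb
  rw [← hv] at h
  unfold kAlpha at h
  linarith

end Vale.Agent.P322
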