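import Vale.Agent.P322.Basic
import Vale.Agent.P322.KLemma
import Mathlib.Analysis.Complex.ExponentialBounds

/-!
The curvature bound `Ψ''(I) * (log 2 - I)² ≤ 0.645`, in the parameter `r` (`I = phi r`):
`ent r ^ 2 * psiSlope' r ≤ 0.645 * artanh r`.
-/

noncomputable section

namespace Vale.Agent.P322

open Real Set

/-- The derivative of `psiSlope`. -/
def psiSlope' (r : ℝ) : ℝ :=
  ((1 + r ^ 2) * artanh r - r) / ((1 - r ^ 2) * artanh r) ^ 2

lemma hasDerivAt_psiSlope {r : ℝ} (hr : r ∈ Ioo (0:ℝ) 1) :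
    HasDerivAt psiSlope (psiSlope' r) r := by
  have hne : (1:ℝ) - r ^ 2 ≠ 0 := by nlinarith [hr.1, hr.2]
  have hA : artanh r ≠ 0 := (artanh_pos hr).ne'
  refine (((hasDerivAt_id r).fun_div (((hasDerivAt_pow 2 r).const_sub 1).fun_mul
    (hasDerivAt_artanh ⟨by linarith [hr.1], hr.2⟩)) (mul_ne_zero hne hA)).const_add 1).congr_deriv ?_
  simp only [id, psiSlope']
  field_simp
  ring

lemma self_le_artanh {r : ℝ} (hr : r ∈ Ico (0:ℝ) 1) : r ≤ artanh r := by
  have hd : ∀ y ∈ Icc (0:ℝ) r,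
      HasDerivAt (fun y => artanh y - y) (1 / (1 - y ^ 2) - 1) y :=
    fun y hy => (hasDerivAt_artanh ⟨by linarith [hy.1], lt_of_le_of_lt hy.2 hr.2⟩).sub
      (hasDerivAt_id y)
  have hm : MonotoneOn (fun y => artanh y - y) (Icc 0 r) := by
    refine monotoneOn_of_hasDerivWithinAt_nonneg (convex_Icc _ _)
      (fun y hy => (hd y hy).continuousAt.continuousWithinAt)
      (fun y hy => (hd y (interior_subset hy)).hasDerivWithinAt) ?_
    intro y hy
    have hy' := interior_subset hy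
    have : 0 < 1 - y ^ 2 := by nlinarith [hy'.1, hy'.2, hr.2]
    rw [sub_nonneg, le_div_iff₀ this]; nlinarith
  have := hm ⟨le_rfl, hr.1⟩ ⟨hr.1, le_rfl⟩ hr.1
  simp at this
  linarith

lemma psiSlope'_nonneg {r : ℝ} (hr : r ∈ Ioo (0:ℝ) 1) : 0 ≤ psiSlope' r := by
  refine div_nonneg ?_ (sq_nonneg _)
  nlinarith [self_le_artanh ⟨hr.1.le, hr.2⟩, artanh_pos hr, sq_nonneg r]

lemma two_le_psiSlope {r : ℝ} (hr : r ∈ Ioo (0:ℝ) 1) : 2 ≤ psiSlope r := by
  have h := artanh_le_div ⟨hr.1.le, hr.2⟩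
  have hne : 0 < 1 - r ^ 2 := by nlinarith [hr.1, hr.2]
  have hA := artanh_pos hr
  rw [le_div_iff₀ hne] at h
  have : 1 ≤ r / ((1 - r ^ 2) * artanh r) := by
    rw [le_div_iff₀ (by positivity)]
    linarith
  unfold psiSlope
  linarith

/-- `w cosh 2w - sinh 2w / 2`. -/
def auxE (w : ℝ) : ℝ := w * (cosh w ^ 2 + sinh w ^ 2) - sinh w * cosh w

/-- `cosh w * ent (tanh w)`. -/
def auxN (w : ℝ) : ℝ := lcosh w * cosh w - w * sinh w

lemma auxE_nonneg {w : ℝ} (hw : 0 ≤ w) : 0 ≤ auxE w := by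
  have hd : ∀ x : ℝ, HasDerivAt auxE (4 * x * sinh x * cosh x) x := by
    intro x
    refine (((hasDerivAt_id' x).fun_mul (((hasDerivAt_cosh x).fun_pow 2).fun_add
      ((hasDerivAt_sinh x).fun_pow 2))).fun_sub
      ((hasDerivAt_sinh x).fun_mul (hasDerivAt_cosh x))).congr_deriv ?_
    norm_num
    ring
  have := monotoneOn_of_hasDerivWithinAt_nonneg (convex_Ici (0:ℝ))
    (fun x _ => (hd x).continuousAt.continuousWithinAt)
    (fun x _ => (hd x).hasDerivWithinAt)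
    (fun x hx => by
      rw [interior_Ici] at hx
      have := sinh_pos_iff.mpr (show 0 < x from hx)
      have := cosh_pos x
      have : (0:ℝ) < x := hx
      positivity) self_mem_Ici (show (0:ℝ) ≤ w from hw) hw
  simpa [auxE] using this

lemma hasDerivAt_auxE (x : ℝ) : HasDerivAt auxE (4 * x * sinh x * cosh x) x := by
  refine (((hasDerivAt_id' x).fun_mul (((hasDerivAt_cosh x).fun_pow 2).fun_add
    ((hasDerivAt_sinh x).fun_pow 2))).fun_sub
    ((hasDerivAt_sinh x).fun_mul (hasDerivAt_cosh x))).congr_deriv ?_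
  norm_num
  ring

lemma hasDerivAt_auxN (x : ℝ) : HasDerivAt auxN (lcosh x * sinh x - x * cosh x) x := by
  refine (((hasDerivAt_lcosh x).fun_mul (hasDerivAt_cosh x)).fun_sub
    ((hasDerivAt_id' x).fun_mul (hasDerivAt_sinh x))).congr_deriv ?_
  rw [tanh_eq_sinh_div_cosh]
  field_simp
  ring

lemma auxN_nonneg {w : ℝ} : 0 ≤ auxN w := by
  have hc := cosh_pos w
  have h : auxN w = cosh w * ent (tanh w) := by
    rw [ent_tanh, auxN, tanh_eq_sinh_div_cosh]
    field_simp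
  rw [h]
  refine mul_nonneg hc.le (ent_nonneg ?_)
  rw [mem_Icc, tanh_eq_sinh_div_cosh, le_div_iff₀ hc, div_le_one hc, sinh_eq, cosh_eq]
  constructor <;> linarith [exp_pos w, exp_pos (-w)]

lemma hyp_bounds {w : ℝ} (h0 : 0 ≤ w) (h1 : w ≤ 1) :
    w * (1 + w ^ 2 / 6) ≤ sinh w ∧ sinh w ≤ w * (1 + w ^ 2 / 6 + (w ^ 2) ^ 2 / 116) ∧
    1 + w ^ 2 / 2 + (w ^ 2) ^ 2 / 24 ≤ cosh w ∧ cosh w ≤ 1 + w ^ 2 / 2 + (w ^ 2) ^ 2 / 23 := by
  have ha := abs_le.mp (Real.exp_bound (x := w) (by rw [abs_of_nonneg h0]; exact h1)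
    (n := 7) (by norm_num))
  have hb := abs_le.mp (Real.exp_bound (x := -w) (by rw [abs_neg, abs_of_nonneg h0]; exact h1)
    (n := 7) (by norm_num))
  simp [Finset.sum_range_succ, Nat.factorial, abs_of_nonneg h0] at ha hb
  have hp4 : w ^ 7 ≤ w ^ 6 := by
    nlinarith [pow_nonneg h0 6]
  have hp5 : w ^ 7 ≤ w ^ 5 := by
    nlinarith [pow_nonneg h0 5, mul_le_mul h1 h1 h0 zero_le_one]
  have hp6 : w ^ 6 ≤ w ^ 4 := by
    nlinarith [pow_nonneg h0 4, mul_le_mul h1 h1 h0 zero_le_one]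
  have h3 := pow_nonneg h0 3
  have h4 := pow_nonneg h0 4
  have h5 := pow_nonneg h0 5
  have h6 := pow_nonneg h0 6
  rw [sinh_eq, cosh_eq]
  refine ⟨?_, ?_, ?_, ?_⟩ <;> nlinarith [ha.1, ha.2, hb.1, hb.2, hp4, hp5, hp6, h3, h4, h5, h6]

lemma tanh_le_poly {w : ℝ} (h0 : 0 ≤ w) :
    tanh w ≤ w - w ^ 3 / 3 + 2 * w ^ 5 / 15 := by
  have hd : ∀ x : ℝ, HasDerivAt tanh (1 - tanh x ^ 2) x := fun x => by
    have h := (hasDerivAt_sinh x).fun_div (hasDerivAt_cosh x) (cosh_pos x).ne'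
    rw [show tanh = fun y => sinh y / cosh y from funext tanh_eq_sinh_div_cosh]
    refine h.congr_deriv ?_
    have := (cosh_pos x).ne'
    field_simp
  have t0 : ∀ x : ℝ, 0 ≤ x → 0 ≤ tanh x := fun x hx => by
    rw [tanh_eq_sinh_div_cosh]; exact div_nonneg (sinh_nonneg_iff.mpr hx) (cosh_pos x).le
  have t1 : ∀ x : ℝ, 0 ≤ x → tanh x ≤ x := by
    intro x hx
    have := antitoneOn_of_hasDerivWithinAt_nonpos (convex_Ici (0:ℝ))
      (f := fun y => tanh y - y) (f' := fun y => 1 - tanh y ^ 2 - 1)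
      (fun y _ => ((hd y).sub (hasDerivAt_id y)).continuousAt.continuousWithinAt)
      (fun y _ => ((hd y).sub (hasDerivAt_id y)).hasDerivWithinAt)
      (fun y _ => by nlinarith [sq_nonneg (tanh y)]) self_mem_Ici (show (0:ℝ) ≤ x from hx) hx
    simp at this
    linarith
  have t2 : ∀ x : ℝ, 0 ≤ x → x - x ^ 3 / 3 ≤ tanh x := by
    intro x hx
    have hdd : ∀ y : ℝ, HasDerivAt (fun y => tanh y - (y - y ^ 3 / 3))
        (y ^ 2 - tanh y ^ 2) y := fun y => by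
      refine ((hd y).sub ((hasDerivAt_id y).sub ((hasDerivAt_pow 3 y).div_const 3))).congr_deriv ?_
      norm_num <;> ring
    have := monotoneOn_of_hasDerivWithinAt_nonneg (convex_Ici (0:ℝ))
      (fun y _ => (hdd y).continuousAt.continuousWithinAt)
      (fun y _ => (hdd y).hasDerivWithinAt)
      (fun y hy => by
        rw [interior_Ici] at hy
        have hy' : (0:ℝ) ≤ y := le_of_lt hy
        nlinarith [t0 y hy', t1 y hy']) self_mem_Ici (show (0:ℝ) ≤ x from hx) hx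
    simp at this
    linarith
  have hdd : ∀ y : ℝ, HasDerivAt (fun y => tanh y - (y - y ^ 3 / 3 + 2 * y ^ 5 / 15))
      (y ^ 2 - 2 * y ^ 4 / 3 - tanh y ^ 2) y := fun y => by
    refine ((hd y).sub (((hasDerivAt_id y).sub ((hasDerivAt_pow 3 y).div_const 3)).add
      (((hasDerivAt_pow 5 y).const_mul 2).div_const 15))).congr_deriv ?_
    norm_num; ring
  have := antitoneOn_of_hasDerivWithinAt_nonpos (convex_Ici (0:ℝ))
    (fun y _ => (hdd y).continuousAt.continuousWithinAt)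
    (fun y _ => (hdd y).hasDerivWithinAt)
    (fun y hy => by
      rw [interior_Ici] at hy
      have hy' : (0:ℝ) ≤ y := le_of_lt hy
      rcases le_or_gt (1 - 2 * y ^ 2 / 3) 0 with h | h
      · nlinarith [sq_nonneg (tanh y), sq_nonneg y]
      · have h2 : 0 ≤ y - y ^ 3 / 3 := by nlinarith
        nlinarith [t2 y hy', pow_nonneg hy' 6]) self_mem_Ici (show (0:ℝ) ≤ w from h0) h0
  simp at this
  linarith

lemma lcosh_le_poly {w : ℝ} (h0 : 0 ≤ w) :
    lcosh w ≤ log 2 + w ^ 2 / 2 - (w ^ 2) ^ 2 / 12 + (w ^ 2) ^ 3 / 45 := by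
  have hd : ∀ y : ℝ, HasDerivAt
      (fun y => lcosh y - (log 2 + y ^ 2 / 2 - y ^ 4 / 12 + y ^ 6 / 45))
      (tanh y - (y - y ^ 3 / 3 + 2 * y ^ 5 / 15)) y := fun y => by
    refine ((hasDerivAt_lcosh y).sub (((((hasDerivAt_pow 2 y).div_const 2).const_add (log 2)).sub
      ((hasDerivAt_pow 4 y).div_const 12)).add ((hasDerivAt_pow 6 y).div_const 45))).congr_deriv ?_
    norm_num; ring
  have := antitoneOn_of_hasDerivWithinAt_nonpos (convex_Ici (0:ℝ))
    (fun y _ => (hd y).continuousAt.continuousWithinAt)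
    (fun y _ => (hd y).hasDerivWithinAt)
    (fun y hy => by
      rw [interior_Ici] at hy
      have := tanh_le_poly (le_of_lt (show (0:ℝ) < y from hy))
      linarith) self_mem_Ici (show (0:ℝ) ≤ w from h0) h0
  have e0 : lcosh 0 = log 2 := by simp [lcosh]
  simp [e0] at this
  nlinarith [this]

lemma auxN_le {w : ℝ} (h0 : 0 ≤ w) (h1 : w ≤ 1) :
    auxN w ≤ log 2 - 0.1534 * w ^ 2 + 0.0289 * (w ^ 2) ^ 2 := by
  have hd : ∀ y : ℝ, HasDerivAt
      (fun y => auxN y - (log 2 - 0.1534 * y ^ 2 + 0.0289 * (y ^ 2) ^ 2))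
      (lcosh y * sinh y - y * cosh y - (-0.3068 * y + 0.1156 * y ^ 3)) y := fun y => by
    refine ((hasDerivAt_auxN y).sub ((((hasDerivAt_pow 2 y).const_mul (0.1534:ℝ)).const_sub
      (log 2)).add (((hasDerivAt_pow 2 y).fun_pow 2).const_mul (0.0289:ℝ)))).congr_deriv ?_
    norm_num; ring
  have := antitoneOn_of_hasDerivWithinAt_nonpos (convex_Icc (0:ℝ) 1)
    (fun y _ => (hd y).continuousAt.continuousWithinAt)
    (fun y _ => (hd y).hasDerivWithinAt)
    (fun y hy => by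
      rw [interior_Icc] at hy
      obtain ⟨_, hs2, hc1, _⟩ := hyp_bounds hy.1.le hy.2.le
      have hL := lcosh_le_poly hy.1.le
      have hl2 : log 2 ≤ 0.6932 := by linarith [log_two_lt_d9]
      set z := y ^ 2 with hz
      have hz0 : 0 ≤ z := sq_nonneg y
      have hz1 : z ≤ 1 := by rw [hz]; nlinarith [hy.1, hy.2]
      have hL' : lcosh y ≤ 0.6932 + z / 2 - z ^ 2 / 12 + z ^ 3 / 45 := by linarith
      have hprod : lcosh y * sinh y
          ≤ (0.6932 + z / 2 - z ^ 2 / 12 + z ^ 3 / 45) * (y * (1 + z / 6 + z ^ 2 / 116)) :=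
        mul_le_mul hL' hs2 (sinh_nonneg_iff.mpr hy.1.le) (by nlinarith)
      have hcy := mul_le_mul_of_nonneg_left hc1 hy.1.le
      have key : (0.6932 + z / 2 - z ^ 2 / 12 + z ^ 3 / 45) * (1 + z / 6 + z ^ 2 / 116)
          - (1 + z / 2 + z ^ 2 / 24) - (-0.3068 + 0.1156 * z) ≤ 0 := by
        nlinarith [mul_nonneg hz0 (sub_nonneg.mpr hz1), pow_nonneg hz0 2, pow_nonneg hz0 3,
          pow_nonneg hz0 4, pow_nonneg hz0 5]
      have e : y ^ 3 = y * z := by rw [hz]; ring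
      rw [e]
      nlinarith [mul_nonpos_of_nonneg_of_nonpos hy.1.le key])
    (left_mem_Icc.mpr zero_le_one) ⟨h0, h1⟩ h0
  have e0 : auxN 0 = log 2 := by simp [auxN, lcosh]
  simp [e0] at this
  linarith

lemma auxE_le {w : ℝ} (h0 : 0 ≤ w) (h1 : w ≤ 1) :
    auxE w ≤ w ^ 3 * (4 / 3 + 0.5334 * w ^ 2 + 0.077 * (w ^ 2) ^ 2 + 0.0066 * (w ^ 2) ^ 3) := by
  have hd : ∀ y : ℝ, HasDerivAt
      (fun y => auxE y - (4 / 3 * y ^ 3 + 0.5334 * y ^ 5 + 0.077 * y ^ 7 + 0.0066 * y ^ 9))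
      (4 * y * sinh y * cosh y
        - (4 * y ^ 2 + 2.667 * y ^ 4 + 0.539 * y ^ 6 + 0.0594 * y ^ 8)) y := fun y => by
    refine ((hasDerivAt_auxE y).sub (((((hasDerivAt_pow 3 y).const_mul (4/3:ℝ)).add
      ((hasDerivAt_pow 5 y).const_mul (0.5334:ℝ))).add
      ((hasDerivAt_pow 7 y).const_mul (0.077:ℝ))).add
      ((hasDerivAt_pow 9 y).const_mul (0.0066:ℝ)))).congr_deriv ?_
    norm_num; ring
  have := antitoneOn_of_hasDerivWithinAt_nonpos (convex_Icc (0:ℝ) 1)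
    (fun y _ => (hd y).continuousAt.continuousWithinAt)
    (fun y _ => (hd y).hasDerivWithinAt)
    (fun y hy => by
      rw [interior_Icc] at hy
      obtain ⟨_, hs2, _, hc2⟩ := hyp_bounds hy.1.le hy.2.le
      set z := y ^ 2 with hz
      have hz0 : 0 ≤ z := sq_nonneg y
      have hz1 : z ≤ 1 := by rw [hz]; nlinarith [hy.1, hy.2]
      have hprod : sinh y * cosh y
          ≤ y * (1 + z / 6 + z ^ 2 / 116) * (1 + z / 2 + z ^ 2 / 23) :=
        mul_le_mul hs2 hc2 (cosh_pos y).le (by have := hy.1.le; positivity)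
      have key : 4 * ((1 + z / 6 + z ^ 2 / 116) * (1 + z / 2 + z ^ 2 / 23))
          - (4 + 2.667 * z + 0.539 * z ^ 2 + 0.0594 * z ^ 3) ≤ 0 := by
        nlinarith [pow_nonneg hz0 2, pow_nonneg hz0 3, mul_nonneg hz0 (sub_nonneg.mpr hz1),
          mul_nonneg (pow_nonneg hz0 2) (sub_nonneg.mpr hz1),
          mul_nonneg (pow_nonneg hz0 3) (sub_nonneg.mpr hz1)]
      have e4 : y ^ 4 = z * z := by rw [hz]; ring
      have e6 : y ^ 6 = z * z ^ 2 := by rw [hz]; ring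
      have e8 : y ^ 8 = z * z ^ 3 := by rw [hz]; ring
      rw [e4, e6, e8]
      have := mul_le_mul_of_nonneg_left hprod (show (0:ℝ) ≤ 4 * y by linarith [hy.1])
      nlinarith [mul_nonpos_of_nonneg_of_nonpos hz0 key])
    (left_mem_Icc.mpr zero_le_one) ⟨h0, h1⟩ h0
  simp [auxE] at this
  simp only [auxE]
  nlinarith [this]

lemma auxN_sq_mul_auxE_small {w : ℝ} (h0 : 0 ≤ w) (h1 : w ≤ 1) :
    auxN w ^ 2 * auxE w ≤ 0.645 * w ^ 3 := by
  have hN := auxN_le h0 h1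
  have hE := auxE_le h0 h1
  have hl2 : log 2 ≤ 0.6932 := by linarith [log_two_lt_d9]
  set z := w ^ 2 with hz
  have hz0 : 0 ≤ z := sq_nonneg w
  have hz1 : z ≤ 1 := by rw [hz]; nlinarith
  have hN' : auxN w ≤ 0.6932 - 0.1534 * z + 0.0289 * z ^ 2 := by linarith
  have key : (0.6932 - 0.1534 * z + 0.0289 * z ^ 2) ^ 2 *
      (4 / 3 + 0.5334 * z + 0.077 * z ^ 2 + 0.0066 * z ^ 3) ≤ 0.645 := by
    nlinarith [pow_nonneg hz0 2, pow_nonneg hz0 3, mul_nonneg hz0 (sub_nonneg.mpr hz1),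
      mul_nonneg (pow_nonneg hz0 2) (sub_nonneg.mpr hz1),
      mul_nonneg (pow_nonneg hz0 3) (sub_nonneg.mpr hz1),
      mul_nonneg (pow_nonneg hz0 4) (sub_nonneg.mpr hz1)]
  calc auxN w ^ 2 * auxE w
      ≤ (0.6932 - 0.1534 * z + 0.0289 * z ^ 2) ^ 2 *
        (w ^ 3 * (4 / 3 + 0.5334 * z + 0.077 * z ^ 2 + 0.0066 * z ^ 3)) :=
        mul_le_mul (pow_le_pow_left₀ auxN_nonneg hN' 2) hE (auxE_nonneg h0) (sq_nonneg _)
    _ ≤ 0.645 * w ^ 3 := by nlinarith [mul_le_mul_of_nonneg_left key (pow_nonneg h0 3)]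

lemma log_one_add_le_pade {x : ℝ} (hx : 0 ≤ x) :
    (1 + x) * log (1 + x) ≤ x + x ^ 2 / 2 := by
  have hd : ∀ y ∈ Ici (0:ℝ), HasDerivAt (fun y => (1 + y) * log (1 + y) - (y + y ^ 2 / 2))
      (log (1 + y) - y) y := by
    intro y hy
    have hy1 : (0:ℝ) < 1 + y := by have : (0:ℝ) ≤ y := hy; linarith
    refine ((((hasDerivAt_id y).const_add 1).fun_mul (((hasDerivAt_id y).const_add 1).log hy1.ne')).sub
      ((hasDerivAt_id y).add ((hasDerivAt_pow 2 y).div_const 2))).congr_deriv ?_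
    simp only [id]
    field_simp
    ring
  have := antitoneOn_of_hasDerivWithinAt_nonpos (convex_Ici (0:ℝ))
    (fun y hy => (hd y hy).continuousAt.continuousWithinAt)
    (fun y hy => (hd y (interior_subset hy)).hasDerivWithinAt)
    (fun y hy => by
      rw [interior_Ici] at hy
      have : (0:ℝ) < y := hy
      linarith [log_le_sub_one_of_pos (show (0:ℝ) < 1 + y by linarith)])
    self_mem_Ici (show (0:ℝ) ≤ x from hx) hx
  simp at this
  linarith

lemma auxN_sq_mul_auxE_large {w : ℝ} (h1 : 1 ≤ w) :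
    auxN w ^ 2 * auxE w ≤ 0.645 * w ^ 3 := by
  set q := exp (-(2 * w)) with hq
  have hq0 : 0 < q := exp_pos _
  have hq1 : q ≤ 0.1354 := by
    have h2 : exp (-(2 * w)) ≤ exp (-1) * exp (-1) := by
      rw [← exp_add]; exact exp_le_exp.mpr (by linarith)
    have h3 : exp (-1) < 0.3679 := by
      rw [exp_neg, inv_lt_iff_one_lt_mul₀ (exp_pos 1)]
      nlinarith [exp_one_gt_d9]
    rw [hq]; nlinarith [exp_pos (-1:ℝ)]
  set E := exp w with hE
  have hE0 : 0 < E := exp_pos _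
  have hqE : E * E * q = 1 := by
    rw [hE, hq, ← exp_add, ← exp_add]; simp; ring
  have hem : exp (-w) = E * q := by
    rw [hE, hq, ← exp_add]; congr 1; ring
  have hs : sinh w = E * (1 - q) / 2 := by rw [sinh_eq, hem, ← hE]; ring
  have hc : cosh w = E * (1 + q) / 2 := by rw [cosh_eq, hem, ← hE]; ring
  have hL : lcosh w = w + log (1 + q) := by
    rw [lcosh, hc, show 2 * (E * (1 + q) / 2) = E * (1 + q) by ring,
      log_mul hE0.ne' (by linarith), hE, log_exp]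
  have hN : auxN w ≤ E * q * (w + 1 / 2 + q / 4) := by
    have hl := log_one_add_le_pade hq0.le
    rw [auxN, hL, hc, hs]
    nlinarith [mul_le_mul_of_nonneg_left hl hE0.le]
  have hEe : auxE w = E * E * (w * (1 + q ^ 2) / 2 - (1 - q ^ 2) / 4) := by
    rw [auxE, hs, hc]; ring
  have hB0 : 0 ≤ w * (1 + q ^ 2) / 2 - (1 - q ^ 2) / 4 := by nlinarith [sq_nonneg q]
  have hq2 : q ^ 2 ≤ 0.0184 := by nlinarith
  have hB : w * (1 + q ^ 2) / 2 - (1 - q ^ 2) / 4 ≤ 0.5092 * w - 0.2454 := by nlinarith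
  have hA : w + 1 / 2 + q / 4 ≤ w + 0.534 := by linarith
  calc auxN w ^ 2 * auxE w
      ≤ (E * q * (w + 1 / 2 + q / 4)) ^ 2 *
        (E * E * (w * (1 + q ^ 2) / 2 - (1 - q ^ 2) / 4)) := by
        rw [hEe]
        exact mul_le_mul_of_nonneg_right (pow_le_pow_left₀ auxN_nonneg hN 2)
          (mul_nonneg (mul_self_nonneg E) hB0)
    _ = (E * E * q) ^ 2 * ((w + 1 / 2 + q / 4) ^ 2 *
        (w * (1 + q ^ 2) / 2 - (1 - q ^ 2) / 4)) := by ring
    _ ≤ (w + 0.534) ^ 2 * (0.5092 * w - 0.2454) := by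
        rw [hqE, one_pow, one_mul]
        exact mul_le_mul (pow_le_pow_left₀ (by linarith) hA 2) hB hB0 (sq_nonneg _)
    _ ≤ 0.645 * w ^ 3 := by
        nlinarith [mul_nonneg (sub_nonneg.mpr h1) (sq_nonneg (w - 1.237)),
          sq_nonneg (w - 1.237), sq_nonneg (w - 1.3)]

/-- The curvature bound. -/
theorem psiSlope'_mul_ent_sq_le {r : ℝ} (hr : r ∈ Ioo (0:ℝ) 1) :
    psiSlope' r * ent r ^ 2 ≤ 0.645 * artanh r := by
  obtain ⟨w, hw⟩ : ∃ w, w = artanh r := ⟨_, rfl⟩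
  have hw0 : 0 < w := hw ▸ artanh_pos hr
  have hr' : r = tanh w := by rw [hw, tanh_artanh ⟨by linarith [hr.1], hr.2⟩]
  have key : auxN w ^ 2 * auxE w ≤ 0.645 * w ^ 3 := by
    rcases le_or_gt w 1 with h | h
    · exact auxN_sq_mul_auxE_small hw0.le h
    · exact auxN_sq_mul_auxE_large h.le
  have hc := cosh_pos w
  have hid : psiSlope' r * ent r ^ 2 = auxN w ^ 2 * auxE w / w ^ 2 := by
    unfold psiSlope'
    rw [← hw, hr', ent_tanh, auxN, auxE, tanh_eq_sinh_div_cosh]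
    have hcs := cosh_sq w
    have h1 : (1:ℝ) - (sinh w / cosh w) ^ 2 = 1 / cosh w ^ 2 := by
      field_simp; linarith
    rw [h1]
    field_simp
  rw [hid, ← hw, div_le_iff₀ (by positivity)]
  linarith

end Vale.Agent.P322
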