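import Vale.Agent.P322.Tdefs
import Mathlib.Algebra.BigOperators.Field
import Mathlib.Analysis.Convex.Continuous
import Mathlib.Analysis.Convex.Jensen

/-! Elementary properties of `tT`. -/

noncomputable section

namespace Vale.Agent.P322

open Real Set

lemma log_two_pos' : (0:ℝ) < log 2 := log_pos (by norm_num)

lemma psiD_convexOn : ConvexOn ℝ (Ioi 0) psiD := by
  refine ⟨convex_Ioi 0, fun x hx y hy a b ha hb hab => ?_⟩
  simp only [smul_eq_mul]
  have hd : a * x + b * y ∈ Ioi (0:ℝ) := by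
    simpa using (convex_Ioi (0:ℝ)) hx hy ha hb hab
  rcases le_or_gt (log 2) (a * x + b * y) with h | h
  · rw [psiD_of_log_two_le h]
    exact add_nonneg (mul_nonneg ha (psiD_nonneg x)) (mul_nonneg hb (psiD_nonneg y))
  · obtain ⟨r, hr, he⟩ := surj_ent (le_of_lt hd) h.le
    have hd0 : (0:ℝ) < a * x + b * y := hd
    have hr' : r ∈ Ioo (0:ℝ) 1 := by
      refine ⟨lt_of_le_of_ne hr.1 ?_, lt_of_le_of_ne hr.2 ?_⟩
      · intro h0; rw [← h0, ent_zero] at he; linarith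
      · intro h0; rw [h0, ent_one] at he; linarith
    have h1 := mul_le_mul_of_nonneg_left (psiD_tangent hr' hx) ha
    have h2 := mul_le_mul_of_nonneg_left (psiD_tangent hr' hy) hb
    rw [← he, psiD_ent hr]
    rw [he] at h1 h2
    have hb' : b = 1 - a := by linarith
    subst hb'
    nlinarith

lemma psiD_continuousOn : ContinuousOn psiD (Ioi 0) :=
  psiD_convexOn.continuousOn isOpen_Ioi

lemma psiD_log_two : psiD (log 2) = 0 := psiD_of_log_two_le le_rfl

lemma tC_self {H : ℝ} (hH : 0 < H) : tC H H = 1 := by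
  simp [tC, hH.ne']

lemma tT_self {H : ℝ} (hH : 0 < H) : tT H H = 0 := by
  simp [tT, tC_self hH, hH.ne', psiD_log_two]

lemma tC_pos {Hv h : ℝ} (hh : 0 < h) (hle : h ≤ Hv) : 0 < tC Hv h := by
  have h1 : 0 < h / Hv := div_pos hh (lt_of_lt_of_le hh hle)
  have := div_nonneg (sub_nonneg.mpr hle) log_two_pos'.le
  unfold tC; linarith

lemma tC_le_one {Hv h : ℝ} (hh : 0 < h) (hle : h ≤ Hv) (hl : Hv ≤ log 2) : tC Hv h ≤ 1 := by
  have hH : 0 < Hv := lt_of_lt_of_le hh hle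
  have h1 : (Hv - h) / log 2 ≤ (Hv - h) / Hv :=
    div_le_div_of_nonneg_left (sub_nonneg.mpr hle) hH hl
  have h2 : (Hv - h) / Hv + h / Hv = 1 := by field_simp; ring
  unfold tC; linarith

lemma u_le_tC {Hv h : ℝ} (hle : h ≤ Hv) : h / Hv ≤ tC Hv h := by
  have := div_nonneg (sub_nonneg.mpr hle) log_two_pos'.le
  unfold tC; linarith

/-- `tT` dominates `Psi` of the information. -/
lemma psiD_le_tT {Hv h : ℝ} (hh : 0 < h) (hle : h ≤ Hv) (hl : Hv ≤ log 2) :
    psiD (h + log 2 - Hv) ≤ tT Hv h := by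
  have hH : 0 < Hv := lt_of_lt_of_le hh hle
  have hc := tC_pos hh hle
  have h1 : (0:ℝ) < log 2 * (h / Hv) / tC Hv h :=
    div_pos (mul_pos log_two_pos' (div_pos hh hH)) hc
  have h2 := psiD_convexOn.2 (mem_Ioi.mpr h1) (mem_Ioi.mpr log_two_pos') hc.le
    (sub_nonneg.mpr (tC_le_one hh hle hl)) (by ring)
  simp only [smul_eq_mul, psiD_log_two, mul_zero, add_zero] at h2
  have e : tC Hv h * (log 2 * (h / Hv) / tC Hv h) + (1 - tC Hv h) * log 2
      = h + log 2 - Hv := by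
    rw [mul_div_cancel₀ _ hc.ne']
    unfold tC
    field_simp [log_two_pos'.ne']
    ring
  rwa [e] at h2

lemma ent_concaveOn : ConcaveOn ℝ (Icc (-1:ℝ) 1) ent := by
  refine ⟨convex_Icc _ _, fun x hx y hy a b ha hb hab => ?_⟩
  have h := (strictConcave_binEntropy.concaveOn).2
    (show (1 + x) / 2 ∈ Icc (0:ℝ) 1 from ⟨by linarith [hx.1], by linarith [hx.2]⟩)
    (show (1 + y) / 2 ∈ Icc (0:ℝ) 1 from ⟨by linarith [hy.1], by linarith [hy.2]⟩) ha hb hab
  simp only [smul_eq_mul] at h ⊢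
  unfold ent
  rw [show (1 + (a * x + b * y)) / 2 = a * ((1 + x) / 2) + b * ((1 + y) / 2) by
    linear_combination (-1 / 2 : ℝ) * hab]
  exact h

lemma avg_mem {ι : Type} [Fintype ι] [Nonempty ι] {g : ι → ℝ}
    (hg : ∀ i, g i ∈ Ioo (-1:ℝ) 1) : avg g ∈ Ioo (-1:ℝ) 1 := by
  have hn : (0:ℝ) < Fintype.card ι := Nat.cast_pos.mpr Fintype.card_pos
  unfold avg
  constructor
  · rw [lt_div_iff₀ hn]
    calc -1 * (Fintype.card ι : ℝ) = ∑ _i : ι, (-1:ℝ) := by simp
      _ < ∑ i, g i := Finset.sum_lt_sum_of_nonempty Finset.univ_nonempty fun i _ => (hg i).1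
  · rw [div_lt_iff₀ hn]
    calc ∑ i, g i < ∑ _i : ι, (1:ℝ) :=
          Finset.sum_lt_sum_of_nonempty Finset.univ_nonempty fun i _ => (hg i).2
      _ = 1 * (Fintype.card ι : ℝ) := by simp

lemma avg_ent_pos {ι : Type} [Fintype ι] [Nonempty ι] {g : ι → ℝ}
    (hg : ∀ i, g i ∈ Ioo (-1:ℝ) 1) : 0 < avg (fun i => ent (g i)) :=
  div_pos (Finset.sum_pos (fun i _ => ent_pos (hg i)) Finset.univ_nonempty)
    (Nat.cast_pos.mpr Fintype.card_pos)

/-- Jensen. -/
lemma avg_ent_le {ι : Type} [Fintype ι] [Nonempty ι] {g : ι → ℝ}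
    (hg : ∀ i, g i ∈ Ioo (-1:ℝ) 1) : avg (fun i => ent (g i)) ≤ ent (avg g) := by
  have hn : (Fintype.card ι : ℝ) ≠ 0 := Nat.cast_ne_zero.mpr Fintype.card_ne_zero
  have h := ent_concaveOn.le_map_sum (t := Finset.univ)
    (w := fun _ => (1 / Fintype.card ι : ℝ)) (p := g) (fun _ _ => by positivity)
    (by simp) (fun i _ => Ioo_subset_Icc_self (hg i))
  simp only [smul_eq_mul, one_div_mul_eq_div, ← Finset.sum_div] at h
  simpa only [avg] using h

end Vale.Agent.P322
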