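import Vale.Agent.P322.LowDefs
import Vale.Agent.P322.Tbasic
import Vale.Agent.P322.PsiCurv
import Mathlib.Analysis.SpecialFunctions.Log.Deriv
import Mathlib.Analysis.Complex.ExponentialBounds

/-! `ElemOne` for `m ≤ 3/8` from the vertex and chord inequalities. -/

noncomputable section

namespace Vale.Agent.P322

open Real Set

lemma eBd_mono {a b : ℝ} (ha : 0 ≤ a) (hab : a ≤ b) : eBd a ≤ eBd b := by
  unfold eBd
  have := log_le_log (show 0 < 1 + a / (17 / 5) by positivity)
    (show 1 + a / (17 / 5) ≤ 1 + b / (17 / 5) by linarith)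
  linarith

lemma eBd_le_mul {D : ℝ} (hD : 0 ≤ D) : eBd D ≤ (22 / 34) * D := by
  unfold eBd
  have := log_le_sub_one_of_pos (show 0 < 1 + D / (17 / 5) by positivity)
  linarith

lemma lowP_affine (ta wa tb wb lam L x : ℝ) :
    lowP (lam * ta + (1 - lam) * tb) (lam * wa + (1 - lam) * wb) L x
      = lam * lowP ta wa L x + (1 - lam) * lowP tb wb L x := by
  unfold lowP; ring

lemma lowQ_mem {L x : ℝ} (hL : 0 < L) (hx : 0 < x) (hx1 : x ≤ 1) :
    exp (-L) < exp (-L) + x * (1 - exp (-L)) ∧ x ≤ exp (-L) + x * (1 - exp (-L)) ∧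
      exp (-L) + x * (1 - exp (-L)) ≤ 1 := by
  have h1 : exp (-L) < 1 := exp_lt_one_iff.mpr (by linarith)
  have h0 := exp_pos (-L)
  refine ⟨?_, ?_, ?_⟩ <;> nlinarith

/-- The correlation part of `lowP` is nonnegative. -/
lemma lowB_nonneg {L x : ℝ} (hL : 0 < L) (hx : 0 < x) (hx1 : x ≤ 1) :
    exp (-L) * x * (L - log (exp (-L) + x * (1 - exp (-L))))
      ≤ (1 - exp (-L)) * (1 + exp (-L) - exp (-L) * x) := by
  obtain ⟨hq0, hqx, hq1⟩ := lowQ_mem hL hx hx1
  obtain ⟨r, hr⟩ : ∃ r, r = exp (-L) := ⟨_, rfl⟩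
  rw [← hr] at hq0 hqx hq1 ⊢
  have r0 : 0 < r := hr ▸ exp_pos _
  have r1 : r < 1 := hr ▸ exp_lt_one_iff.mpr (by linarith)
  have e1 : r * L ≤ 1 - r := by
    have h := add_one_le_exp L
    have : r * exp L = 1 := by rw [hr, ← exp_add]; simp
    nlinarith
  set q := r + x * (1 - r) with hq
  have hqp : 0 < q := by linarith
  have e2 : -log q ≤ (1 - q) / q := by
    have h := one_sub_inv_le_log_of_pos hqp
    have : (1 - q) / q = -(1 - q⁻¹) := by field_simp; ring
    rw [this]; linarith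
  have e3 : x * (-log q) ≤ (1 - x) * (1 - r) := by
    have h1 : x * (-log q) ≤ x * ((1 - q) / q) := mul_le_mul_of_nonneg_left e2 hx.le
    have h2 : x * ((1 - q) / q) ≤ 1 - q := by
      rw [mul_div_assoc', div_le_iff₀ hqp]
      linarith [mul_le_mul_of_nonneg_right hqx (sub_nonneg.mpr hq1)]
    nlinarith
  nlinarith [mul_le_mul_of_nonneg_left e1 hx.le, mul_le_mul_of_nonneg_left e3 r0.le]

lemma lowP_zero (vz : VertexZero) {t L x : ℝ} (ht0 : 0 ≤ t) (ht1 : t ≤ 1) (hL : 0 < L)
    (hx : 0 < x) (hx1 : x ≤ 1) : 0 ≤ lowP t (t / (2 * log 2)) L x := by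
  have h1 := mul_le_mul_of_nonneg_left (vz L x hL hx hx1) ht0
  have h2 := mul_nonneg (show 0 ≤ (1 - t) / 2 by linarith)
    (sub_nonneg.mpr (lowB_nonneg hL hx hx1))
  have e : t * (L / (2 * log 2) * (2 * log 2 + log ((exp (-L) + x * (1 - exp (-L))) / x) / 2))
      = t / (2 * log 2) * L * (2 * log 2 + log ((exp (-L) + x * (1 - exp (-L))) / x) / 2) := by
    ring
  unfold lowP
  linarith

lemma low_corA {H lm D r t w : ℝ} (hH : 0 < H) (r0 : 0 < r) (r1 : r ≤ 1) (hlmt : lm = t * H)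
    (hw0 : 0 ≤ w + t) (hw1 : 1 ≤ w + 2 * t) (hD0 : 0 ≤ D) (hD : w * H * -log r ≤ D) :
    0 ≤ corA H lm - corA (r * H) (lm + D) := by
  have k1 : 1 - r ≤ -log r := by linarith [log_le_sub_one_of_pos r0]
  have k2 : corA H lm - corA (r * H) (lm + D)
      = (D / H + (1 - r) * (t * (1 + r) - r)) / (r ^ 2 * H) := by
    unfold corA; rw [hlmt]; field_simp; ring
  rw [k2]
  refine div_nonneg ?_ (by positivity)
  have k3 : w * -log r ≤ D / H := by rw [le_div_iff₀ hH]; linarith
  have k5 : 0 ≤ D / H := by positivity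
  rcases le_total 0 w with hw | hw
  · have k4 : 0 ≤ w + t * (1 + r) - r := by
      linarith [mul_nonneg (sub_nonneg.mpr r1) hw0, mul_nonneg r0.le (sub_nonneg.mpr hw1)]
    linarith [mul_nonneg (sub_nonneg.mpr r1) k4, mul_le_mul_of_nonneg_left k1 hw]
  · have k4 : 0 ≤ t * (1 + r) - r := by
      linarith [mul_nonneg (sub_nonneg.mpr r1) hw0, mul_nonneg r0.le (sub_nonneg.mpr hw1)]
    linarith [mul_nonneg (sub_nonneg.mpr r1) k4]

/-- Large `h`: there `Δ ≤ L`. -/
lemma low_large {H D t w r e s X Y : ℝ} (hH : 0 ≤ H) (ht0 : 0 ≤ t) (ht1 : t ≤ 1) (r0 : 0 < r)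
    (r1 : r ≤ 1) (s0 : 0 < s) (hXs : s * X = 1 + s * (1 - e))
    (hYs : s * Y = r ^ 2 + s * (1 - e * r)) (hY1 : 1 ≤ Y) (hXY : Y ≤ X) (hsr : r ≤ s)
    (hD0 : 0 ≤ D) (hD : w * H * -log r ≤ D) (hlin : 22 / 34 * t ≤ 2 * log 2 * w) :
    t * H * eBd (log (X / Y))
      ≤ D * (2 * log 2 + log Y / 2) + (1 - t) * H / 2 * s * (X - Y - log (X / Y)) := by
  have hl : 0 < log 2 := log_pos (by norm_num)
  have hYp : 0 < Y := by linarith
  have hXp : 0 < X := by linarith
  have hΔ0 : 0 ≤ log (X / Y) := log_nonneg ((one_le_div hYp).mpr hXY)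
  have hgap : 0 ≤ X - Y - log (X / Y) := by
    have h1 := log_le_sub_one_of_pos (show 0 < X / Y by positivity)
    have h2 : X / Y - 1 ≤ X - Y := by
      rw [div_sub_one hYp.ne', div_le_iff₀ hYp]
      linarith [mul_nonneg (sub_nonneg.mpr hXY) (sub_nonneg.mpr hY1)]
    linarith
  have hΔL : log (X / Y) ≤ -log r := by
    have h1 : r * X ≤ Y := by
      refine le_of_mul_le_mul_left ?_ s0
      rw [mul_left_comm, hXs, hYs]
      linarith [mul_nonneg (sub_nonneg.mpr r1) (sub_nonneg.mpr hsr)]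
    rw [← log_inv]
    refine log_le_log (by positivity) ?_
    rw [div_le_iff₀ hYp, ← div_eq_inv_mul, le_div_iff₀ r0]; linarith
  have h1 : eBd (log (X / Y)) ≤ 22 / 34 * -log r := le_trans (eBd_le_mul hΔ0) (by linarith)
  have h2 := mul_le_mul_of_nonneg_left h1 (mul_nonneg ht0 hH)
  have h3 : 0 ≤ (1 - t) * H / 2 * s * (X - Y - log (X / Y)) := by
    have : 0 ≤ 1 - t := by linarith
    positivity
  have h4 : 0 ≤ (D - w * H * -log r) * (2 * log 2) := mul_nonneg (by linarith) (by linarith)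
  have h5 : 0 ≤ D * (log Y / 2) := by
    have := log_nonneg hY1
    positivity
  have h6 := mul_le_mul_of_nonneg_right hlin
    (mul_nonneg hH (neg_nonneg.mpr (log_nonpos r0.le r1)))
  linarith

/-- Small `h`: comparison with `lowP`. -/
lemma low_small {H D t w r e x X Y : ℝ} (hH : 0 ≤ H) (ht0 : 0 ≤ t) (ht1 : t ≤ 1) (r0 : 0 < r)
    (r1 : r < 1) (x0 : 0 < x) (x1 : x ≤ 1) (e1 : e ≤ 1)
    (hXs : r * x * X = 1 + r * x * (1 - e))
    (hYs : r * x * Y = r ^ 2 + r * x * (1 - e * r)) (hY1 : 1 ≤ Y) (hXY : Y ≤ X)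
    (hD0 : 0 ≤ D) (hD : w * H * -log r ≤ D) (hP : 0 ≤ lowP t w (-log r) x) :
    t * H * eBd (log (X / Y))
      ≤ D * (2 * log 2 + log Y / 2)
        + (1 - t) * H / 2 * (r * x) * (X - Y - log (X / Y)) := by
  have hl : 0 < log 2 := log_pos (by norm_num)
  have hrL : exp (- -log r) = r := by rw [neg_neg, exp_log r0]
  obtain ⟨hq0, hqx, hq1⟩ := lowQ_mem (neg_pos.mpr (log_neg r0 r1)) x0 x1
  unfold lowP at hP
  rw [hrL] at hq0 hqx hq1 hP
  obtain ⟨q, hq⟩ : ∃ q, q = r + x * (1 - r) := ⟨_, rfl⟩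
  rw [← hq] at hq0 hqx hq1 hP
  have hqp : 0 < q := by linarith
  have hYp : 0 < Y := by linarith
  have hXp : 0 < X := by linarith
  have hrx : 0 < r * x := mul_pos r0 x0
  have hYq : q / x ≤ Y := by
    refine le_of_mul_le_mul_left ?_ hrx
    rw [hYs, hq]
    have : r * x * ((r + x * (1 - r)) / x) = r * (r + x * (1 - r)) := by field_simp
    rw [this]
    linarith [mul_nonneg (mul_nonneg x0.le (mul_nonneg r0.le r0.le)) (sub_nonneg.mpr e1)]
  have hlY : log (q / x) ≤ log Y := log_le_log (div_pos hqp x0) hYq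
  have hlq : 0 ≤ log (q / x) := log_nonneg ((one_le_div x0).mpr hqx)
  have hΔ0 : 0 ≤ log (X / Y) := log_nonneg ((one_le_div hYp).mpr hXY)
  have hΔle : log (X / Y) ≤ -log r - log q := by
    have key : r * q * X ≤ Y := by
      refine le_of_mul_le_mul_left ?_ hrx
      rw [mul_left_comm, hXs, hYs]
      have := mul_nonneg (mul_nonneg (mul_nonneg r0.le r0.le) x0.le)
        (mul_nonneg (sub_nonneg.mpr e1) (sub_nonneg.mpr hq1))
      rw [hq] at this ⊢
      linarith
    rw [show -log r - log q = -(log r + log q) by ring, ← log_mul r0.ne' hqp.ne', ← log_inv]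
    refine log_le_log (by positivity) ?_
    rw [div_le_iff₀ hYp, ← div_eq_inv_mul, le_div_iff₀ (by positivity)]; linarith
  have i1 := mul_le_mul_of_nonneg_left (eBd_mono hΔ0 hΔle) (mul_nonneg ht0 hH)
  have i2a := mul_le_mul_of_nonneg_right hD (show 0 ≤ 2 * log 2 + log (q / x) / 2 by positivity)
  have i2b := mul_le_mul_of_nonneg_left hlY hD0
  have i3 : (1 - r) * (1 + r - r * x) - r * x * (-log r - log q)
      ≤ r * x * (X - Y - log (X / Y)) := by
    have ea : r * x * X - r * x * Y = (1 - r) * (1 + r - e * (r * x)) := by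
      rw [hXs, hYs]; ring
    have eb := mul_nonneg (mul_nonneg (sub_nonneg.mpr r1.le) hrx.le) (sub_nonneg.mpr e1)
    have ec := mul_le_mul_of_nonneg_left hΔle hrx.le
    linarith
  have i4 := mul_le_mul_of_nonneg_left i3
    (show 0 ≤ (1 - t) * H / 2 by
      have : 0 ≤ 1 - t := by linarith
      positivity)
  have hp' := mul_nonneg hH hP
  linarith

/-- The reduction for one value of `(m, d, h)`, in abstract variables. -/
lemma low_core {H B lm D h w : ℝ} (hh : 0 < h) (hhB : h < B) (hBH : B ≤ H) (hH : H ≤ log 2)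
    (hlm0 : 0 ≤ lm) (hlm : lm ≤ H) (hD0 : 0 ≤ D) (hD : w * H * log (H / B) ≤ D)
    (hw0 : 0 ≤ w + lm / H) (hw1 : 1 ≤ w + 2 * (lm / H))
    (hlin : 22 / 34 * (lm / H) ≤ 2 * log 2 * w)
    (hP : ∀ x : ℝ, 0 < log (H / B) → 0 < x → x ≤ 1 → 0 ≤ lowP (lm / H) w (log (H / B)) x) :
    lm * eBd (log (zInv H h / zInv B h))
      ≤ D * (2 * log 2 + log (zInv B h) / 2)
        + corA H lm * (log 2 * h) / 2 * (zInv H h - zInv B h - log (zInv H h / zInv B h))
        + 0.645 * (log 2 * h) * (zInv B h - 1 - log (zInv B h))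
            * min (corA H lm - corA B (lm + D)) 0 := by
  have hl : 0 < log 2 := log_pos (by norm_num)
  have hB : 0 < B := by linarith
  have hH0 : 0 < H := by linarith
  obtain ⟨t, ht⟩ : ∃ t, t = lm / H := ⟨_, rfl⟩
  rw [← ht] at hw0 hw1 hlin hP
  have ht0 : 0 ≤ t := ht ▸ div_nonneg hlm0 hH0.le
  have ht1 : t ≤ 1 := ht ▸ (div_le_one hH0).mpr hlm
  have hlmt : lm = t * H := by rw [ht]; field_simp
  obtain ⟨r, hr⟩ : ∃ r, r = B / H := ⟨_, rfl⟩
  have r0 : 0 < r := hr ▸ div_pos hB hH0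
  have r1 : r ≤ 1 := hr ▸ (div_le_one hH0).mpr hBH
  have hBr : B = r * H := by rw [hr]; field_simp
  obtain ⟨e, he⟩ : ∃ e, e = H / log 2 := ⟨_, rfl⟩
  have e0 : 0 < e := he ▸ div_pos hH0 hl
  have e1 : e ≤ 1 := he ▸ (div_le_one hl).mpr hH
  obtain ⟨s, hs⟩ : ∃ s, s = log 2 * h / H ^ 2 := ⟨_, rfl⟩
  have s0 : 0 < s := hs ▸ by positivity
  obtain ⟨X, hX⟩ : ∃ X, X = zInv H h := ⟨_, rfl⟩
  obtain ⟨Y, hY⟩ : ∃ Y, Y = zInv B h := ⟨_, rfl⟩
  rw [← hX, ← hY]
  have hXs : s * X = 1 + s * (1 - e) := by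
    rw [hX, hs, zInv, he]; field_simp; ring
  have hYs : s * Y = r ^ 2 + s * (1 - e * r) := by
    rw [hY, hs, zInv, he, hr]; field_simp; ring
  have hse : s * e < r := by
    have : s * e = h / H := by rw [hs, he]; field_simp
    rw [this, hr]; exact div_lt_div_of_pos_right hhB hH0
  have hY1 : 1 ≤ Y := by
    refine le_of_mul_le_mul_left ?_ s0
    rw [hYs, mul_one]
    nlinarith [mul_le_mul_of_nonneg_left hse.le r0.le]
  have hXY : Y ≤ X := by
    refine le_of_mul_le_mul_left ?_ s0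
    rw [hXs, hYs]
    nlinarith [mul_le_mul_of_nonneg_left hse.le (sub_nonneg.mpr r1)]
  have hL : log (H / B) = -log r := by
    rw [hr, log_div hH0.ne' hB.ne', log_div hB.ne' hH0.ne']; ring
  rw [hL] at hD hP
  have hA : 0 ≤ corA H lm - corA B (lm + D) := by
    rw [hBr]; exact low_corA hH0 r0 r1 hlmt hw0 hw1 hD0 hD
  rw [min_eq_right hA, mul_zero, add_zero]
  have hcor : corA H lm * (log 2 * h) / 2 = (1 - t) * H / 2 * s := by
    unfold corA; rw [hs, hlmt]; field_simp
  rw [hcor, hlmt]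
  rcases le_total r s with hsr | hsr
  · exact low_large hH0.le ht0 ht1 r0 r1 s0 hXs hYs hY1 hXY hsr hD0 hD hlin
  · rcases eq_or_lt_of_le r1 with r_one | r_lt
    · have hXY' : X = Y := by
        refine mul_left_cancel₀ s0.ne' ?_
        rw [hXs, hYs, r_one]; ring
      subst hXY'
      have : 0 ≤ D * (2 * log 2 + log X / 2) := by
        have := log_nonneg hY1
        positivity
      rw [div_self (show X ≠ 0 by linarith), log_one]
      simp only [eBd, zero_div, add_zero, log_one, mul_zero, sub_self]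
      linarith
    · have x0 : 0 < s / r := div_pos s0 r0
      have x1 : s / r ≤ 1 := (div_le_one r0).mpr hsr
      have hsx : r * (s / r) = s := by field_simp
      have := low_small (X := X) (Y := Y) hH0.le ht0 ht1 r0 r_lt x0 x1 e1
        (by rw [hsx]; exact hXs) (by rw [hsx]; exact hYs) hY1 hXY hD0 hD
        (hP _ (neg_pos.mpr (log_neg r0 r_lt)) x0 x1)
      rwa [hsx] at this

lemma ell_eq {x : ℝ} (hx : -1 < x) : ell x = log 2 - log (1 + x) := by
  rw [ell, log_div (by linarith) (by norm_num)]; ring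

lemma ent_eq_ell_add {x : ℝ} (hx : x ∈ Ioo (-1:ℝ) 1) :
    ent x = ell x + (1 - x) * artanh x := by
  have h1 : (0:ℝ) < 1 + x := by linarith [hx.1]
  have h2 : (0:ℝ) < 1 - x := by linarith [hx.2]
  unfold ell ent
  rw [artanh_eq_half_log_sub hx, binEntropy_eq_negMulLog_add_negMulLog_one_sub,
    show 1 - (1 + x) / 2 = (1 - x) / 2 by ring]
  simp only [negMulLog]
  rw [log_div h1.ne' (by norm_num), log_div h2.ne' (by norm_num)]
  ring

lemma ell_anti {a b : ℝ} (ha : -1 < a) (hab : a ≤ b) : ell b ≤ ell a := by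
  rw [ell_eq ha, ell_eq (by linarith)]
  linarith [log_le_log (show 0 < 1 + a by linarith) (show 1 + a ≤ 1 + b by linarith)]

lemma corr_mono {a b : ℝ} (ha : 0 ≤ a) (hab : a ≤ b) (hb : b ≤ 3 / 8) :
    (1 - a) * artanh a ≤ (1 - b) * artanh b := by
  have hd : ∀ y ∈ Icc a b, HasDerivAt (fun y => (1 - y) * artanh y)
      (-1 * artanh y + (1 - y) * (1 / (1 - y ^ 2))) y := fun y hy =>
    ((hasDerivAt_id y).const_sub 1).mul
      (hasDerivAt_artanh ⟨by linarith [hy.1], by linarith [hy.2]⟩)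
  refine monotoneOn_of_hasDerivWithinAt_nonneg (convex_Icc a b)
    (fun y hy => (hd y hy).continuousAt.continuousWithinAt)
    (fun y hy => (hd y (interior_subset hy)).hasDerivWithinAt) ?_ ⟨le_rfl, hab⟩ ⟨hab, le_rfl⟩ hab
  intro y hy
  have hy' := interior_subset hy
  have y0 : 0 ≤ y := le_trans ha hy'.1
  have y1 : y ≤ 3 / 8 := le_trans hy'.2 hb
  have h1 := artanh_le_div (r := y) ⟨y0, by linarith⟩
  have h3 : 0 < 1 - y ^ 2 := by nlinarith
  have h4 : y / (1 - y ^ 2) ≤ (1 - y) * (1 / (1 - y ^ 2)) := by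
    rw [mul_one_div]; exact div_le_div_of_nonneg_right (by linarith) h3.le
  linarith

lemma ellGap_nonneg {m d : ℝ} (h1 : -1 < m - d) (hd : 0 ≤ d) : 0 ≤ ellGap m d := by
  unfold ellGap
  rw [ell_eq (show -1 < m + d by linarith), ell_eq h1, ell_eq (show -1 < m by linarith)]
  have h : (1 + (m + d)) * (1 + (m - d)) ≤ (1 + m) * (1 + m) := by nlinarith
  have := log_le_log (mul_pos (by linarith) (by linarith)) h
  rw [log_mul (by linarith) (by linarith), log_mul (by linarith) (by linarith)] at this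
  linarith

lemma entBar_le {m d : ℝ} (h1 : -1 ≤ m - d) (h2 : m + d ≤ 1) (hd : 0 ≤ d) :
    entBar m d ≤ ent m := by
  have h := ent_concaveOn.2 (show m + d ∈ Icc (-1:ℝ) 1 from ⟨by linarith, h2⟩)
    (show m - d ∈ Icc (-1:ℝ) 1 from ⟨h1, by linarith⟩)
    (show (0:ℝ) ≤ 1 / 2 by norm_num) (show (0:ℝ) ≤ 1 / 2 by norm_num) (by norm_num)
  simp only [smul_eq_mul] at h
  rw [show (1:ℝ) / 2 * (m + d) + 1 / 2 * (m - d) = m by ring] at h
  unfold entBar; linarith

/-- One interval. -/
lemma low_interval {ma mb ta wa tb wb L1 m d h : ℝ} (htab : tb < ta)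
    (hv1 : VertexOK ta wa L1) (hv2 : VertexOK tb wb L1) (hc : ChordOK ma mb (wLine ta wa tb wb))
    (a0 : 0 ≤ ma) (a2 : ma ≤ 1 / 5) (a1 : mb ≤ 3 / 8)
    (hta : (1 - ta) * ell ma ≤ ta * ((1 - ma) * artanh ma))
    (htb : tb * ((1 - mb) * artanh mb) ≤ (1 - tb) * ell mb)
    (t01 : 0 ≤ tb ∧ ta ≤ 1)
    (hL1 : log 2 ≤ exp L1 * (ent (1 - 2 * ma) / 2))
    (w01 : 0 ≤ wa + ta ∧ 0 ≤ wb + tb) (w02 : 1 ≤ wa + 2 * ta ∧ 1 ≤ wb + 2 * tb)
    (w03 : 22 / 34 * ta ≤ 2 * log 2 * wa ∧ 22 / 34 * tb ≤ 2 * log 2 * wb)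
    (hma : ma ≤ m) (hmb : m ≤ mb) (hd : 0 < d) (hd1 : d < 1 - m) (hh : 0 < h)
    (hhB : h < entBar m d) :
    ell m * eBd (log (zInv (ent m) h / zInv (entBar m d) h))
      ≤ ellGap m d * (2 * log 2 + log (zInv (entBar m d) h) / 2)
        + corA (ent m) (ell m) * (log 2 * h) / 2 *
            (zInv (ent m) h - zInv (entBar m d) h - log (zInv (ent m) h / zInv (entBar m d) h))
        + 0.645 * (log 2 * h) * (zInv (entBar m d) h - 1 - log (zInv (entBar m d) h))
            * min (corA (ent m) (ell m) - corA (entBar m d) (ell m + ellGap m d)) 0 := by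
  have hmI : m ∈ Ioo (-1:ℝ) 1 := ⟨by linarith, by linarith⟩
  have hH : 0 < ent m := ent_pos hmI
  have hid := ent_eq_ell_add hmI
  have hl0 : 0 ≤ ell m := by
    rw [ell_eq (by linarith)]
    linarith [log_le_log (show 0 < 1 + m by linarith) (show 1 + m ≤ 2 by linarith)]
  have hB : entBar m d ≤ ent m := entBar_le (by linarith) (by linarith) hd.le
  have hBp : 0 < entBar m d := lt_trans hh hhB
  -- the range of `t`
  have hcm : 0 ≤ (1 - m) * artanh m :=
    mul_nonneg (by linarith) (artanh_nonneg (by linarith))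
  have hlm : ell m ≤ ent m := by linarith
  have htb' : tb ≤ ell m / ent m := by
    rw [le_div_iff₀ hH]
    have h1 := mul_le_mul_of_nonneg_left (corr_mono (le_trans a0 hma) hmb a1) t01.1
    have h2 := mul_le_mul_of_nonneg_left (ell_anti (show -1 < m by linarith) hmb)
      (show 0 ≤ 1 - tb by linarith)
    rw [hid]; linarith
  have hta' : ell m / ent m ≤ ta := by
    rw [div_le_iff₀ hH]
    have h1 := mul_le_mul_of_nonneg_left (corr_mono a0 hma (by linarith))
      (show 0 ≤ ta by linarith)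
    have h2 := mul_le_mul_of_nonneg_left (ell_anti (show -1 < ma by linarith) hma)
      (show 0 ≤ 1 - ta by linarith)
    rw [hid]; linarith
  obtain ⟨lam, hlam⟩ : ∃ lam, lam = (ell m / ent m - tb) / (ta - tb) := ⟨_, rfl⟩
  have l0 : 0 ≤ lam := hlam ▸ div_nonneg (by linarith) (by linarith)
  have l1 : lam ≤ 1 := hlam ▸ (div_le_one (by linarith)).mpr (by linarith)
  have e1 : ell m / ent m = lam * ta + (1 - lam) * tb := by
    have hne : ta - tb ≠ 0 := by linarith
    rw [hlam]; field_simp; ring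
  have e2 : wLine ta wa tb wb (ell m / ent m) = lam * wa + (1 - lam) * wb := by
    rw [wLine, hlam]; ring
  have hlam' : 0 ≤ 1 - lam := by linarith
  -- the range of `L`
  have hL : log (ent m / entBar m d) ≤ L1 := by
    rw [log_le_iff_le_exp (div_pos hH hBp), div_le_iff₀ hBp]
    refine le_trans (le_trans (ent_le m) hL1) (mul_le_mul_of_nonneg_left ?_ (exp_pos L1).le)
    have hx : |m - d| ≤ 1 - 2 * ma := abs_le.mpr ⟨by linarith, by linarith⟩
    have h3 : ent (1 - 2 * ma) ≤ ent (m - d) := by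
      rw [← ent_abs (m - d)]
      exact ent_strictAntiOn.antitoneOn ⟨abs_nonneg _, le_trans hx (by linarith)⟩
        ⟨le_trans (abs_nonneg _) hx, by linarith⟩ hx
    have h4 : 0 ≤ ent (m + d) := ent_nonneg ⟨by linarith, by linarith⟩
    unfold entBar; linarith
  refine low_core (w := wLine ta wa tb wb (ell m / ent m)) hh hhB hB (ent_le m) hl0 hlm
    (ellGap_nonneg (by linarith) hd.le) (hc m d hma hmb hd hd1) ?_ ?_ ?_ ?_
  · rw [e2, e1]; linarith [mul_nonneg l0 w01.1, mul_nonneg hlam' w01.2]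
  · rw [e2, e1]
    linarith [mul_le_mul_of_nonneg_left w02.1 l0, mul_le_mul_of_nonneg_left w02.2 hlam']
  · rw [e2, e1]
    linarith [mul_le_mul_of_nonneg_left w03.1 l0, mul_le_mul_of_nonneg_left w03.2 hlam']
  · intro x hL0 hx hx1
    rw [e2, e1, lowP_affine]
    exact add_nonneg (mul_nonneg l0 (hv1 _ x hL0 hL hx hx1))
      (mul_nonneg hlam' (hv2 _ x hL0 hL hx hx1))

/-- `ElemOne` for `m ≤ 3/8`. -/
theorem elemOne_low (hc : ChordAll) (hv : VertexAll) (hz : VertexZero) {m d h : ℝ}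
    (hm0 : 0 ≤ m) (hm : m ≤ 3 / 8) (hd : 0 < d) (hd1 : d < 1 - m) (hh : 0 < h)
    (hhB : h < entBar m d) :
    ell m * eBd (log (zInv (ent m) h / zInv (entBar m d) h))
      ≤ ellGap m d * (2 * log 2 + log (zInv (entBar m d) h) / 2)
        + corA (ent m) (ell m) * (log 2 * h) / 2 *
            (zInv (ent m) h - zInv (entBar m d) h - log (zInv (ent m) h / zInv (entBar m d) h))
        + 0.645 * (log 2 * h) * (zInv (entBar m d) h - 1 - log (zInv (entBar m d) h))
            * min (corA (ent m) (ell m) - corA (entBar m d) (ell m + ellGap m d)) 0 := by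
  obtain ⟨c0, c1, c2, c3⟩ := hc
  obtain ⟨v1, v2, v3, v4, v5, v6⟩ := hv
  have hl1 := log_two_gt_d9
  have hl2 := log_two_lt_d9
  have he : (2.7182818283 : ℝ) < exp 1 := exp_one_gt_d9
  have hat : ∀ x : ℝ, 0 ≤ x → x < 1 → artanh x = 1 / 2 * log ((1 + x) / (1 - x)) :=
    fun x hx hx1 => artanh_eq_half_log ⟨by linarith, hx1.le⟩
  rcases le_or_gt m (1 / 100) with hA | hA
  · have hmI : m ∈ Ioo (-1:ℝ) 1 := ⟨by linarith, by linarith⟩
    have hH : 0 < ent m := ent_pos hmI
    have hlA := ell_anti (show (-1:ℝ) < m by linarith) hA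
    have hl9 : log (1 + (1:ℝ) / 100) ≤ 0.01 := by
      linarith [log_le_sub_one_of_pos (show (0:ℝ) < 1 + 1 / 100 by norm_num)]
    rw [ell_eq (show (-1:ℝ) < 1 / 100 by norm_num)] at hlA
    have hlm : ell m ≤ ent m := by
      rw [ent_eq_ell_add hmI]
      have : 0 ≤ (1 - m) * artanh m :=
        mul_nonneg (by linarith) (artanh_nonneg hm0)
      linarith
    have t1 : ell m / ent m ≤ 1 := (div_le_one hH).mpr hlm
    have t0 : 9 / 10 ≤ ell m / ent m := by
      rw [le_div_iff₀ hH]; linarith [ent_le m]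
    have w0 : 0 ≤ ell m / ent m / (2 * log 2) := div_nonneg (by linarith) (by linarith)
    refine low_core (w := ell m / ent m / (2 * log 2)) hh hhB
      (entBar_le (by linarith) (by linarith) hd.le) (ent_le m) (by linarith) hlm
      (ellGap_nonneg (by linarith) hd.le) (c0 m d hm0 hA hd hd1) (by linarith) (by linarith) ?_ ?_
    · rw [show 2 * log 2 * (ell m / ent m / (2 * log 2)) = ell m / ent m from
        mul_div_cancel₀ _ (by linarith)]
      linarith
    · intro x hL hx hx1; exact lowP_zero hz (by linarith) t1 hL hx hx1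
  rcases le_or_gt m (3 / 50) with hB | hB
  · refine low_interval (by norm_num) v1 v2 c1 (by norm_num) (by norm_num) (by norm_num) ?_ ?_
      ⟨by norm_num, by norm_num⟩ ?_ (by norm_num) (by norm_num)
      ⟨by linarith, by linarith⟩ hA.le hB hd hd1 hh hhB
    · rw [ell_eq (by norm_num)]
      have k1 := one_sub_inv_le_log_of_pos (show (0:ℝ) < 1 + 1 / 100 by norm_num)
      have k2 := self_le_artanh (r := 1 / 100) ⟨by norm_num, by norm_num⟩
      norm_num at *; linarith
    · rw [ell_eq (by norm_num), hat _ (by norm_num) (by norm_num)]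
      have k1 := log_div_le_sum_range_add (show (0:ℝ) ≤ 3 / 103 by norm_num) (by norm_num) 1
      have k2 := log_div_le_sum_range_add (show (0:ℝ) ≤ 3 / 50 by norm_num) (by norm_num) 1
      norm_num [Finset.sum_range_succ] at *; linarith
    · have k : ent (1 - 2 * (1 / 100)) = binEntropy (99 / 100) := by unfold ent; norm_num
      rw [k, binEntropy]
      have e3 : (25 : ℝ) ≤ exp 3.25 := by
        have : exp 3.25 = exp 1 ^ 3 * exp 0.25 := by
          rw [← exp_nat_mul, ← exp_add]; norm_num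
        rw [this]
        have a := add_one_le_exp (0.25:ℝ)
        have b : (20:ℝ) ≤ exp 1 ^ 3 :=
          le_trans (by norm_num) (pow_le_pow_left₀ (by norm_num) he.le 3)
        nlinarith
      have k1 := one_sub_inv_le_log_of_pos (show (0:ℝ) < 100 / 99 by norm_num)
      have k2 := sum_range_le_log_div (show (0:ℝ) ≤ 1 / 9 by norm_num) (by norm_num) 1
      have k3 : log (100:ℝ) = 6 * log 2 + 2 * log (5 / 4) := by
        rw [show (100:ℝ) = 2 ^ 6 * (5 / 4) ^ 2 by norm_num, log_mul (by norm_num) (by norm_num),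
          log_pow, log_pow]; norm_num
      norm_num [Finset.sum_range_succ] at *
      nlinarith
  rcases le_or_gt m (19 / 100) with hC | hC
  · refine low_interval (by norm_num) v3 v4 c2 (by norm_num) (by norm_num) (by norm_num) ?_ ?_
      ⟨by norm_num, by norm_num⟩ ?_ (by norm_num) (by norm_num)
      ⟨by linarith, by linarith⟩ hB.le hC hd hd1 hh hhB
    · rw [ell_eq (by norm_num)]
      have k1 := sum_range_le_log_div (show (0:ℝ) ≤ 3 / 103 by norm_num) (by norm_num) 1
      have k2 := self_le_artanh (r := 3 / 50) ⟨by norm_num, by norm_num⟩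
      norm_num [Finset.sum_range_succ] at *; linarith
    · rw [ell_eq (by norm_num), hat _ (by norm_num) (by norm_num)]
      have k1 := log_div_le_sum_range_add (show (0:ℝ) ≤ 19 / 219 by norm_num) (by norm_num) 2
      have k2 := log_div_le_sum_range_add (show (0:ℝ) ≤ 19 / 100 by norm_num) (by norm_num) 3
      norm_num [Finset.sum_range_succ] at *; linarith
    · have k : ent (1 - 2 * (3 / 50)) = binEntropy (47 / 50) := by unfold ent; norm_num
      rw [k, binEntropy]
      have e3 : (6.33 : ℝ) ≤ exp 1.85 := by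
        have : exp (1.85:ℝ) = exp 1 * exp 0.85 := by rw [← exp_add]; norm_num
        rw [this]
        have a := sum_le_exp_of_nonneg (show (0:ℝ) ≤ 0.85 by norm_num) 5
        norm_num [Finset.sum_range_succ, Nat.factorial] at a ⊢
        nlinarith
      have k1 := one_sub_inv_le_log_of_pos (show (0:ℝ) < 50 / 47 by norm_num)
      have k3 : log (50 / 3 : ℝ) = 4 * log 2 + log (25 / 24) := by
        rw [show (50:ℝ) / 3 = 2 ^ 4 * (25 / 24) by norm_num, log_mul (by norm_num) (by norm_num),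
          log_pow]; norm_num
      have k4 := one_sub_inv_le_log_of_pos (show (0:ℝ) < 25 / 24 by norm_num)
      norm_num at *
      nlinarith
  · refine low_interval (by norm_num) v5 v6 c3 (by norm_num) (by norm_num) (by norm_num) ?_ ?_
      ⟨by norm_num, by norm_num⟩ ?_ (by norm_num) (by norm_num)
      ⟨by linarith, by linarith⟩ hC.le hm hd hd1 hh hhB
    · rw [ell_eq (by norm_num), hat _ (by norm_num) (by norm_num)]
      have k1 := sum_range_le_log_div (show (0:ℝ) ≤ 19 / 219 by norm_num) (by norm_num) 2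
      have k2 := sum_range_le_log_div (show (0:ℝ) ≤ 19 / 100 by norm_num) (by norm_num) 2
      norm_num [Finset.sum_range_succ] at *; linarith
    · rw [ell_eq (by norm_num), hat _ (by norm_num) (by norm_num)]
      have k1 := log_div_le_sum_range_add (show (0:ℝ) ≤ 3 / 19 by norm_num) (by norm_num) 3
      have k2 := log_div_le_sum_range_add (show (0:ℝ) ≤ 3 / 8 by norm_num) (by norm_num) 4
      norm_num [Finset.sum_range_succ] at *; linarith
    · have k : ent (1 - 2 * (19 / 100)) = binEntropy (81 / 100) := by unfold ent; norm_num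
      rw [k, binEntropy]
      have e3 : (2.88 : ℝ) ≤ exp 1.06 := by
        have : exp (1.06:ℝ) = exp 1 * exp 0.06 := by rw [← exp_add]; norm_num
        rw [this]
        have a := add_one_le_exp (0.06:ℝ)
        norm_num at a ⊢
        nlinarith
      have k1 := sum_range_le_log_div (show (0:ℝ) ≤ 19 / 181 by norm_num) (by norm_num) 1
      have k2 := sum_range_le_log_div (show (0:ℝ) ≤ 6 / 44 by norm_num) (by norm_num) 1
      have k3 : log (100 / 19 : ℝ) = 2 * log 2 + log (25 / 19) := by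
        rw [show (100:ℝ) / 19 = 2 ^ 2 * (25 / 19) by norm_num, log_mul (by norm_num) (by norm_num),
          log_pow]; norm_num
      norm_num [Finset.sum_range_succ] at *
      nlinarith

end Vale.Agent.P322
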