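import Vale.Agent.P322.CKofElem
import Vale.Agent.P322.Low

/-! The remaining pieces of the Courtade-Kumar inequality, assembled. -/

noncomputable section

namespace Vale.Agent.P322

open Real

/-- `ElemOne` for `m ≥ 3/8`. -/
def ElemHigh : Prop :=
  ∀ m d h : ℝ, 3 / 8 ≤ m → 0 < d → d < 1 - m → 0 < h → h < entBar m d →
    ell m * eBd (log (zInv (ent m) h / zInv (entBar m d) h))
      ≤ ellGap m d * (2 * log 2 + log (zInv (entBar m d) h) / 2)
        + corA (ent m) (ell m) * (log 2 * h) / 2 *
            (zInv (ent m) h - zInv (entBar m d) h - log (zInv (ent m) h / zInv (entBar m d) h))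
        + 0.645 * (log 2 * h) * (zInv (entBar m d) h - 1 - log (zInv (entBar m d) h))
            * min (corA (ent m) (ell m) - corA (entBar m d) (ell m + ellGap m d)) 0

theorem elemOne_of_parts (hc : ChordAll) (hv : VertexAll) (hz : VertexZero) (hh : ElemHigh) :
    ElemOne := by
  intro m d h hm hd hd1 h0 hlt
  rcases le_total m (3 / 8) with hs | hs
  · exact elemOne_low hc hv hz hm hs hd hd1 h0 hlt
  · exact hh m d h hs hd hd1 h0 hlt

/-- `I(f X; Y) ≤ 1 - h₂ ε` in bits, from the remaining pieces. -/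
theorem courtadeKumar_of_parts (em : ElemM) (hc : ChordAll) (hv : VertexAll) (hz : VertexZero)
    (hh : ElemHigh) (n : ℕ) (f : (Fin n → Bool) → Bool) (ε : ℝ)
    (hε : ε ∈ Set.Icc (0:ℝ) (1 / 2)) :
    mutualInfo f ε ≤ 1 - binEntropy ε / log 2 :=
  courtadeKumar_of_elem em (elemOne_of_parts hc hv hz hh) n f ε hε

end Vale.Agent.P322
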