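import Vale.Agent.P322.ElemDefs

/-! Statements to which `ElemOne` is reduced for `m ≤ 3/8`. -/

noncomputable section

namespace Vale.Agent.P322

open Real

/-- Normalised lower bound for `ElemOne`: `t` stands for `ell m / ent m`, `w` for a lower bound of
`ellGap / (ent m * L)`, `L` for `log (ent m / entBar)` and `x` for `h / (entBar * ent m / log 2)`. -/
def lowP (t w L x : ℝ) : ℝ :=
  w * L * (2 * log 2 + log ((exp (-L) + x * (1 - exp (-L))) / x) / 2)
    + (1 - t) / 2 * ((1 - exp (-L)) * (1 + exp (-L) - exp (-L) * x)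
        - exp (-L) * x * (L - log (exp (-L) + x * (1 - exp (-L)))))
    - t * eBd (L - log (exp (-L) + x * (1 - exp (-L))))

/-- `lowP t w` is nonnegative for `L ≤ L1`. -/
def VertexOK (t w L1 : ℝ) : Prop :=
  ∀ L x : ℝ, 0 < L → L ≤ L1 → 0 < x → x ≤ 1 → 0 ≤ lowP t w L x

/-- The six vertices. -/
def VertexAll : Prop :=
  VertexOK 0.986 0.642 3.25 ∧ VertexOK 0.918 0.591 3.25 ∧ VertexOK 0.919 0.553 1.85 ∧
    VertexOK 0.769 0.4385 1.85 ∧ VertexOK 0.770 0.4145 1.06 ∧ VertexOK 0.603 0.2895 1.06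

/-- The vertex near `m = 0`: here `w = t / (2 log 2)` and the correlation term is dropped. -/
def VertexZero : Prop :=
  ∀ L x : ℝ, 0 < L → 0 < x → x ≤ 1 → eBd (L - log (exp (-L) + x * (1 - exp (-L)))) ≤
    L / (2 * log 2) * (2 * log 2 + log ((exp (-L) + x * (1 - exp (-L))) / x) / 2)

/-- Linear interpolation of `(ta, wa)` and `(tb, wb)` at `t`. -/
def wLine (ta wa tb wb t : ℝ) : ℝ := wb + (wa - wb) * (t - tb) / (ta - tb)

/-- `ellGap` dominates the logarithmic entropy drop on `[ma, mb]` with coefficient `w`. -/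
def ChordOK (ma mb : ℝ) (w : ℝ → ℝ) : Prop :=
  ∀ m d : ℝ, ma ≤ m → m ≤ mb → 0 < d → d < 1 - m →
    w (ell m / ent m) * ent m * log (ent m / entBar m d) ≤ ellGap m d

/-- The chord bounds on the four intervals. -/
def ChordAll : Prop :=
  ChordOK 0 (1 / 100) (fun t => t / (2 * log 2)) ∧
    ChordOK (1 / 100) (3 / 50) (wLine 0.986 0.642 0.918 0.591) ∧
    ChordOK (3 / 50) (19 / 100) (wLine 0.919 0.553 0.769 0.4385) ∧
    ChordOK (19 / 100) (3 / 8) (wLine 0.770 0.4145 0.603 0.2895)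

end Vale.Agent.P322
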