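import Vale.Agent.P322.Base
import Vale.Agent.P322.LowDefs

/-!
The chord bounds `ChordAll`.  In `S = (d / (1 + m)) ^ 2` the mean entropy lies above its chord
(monotonicity of `phi x / x ^ 2`) and `(1 - S) ^ c` is convex for `1 ≤ c`, so only the corner
`d = 1 - m` remains; there the inequality is checked by chords on seven subintervals of `m`.
-/

noncomputable section

namespace Vale.Agent.P322

open Real Set

lemma log_bds (k : ℕ) {x r lo hi : ℝ} (hr0 : 0 ≤ r) (hr1 : r < 1)
    (hx : x * 2 ^ k * (1 - r) = 1 + r)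
    (hlo : lo ≤ 2 * (∑ i ∈ Finset.range 7, r ^ (2 * i + 1) / (2 * i + 1)) - k * 0.6931471808)
    (hhi : 2 * ((∑ i ∈ Finset.range 7, r ^ (2 * i + 1) / (2 * i + 1))
      + r ^ (2 * 7 + 1) / (1 - r ^ 2)) - k * 0.6931471803 ≤ hi) :
    lo ≤ log x ∧ log x ≤ hi := by
  have h1 := sum_range_le_log_div hr0 hr1 7
  have h2 := log_div_le_sum_range_add hr0 hr1 7
  have hy : (1 + r) / (1 - r) = x * 2 ^ k := by
    rw [div_eq_iff (by linarith)]; linarith
  have hk : (0:ℝ) ≤ k := Nat.cast_nonneg k
  have g := log_two_gt_d9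
  have g' := log_two_lt_d9
  have hx0 : x ≠ 0 := by rintro rfl; linarith
  rw [hy, log_mul hx0 (by positivity), log_pow] at h1 h2
  constructor <;> nlinarith

lemma ent_eq_log {x : ℝ} (hx : x ∈ Ioo (-1:ℝ) 1) :
    ent x = log 2 - ((1 + x) * log (1 + x) + (1 - x) * log (1 - x)) / 2 := by
  unfold ent
  rw [binEntropy, show 1 - (1 + x) / 2 = (1 - x) / 2 by ring, log_inv, log_inv,
    log_div (by linarith [hx.1]) (by norm_num), log_div (by linarith [hx.2]) (by norm_num)]
  ring

lemma ell_eq_log {x : ℝ} (hx : -1 < x) : ell x = log 2 - log (1 + x) := by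
  unfold ell
  rw [log_div (by linarith) (by norm_num)]
  ring

lemma ellGap_eq {m d : ℝ} (hm : 0 ≤ m) (h0 : 0 < d) (h1 : d < 1 - m) :
    ellGap m d = -log (1 - (d / (1 + m)) ^ 2) / 2 := by
  have a1 : (0:ℝ) < 1 + m := by linarith
  rw [ellGap, ell_eq_log (by linarith), ell_eq_log (by linarith), ell_eq_log (by linarith),
    show 1 - (d / (1 + m)) ^ 2 = (1 + (m + d)) * (1 + (m - d)) / ((1 + m) * (1 + m)) by
      field_simp; ring,
    log_div (mul_ne_zero (by linarith) (by linarith)) (mul_ne_zero a1.ne' a1.ne'),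
    log_mul (by linarith) (by linarith), log_mul a1.ne' a1.ne']
  ring

lemma entBar_eq (m d : ℝ) : entBar m d = ent m - gapG m d := by
  unfold entBar gapG phi
  ring

lemma phi_corner {m : ℝ} (hm : 0 < m) (hm1 : m < 1) :
    (1 + m) / 2 * phi ((1 - m) / (1 + m)) + (1 - m) / 2 * log 2 = ent m - binEntropy m / 2 := by
  have a1 : (0:ℝ) < 1 + m := by linarith
  have hp : (1 - m) / (1 + m) ∈ Ioo (-1:ℝ) 1 := by
    constructor
    · linarith [show 0 < (1 - m) / (1 + m) from div_pos (by linarith) a1]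
    · rw [div_lt_one a1]; linarith
  rw [phi, ent_eq_log hp, ent_eq_log ⟨by linarith, hm1⟩, binEntropy, log_inv, log_inv,
    show 1 + (1 - m) / (1 + m) = 2 / (1 + m) by field_simp; ring,
    show 1 - (1 - m) / (1 + m) = 2 * m / (1 + m) by field_simp; ring,
    log_div (by norm_num) a1.ne', log_div (by positivity) a1.ne',
    log_mul (by norm_num) hm.ne']
  field_simp
  ring

lemma binEntropy_le_two_ent {m : ℝ} (hm : 0 ≤ m) (hm1 : m ≤ 1) :
    binEntropy m / 2 ≤ ent m := by
  have h := strictConcave_binEntropy.concaveOn.2 (show m ∈ Icc (0:ℝ) 1 from ⟨hm, hm1⟩)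
    (show (1:ℝ) ∈ Icc (0:ℝ) 1 from ⟨zero_le_one, le_rfl⟩) 
    (show (0:ℝ) ≤ 1 / 2 by norm_num) (show (0:ℝ) ≤ 1 / 2 by norm_num) (by norm_num)
  simp only [smul_eq_mul, binEntropy_one] at h
  rw [show (1:ℝ) / 2 * m + 1 / 2 * 1 = (1 + m) / 2 by ring] at h
  unfold ent
  linarith

/-- The mean entropy lies above its chord in `d ^ 2`. -/
lemma entBar_ge_chord {m d : ℝ} (hm : 0 ≤ m) (h0 : 0 < d) (h1 : d < 1 - m) :
    (1 - (d / (1 - m)) ^ 2) * ent m + (d / (1 - m)) ^ 2 * (binEntropy m / 2) ≤ entBar m d := by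
  have a1 : (0:ℝ) < 1 + m := by linarith
  have a2 : (0:ℝ) < 1 - m := by linarith
  have hl := log_two_pos'
  have hn : d / (1 - m) < 1 := by rw [div_lt_one a2]; linarith
  have hp : d / (1 + m) < 1 := by rw [div_lt_one a1]; linarith
  have hn2 := phi_le_log_two_sq (x := d / (1 - m))
    ⟨by linarith [show 0 < d / (1 - m) from div_pos h0 a2], hn.le⟩
  rw [entBar_eq, gapG_eq hm h0 h1]
  rcases eq_or_lt_of_le hm with hm0 | hm0
  · subst hm0
    norm_num at hn2 ⊢
    have : ent 0 = log 2 := ent_zero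
    nlinarith
  · have hpc : (1 - m) / (1 + m) < 1 := by rw [div_lt_one a1]; linarith
    have hmono := phi_div_sq_mono (x := d / (1 + m)) (y := (1 - m) / (1 + m)) (div_pos h0 a1)
      (div_le_div_of_nonneg_right h1.le a1.le) hpc
    have hpb : phi (d / (1 + m)) ≤ (d / (1 - m)) ^ 2 * phi ((1 - m) / (1 + m)) := by
      have e : (d / (1 + m)) ^ 2 = (d / (1 - m)) ^ 2 * ((1 - m) / (1 + m)) ^ 2 := by field_simp
      rw [e] at hmono
      have hy : 0 < ((1 - m) / (1 + m)) ^ 2 := by positivity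
      nlinarith
    nlinarith [phi_corner hm0 (show m < 1 by linarith),
      mul_le_mul_of_nonneg_left hpb (show 0 ≤ (1 + m) / 2 by positivity),
      mul_le_mul_of_nonneg_left hn2 (show 0 ≤ (1 - m) / 2 by positivity)]

lemma entBar_le_ent {m d : ℝ} (hm : 0 ≤ m) (h0 : 0 < d) (h1 : d < 1 - m) :
    entBar m d ≤ ent m := by
  have h := ent_concaveOn.2 (show m + d ∈ Icc (-1:ℝ) 1 from ⟨by linarith, by linarith⟩)
    (show m - d ∈ Icc (-1:ℝ) 1 from ⟨by linarith, by linarith⟩) 
    (show (0:ℝ) ≤ 1 / 2 by norm_num) (show (0:ℝ) ≤ 1 / 2 by norm_num) (by norm_num)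
  simp only [smul_eq_mul] at h
  rw [show (1:ℝ) / 2 * (m + d) + 1 / 2 * (m - d) = m by ring] at h
  unfold entBar
  linarith

/-- The corner inequality suffices. -/
lemma chord_of_corner {m d W : ℝ} (hm : 0 < m) (h0 : 0 < d) (h1 : d < 1 - m) (hW1 : W ≤ 1 / 2)
    (hc : W * (log (2 * ent m) - log (binEntropy m)) ≤ -log m / 2 - ell m) :
    W * log (ent m / entBar m d) ≤ ellGap m d := by
  have a1 : (0:ℝ) < 1 + m := by linarith
  have a2 : (0:ℝ) < 1 - m := by linarith
  have hm1 : m < 1 := by linarith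
  have hH : 0 < ent m := ent_pos ⟨by linarith, hm1⟩
  have hB : 0 < entBar m d := by
    have e1 := ent_pos (x := m + d) ⟨by linarith, by linarith⟩
    have e2 := ent_pos (x := m - d) ⟨by linarith, by linarith⟩
    unfold entBar; linarith
  have hL : 0 ≤ log (ent m / entBar m d) :=
    log_nonneg (by rw [le_div_iff₀ hB, one_mul]; exact entBar_le_ent hm.le h0 h1)
  have hp : d / (1 + m) < 1 := by rw [div_lt_one a1]; linarith
  have hs : (d / (1 + m)) ^ 2 < 1 := by
    have := div_pos h0 a1; nlinarith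
  rw [ellGap_eq hm.le h0 h1]
  have hsneg : log (1 - (d / (1 + m)) ^ 2) ≤ 0 :=
    log_nonpos (by linarith) (by nlinarith [sq_nonneg (d / (1 + m))])
  rcases le_or_gt W 0 with hW | hW
  · nlinarith
  · set c : ℝ := 1 / (2 * W) with hcdef
    have hc1 : 1 ≤ c := by rw [hcdef, le_div_iff₀ (by positivity)]; linarith
    set b : ℝ := 4 * m / (1 + m) ^ 2 with hb
    have hb0 : 0 < b := by positivity
    have hh : 0 < binEntropy m := binEntropy_pos hm hm1
    set s : ℝ := (d / (1 - m)) ^ 2 with hsdef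
    have hs0 : 0 ≤ s := sq_nonneg _
    have hs1 : s ≤ 1 := by
      have : d / (1 - m) < 1 := by rw [div_lt_one a2]; linarith
      have := div_pos h0 a2
      rw [hsdef]; nlinarith
    have hlb : log b / 2 = log 2 + log m / 2 - log (1 + m) := by
      rw [hb, show 4 * m / (1 + m) ^ 2 = 2 * 2 * m / ((1 + m) * (1 + m)) by ring,
        log_div (by positivity) (by positivity), log_mul (by norm_num) hm.ne',
        log_mul (by norm_num) (by norm_num), log_mul a1.ne' a1.ne']
      ring
    have hcor : ent m * b ^ c ≤ binEntropy m / 2 := by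
      rw [← log_le_log_iff (by positivity) (by positivity),
        log_mul hH.ne' (rpow_pos_of_pos hb0 c).ne', log_rpow hb0,
        log_div hh.ne' (by norm_num)]
      rw [log_mul (by norm_num) hH.ne', ell_eq_log (by linarith)] at hc
      have e : c * W = 1 / 2 := by rw [hcdef]; field_simp
      have h2 := mul_le_mul_of_nonneg_left hc (show 0 ≤ c by linarith)
      rw [← mul_assoc, e] at h2
      have h3 : c * (log b / 2) = c * (log 2 + log m / 2 - log (1 + m)) := by rw [hlb]
      linarith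
    have hconv := (convexOn_rpow hc1).2 (show (1:ℝ) ∈ Ici (0:ℝ) from mem_Ici.mpr zero_le_one)
      (show b ∈ Ici (0:ℝ) from hb0.le) (sub_nonneg.mpr hs1) hs0 (by ring)
    simp only [smul_eq_mul, one_rpow] at hconv
    rw [show (1 - s) * 1 + s * b = 1 - (d / (1 + m)) ^ 2 by
      rw [hsdef, hb]; field_simp; ring] at hconv
    have hkey : ent m * (1 - (d / (1 + m)) ^ 2) ^ c ≤ entBar m d := by
      have h := entBar_ge_chord hm.le h0 h1
      nlinarith [mul_le_mul_of_nonneg_left hconv hH.le, mul_le_mul_of_nonneg_left hcor hs0]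
    have hpos : 0 < 1 - (d / (1 + m)) ^ 2 := by linarith
    have hlog := log_le_log (mul_pos hH (rpow_pos_of_pos hpos c)) hkey
    rw [log_mul hH.ne' (rpow_pos_of_pos hpos c).ne', log_rpow hpos] at hlog
    rw [log_div hH.ne' hB.ne']
    calc W * (log (ent m) - log (entBar m d))
        ≤ W * (-(c * log (1 - (d / (1 + m)) ^ 2))) :=
          mul_le_mul_of_nonneg_left (by linarith) hW.le
      _ = -log (1 - (d / (1 + m)) ^ 2) / 2 := by rw [hcdef]; field_simp

lemma chord_zero : ChordOK 0 (1 / 100) (fun t => t / (2 * log 2)) := by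
  intro m d hm hmb h0 h1
  have a1 : (0:ℝ) < 1 + m := by linarith
  have a2 : (0:ℝ) < 1 - m := by linarith
  have hl := log_two_pos'
  have hH : 0 < ent m := ent_pos ⟨by linarith, by linarith⟩
  have hB : 0 < entBar m d := by
    have e1 := ent_pos (x := m + d) ⟨by linarith, by linarith⟩
    have e2 := ent_pos (x := m - d) ⟨by linarith, by linarith⟩
    unfold entBar; linarith
  have hL : 0 ≤ log (ent m / entBar m d) :=
    log_nonneg (by rw [le_div_iff₀ hB, one_mul]; exact entBar_le_ent hm h0 h1)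
  have hE : ell m ≤ log 2 := by
    rw [ell_eq_log (by linarith)]; linarith [log_nonneg (show (1:ℝ) ≤ 1 + m by linarith)]
  have hp : d / (1 + m) < 1 := by rw [div_lt_one a1]; linarith
  have hp0 := div_pos h0 a1
  have hcor : ent m * (4 * m / (1 + m) ^ 2) ≤ binEntropy m / 2 := by
    rcases eq_or_lt_of_le hm with hm0 | hm0
    · subst hm0; simp
    · have h4 : log m ≤ -4.6 := by
        have h := log_le_log hm0 hmb
        have e : log (1 / 100 : ℝ) ≤ -4.6 := by
          obtain ⟨-, h2⟩ := log_bds 7 (x := (1/100:ℝ)) (r := 7/57) (lo := -5) (hi := -4.6)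
            (by norm_num) (by norm_num) (by norm_num)
            (by norm_num [Finset.sum_range_succ]) (by norm_num [Finset.sum_range_succ])
          exact h2
        linarith
      have h5 : m ≤ -log (1 - m) := by linarith [log_le_sub_one_of_pos a2]
      have h6 : m * 4.6 + (1 - m) * m ≤ binEntropy m := by
        rw [binEntropy, log_inv, log_inv]
        nlinarith
      have h7 := ent_le m
      have h8 : 4 * m / (1 + m) ^ 2 ≤ 4 * m := div_le_self (by positivity) (by nlinarith)
      nlinarith [log_two_lt_d9, mul_le_mul h7 h8 (by positivity) hl.le]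
  have hch := entBar_ge_chord hm h0 h1
  have hkey : ent m * (1 - (d / (1 + m)) ^ 2) ≤ entBar m d := by
    have e : 1 - (d / (1 + m)) ^ 2
        = (1 - (d / (1 - m)) ^ 2) + (d / (1 - m)) ^ 2 * (4 * m / (1 + m) ^ 2) := by
      field_simp; ring
    rw [e]
    nlinarith [mul_le_mul_of_nonneg_left hcor (sq_nonneg (d / (1 - m)))]
  have hlog : log (ent m / entBar m d) ≤ -log (1 - (d / (1 + m)) ^ 2) := by
    have hpos : 0 < 1 - (d / (1 + m)) ^ 2 := by nlinarith
    rw [← log_inv]
    refine log_le_log (div_pos hH hB) ?_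
    rw [inv_eq_one_div, div_le_div_iff₀ hB hpos, one_mul]
    linarith
  rw [ellGap_eq hm h0 h1]
  calc ell m / ent m / (2 * log 2) * ent m * log (ent m / entBar m d)
      = ell m / (2 * log 2) * log (ent m / entBar m d) := by field_simp
    _ ≤ 1 / 2 * log (ent m / entBar m d) := by
        refine mul_le_mul_of_nonneg_right ?_ hL
        rw [div_le_iff₀ (by positivity)]; linarith
    _ ≤ _ := by linarith

/-- Bounds at a node. -/
structure NodeOK (u Hlo Ehi LH lh : ℝ) : Prop where
  pos : 0 < u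
  le : u ≤ 1 / 2
  Hlo : Hlo ≤ ent u
  Ehi : ell u ≤ Ehi
  LH : log (2 * ent u) ≤ LH
  lh : lh ≤ log (binEntropy u)

lemma node_mk {u lp hp la ha lb hb Hlo Hhi Ehi LH hlo lh : ℝ} (h0 : 0 < u) (h1 : u ≤ 1 / 2)
    (lu : lp ≤ log u ∧ log u ≤ hp) (l1 : la ≤ log (1 + u) ∧ log (1 + u) ≤ ha)
    (l2 : lb ≤ log (1 - u) ∧ log (1 - u) ≤ hb)
    (e1 : Hlo ≤ 0.6931471803 - ((1 + u) * ha + (1 - u) * hb) / 2)
    (e2 : 0.6931471808 - ((1 + u) * la + (1 - u) * lb) / 2 ≤ Hhi)
    (e3 : 0.6931471808 - la ≤ Ehi)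
    (e4 : hlo ≤ -(u * hp) - (1 - u) * hb) (e5 : 0 < hlo)
    (e6 : log (2 * Hhi) ≤ LH) (e7 : lh ≤ log hlo) : NodeOK u Hlo Ehi LH lh := by
  have g := log_two_gt_d9
  have g' := log_two_lt_d9
  have he := ent_eq_log (x := u) ⟨by linarith, by linarith⟩
  have hu1 : 0 ≤ 1 - u := by linarith
  have hu2 : 0 ≤ 1 + u := by linarith
  refine ⟨h0, h1, ?_, ?_, ?_, ?_⟩
  · rw [he]; nlinarith
  · rw [ell_eq_log (by linarith)]; linarith
  · refine le_trans (log_le_log (mul_pos two_pos (ent_pos ⟨by linarith, by linarith⟩)) ?_) e6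
    rw [he]; nlinarith
  · refine le_trans e7 (log_le_log e5 ?_)
    rw [binEntropy, log_inv, log_inv]
    nlinarith

lemma ent_tangent {u m : ℝ} (hu0 : 0 ≤ u) (hu : u ≤ m) (hm : m < 1) :
    ent m ≤ ent u - u * (m - u) := by
  have hd : ∀ x ∈ Icc u m, HasDerivAt (fun x => -ent x - u * x) (artanh x - u * 1) x := by
    intro x hx
    have := (hasDerivAt_ent (x := x) ⟨by linarith [hx.1], by linarith [hx.2]⟩).neg
    rw [neg_neg] at this
    exact this.sub ((hasDerivAt_id x).const_mul u)
  have h := monotoneOn_of_hasDerivWithinAt_nonneg (convex_Icc u m)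
    (fun x hx => (hd x hx).continuousAt.continuousWithinAt)
    (fun x hx => (hd x (interior_subset hx)).hasDerivWithinAt)
    (fun x hx => by
      have hx' := interior_subset hx
      have hxI : x ∈ Ioo (-1:ℝ) 1 := ⟨by linarith [hx'.1], by linarith [hx'.2]⟩
      have h2 : x ≤ artanh x := by
        rw [artanh_eq_half_log_sub hxI]
        have h3 := sum_range_le_log_div (x := x) (by linarith [hx'.1]) hxI.2 1
        rw [log_div (by linarith [hxI.1]) (by linarith [hxI.2])] at h3
        simp at h3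
        linarith
      linarith [hx'.1])
    ⟨le_rfl, hu⟩ ⟨hu, le_rfl⟩ hu
  simp only at h
  linarith

lemma ell_chord {u v s : ℝ} (hu : -1 < u) (hv : -1 < v) (h0 : 0 ≤ s) (h1 : 0 ≤ 1 - s) :
    ell ((1 - s) * u + s * v) ≤ (1 - s) * ell u + s * ell v := by
  have h := strictConcaveOn_log_Ioi.concaveOn.2
    (mem_Ioi.mpr (show 0 < (1 + u) / 2 by linarith))
    (mem_Ioi.mpr (show 0 < (1 + v) / 2 by linarith)) h1 h0 (by ring)
  simp only [smul_eq_mul] at h
  rw [show (1 - s) * ((1 + u) / 2) + s * ((1 + v) / 2) = (1 + ((1 - s) * u + s * v)) / 2 by ring]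
    at h
  unfold ell
  linarith

lemma logh_chord {u v s : ℝ} (hu : 0 < u) (hu1 : u < 1) (hv : 0 < v) (hv1 : v < 1) (h0 : 0 ≤ s)
    (h1 : 0 ≤ 1 - s) :
    (1 - s) * log (binEntropy u) + s * log (binEntropy v)
      ≤ log (binEntropy ((1 - s) * u + s * v)) := by
  have hbu := binEntropy_pos hu hu1
  have hbv := binEntropy_pos hv hv1
  have hpos : 0 < (1 - s) * binEntropy u + s * binEntropy v := by
    rcases eq_or_lt_of_le h0 with h | h
    · rw [← h]; linarith
    · linarith [mul_pos h hbv, mul_nonneg h1 hbu.le]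
  have h2 : (1 - s) * log (binEntropy u) + s * log (binEntropy v)
      ≤ log ((1 - s) * binEntropy u + s * binEntropy v) := by
    simpa using strictConcaveOn_log_Ioi.concaveOn.2 (mem_Ioi.mpr hbu) (mem_Ioi.mpr hbv) h1 h0
      (by ring)
  refine h2.trans (log_le_log hpos ?_)
  simpa using strictConcave_binEntropy.concaveOn.2 (show u ∈ Icc (0:ℝ) 1 from ⟨hu.le, hu1.le⟩)
    (show v ∈ Icc (0:ℝ) 1 from ⟨hv.le, hv1.le⟩) h1 h0 (by ring)

lemma mul_chord {a b c d s : ℝ} (h0 : 0 ≤ s) (h1 : 0 ≤ 1 - s) (hab : b ≤ a) (hcd : d ≤ c) :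
    ((1 - s) * a + s * b) * ((1 - s) * c + s * d) ≤ (1 - s) * (a * c) + s * (b * d) := by
  nlinarith [mul_nonneg (mul_nonneg h0 h1) (mul_nonneg (sub_nonneg.mpr hab) (sub_nonneg.mpr hcd))]

/-- A chord piece of the corner inequality. -/
lemma piece {a0 a1 u v Hu Eu LHu lhu Hv Ev LHv lhv p lp Wu Wv Lu Lv : ℝ}
    (nu : NodeOK u Hu Eu LHu lhu) (nv : NodeOK v Hv Ev LHv lhv) (huv : u < v)
    (ha0 : a0 ≤ 0) (ha1 : 0 ≤ a1) (hp : 0 < p) (hlp : log p ≤ lp)
    (w1 : a0 * Hu + a1 * Eu ≤ Wu) (w2 : a0 * Hv + a1 * Ev ≤ Wv) (w3 : Wv ≤ Wu) (w4 : 0 ≤ Wv)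
    (w5 : Wu ≤ 1 / 2)
    (k1 : LHu - lhu ≤ Lu) (k2 : LHu - u * (v - u) / 0.6931471808 - lhv ≤ Lv) (k3 : Lv ≤ Lu)
    (d1 : Wu * Lu ≤ -(lp + (u - p) / p) / 2 - Eu)
    (d2 : Wv * Lv ≤ -(lp + (v - p) / p) / 2 - Ev)
    {m : ℝ} (hu : u ≤ m) (hv : m ≤ v) :
    a0 * ent m + a1 * ell m ≤ 1 / 2 ∧
      (a0 * ent m + a1 * ell m) * (log (2 * ent m) - log (binEntropy m)) ≤ -log m / 2 - ell m := by
  have u0 := nu.pos
  have v1 := nv.le
  have hm0 : 0 < m := by linarith
  obtain ⟨s, hs0, hs1, rfl⟩ : ∃ s, 0 ≤ s ∧ s ≤ 1 ∧ (1 - s) * u + s * v = m :=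
    ⟨(m - u) / (v - u), div_nonneg (by linarith) (by linarith),
      by rw [div_le_one (by linarith)]; linarith,
      by field_simp [sub_ne_zero.mpr huv.ne']; ring⟩
  have hs' : 0 ≤ 1 - s := by linarith
  set m := (1 - s) * u + s * v with hm
  have hH : 0 < ent m := ent_pos ⟨by linarith, by linarith⟩
  have hh : 0 < binEntropy m := binEntropy_pos hm0 (by linarith)
  have hHu : 0 < ent u := ent_pos ⟨by linarith, by linarith⟩
  have cH : (1 - s) * ent u + s * ent v ≤ ent m :=
    ent_concaveOn.2 (show u ∈ Icc (-1:ℝ) 1 from ⟨by linarith, by linarith⟩)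
      (show v ∈ Icc (-1:ℝ) 1 from ⟨by linarith, by linarith⟩) hs' hs0 (by ring)
  have cE : ell m ≤ (1 - s) * ell u + s * ell v := ell_chord (by linarith) (by linarith) hs0 hs'
  have ch : (1 - s) * log (binEntropy u) + s * log (binEntropy v) ≤ log (binEntropy m) :=
    logh_chord u0 (by linarith) nv.pos (by linarith) hs0 hs'
  have cT : ent m ≤ ent u - u * (m - u) := ent_tangent u0.le hu (by linarith)
  have cL : log (2 * ent m) ≤ LHu - u * (m - u) / 0.6931471808 := by
    have h1 := log_le_sub_one_of_pos (div_pos hH hHu)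
    rw [log_div hH.ne' hHu.ne'] at h1
    have h2 : ent m / ent u - 1 ≤ -(u * (m - u)) / ent u := by
      rw [div_sub_one hHu.ne', div_le_div_iff_of_pos_right hHu]; linarith
    have h3 : u * (m - u) / 0.6931471808 ≤ u * (m - u) / ent u :=
      div_le_div_of_nonneg_left (mul_nonneg u0.le (by linarith)) hHu
        ((ent_le u).trans log_two_lt_d9.le)
    have e := nu.LH
    rw [log_mul two_ne_zero hHu.ne'] at e
    rw [log_mul two_ne_zero hH.ne']
    rw [neg_div] at h2
    linarith
  have hW : a0 * ent m + a1 * ell m ≤ (1 - s) * Wu + s * Wv := by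
    have hu2 : a0 * ent u + a1 * ell u ≤ Wu := le_trans (add_le_add
      (mul_le_mul_of_nonpos_left nu.Hlo ha0) (mul_le_mul_of_nonneg_left nu.Ehi ha1)) w1
    have hv2 : a0 * ent v + a1 * ell v ≤ Wv := le_trans (add_le_add
      (mul_le_mul_of_nonpos_left nv.Hlo ha0) (mul_le_mul_of_nonneg_left nv.Ehi ha1)) w2
    linarith [mul_le_mul_of_nonpos_left cH ha0, mul_le_mul_of_nonneg_left cE ha1,
      mul_le_mul_of_nonneg_left hu2 hs', mul_le_mul_of_nonneg_left hv2 hs0]
  refine ⟨?_, ?_⟩
  · linarith [mul_le_mul_of_nonneg_left w3 hs0]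
  set L := log (2 * ent m) - log (binEntropy m) with hLdef
  have hL0 : 0 ≤ L := by
    have := log_le_log hh (show binEntropy m ≤ 2 * ent m by
      linarith [binEntropy_le_two_ent hm0.le (show m ≤ 1 by linarith)])
    linarith
  have hLle : L ≤ (1 - s) * Lu + s * Lv := by
    have e : u * (m - u) / 0.6931471808 = s * (u * (v - u) / 0.6931471808) := by rw [hm]; ring
    rw [e] at cL
    linarith [mul_le_mul_of_nonneg_left nu.lh hs', mul_le_mul_of_nonneg_left nv.lh hs0,
      mul_le_mul_of_nonneg_left k1 hs', mul_le_mul_of_nonneg_left k2 hs0]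
  have hD : log m ≤ lp + (m - p) / p := by
    have h1 := log_le_sub_one_of_pos (div_pos hm0 hp)
    rw [log_div hm0.ne' hp.ne', div_sub_one hp.ne'] at h1
    linarith
  have e : (m - p) / p = (1 - s) * ((u - p) / p) + s * ((v - p) / p) := by rw [hm]; ring
  have hW0 : 0 ≤ (1 - s) * Wu + s * Wv :=
    add_nonneg (mul_nonneg hs' (by linarith)) (mul_nonneg hs0 w4)
  calc (a0 * ent m + a1 * ell m) * L ≤ ((1 - s) * Wu + s * Wv) * L :=
        mul_le_mul_of_nonneg_right hW hL0
    _ ≤ ((1 - s) * Wu + s * Wv) * ((1 - s) * Lu + s * Lv) := mul_le_mul_of_nonneg_left hLle hW0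
    _ ≤ (1 - s) * (Wu * Lu) + s * (Wv * Lv) := mul_chord hs0 hs' w3 k3
    _ ≤ (1 - s) * (-(lp + (u - p) / p) / 2 - Eu) + s * (-(lp + (v - p) / p) / 2 - Ev) := by gcongr
    _ ≤ _ := by
        have := mul_le_mul_of_nonneg_left nu.Ehi hs'
        have := mul_le_mul_of_nonneg_left nv.Ehi hs0
        linarith

lemma node0 : NodeOK (1/100 : ℝ) (138619/200000 : ℝ) (683199/1000000 : ℝ) (163283/500000 : ℝ) (-1441211/500000 : ℝ) := by
  refine node_mk (Hhi := (693099/1000000 : ℝ)) (hlo := (55999/1000000 : ℝ)) (by norm_num) (by norm_num)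
    (log_bds 7 (x := (1/100 : ℝ)) (r := (7/57 : ℝ)) (lo := (-4605171/1000000 : ℝ)) (hi := (-4605169/1000000 : ℝ)) (by norm_num) (by norm_num)
      (by norm_num) (by norm_num [Finset.sum_range_succ]) (by norm_num [Finset.sum_range_succ]))
    (by have := (log_bds 0 (x := (101/100 : ℝ)) (r := (1/201 : ℝ)) (lo := (9949/1000000 : ℝ)) (hi := (9951/1000000 : ℝ)) (by norm_num) (by norm_num)
      (by norm_num) (by norm_num [Finset.sum_range_succ]) (by norm_num [Finset.sum_range_succ])); convert this using 3 <;> norm_num)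
    (by have := (log_bds 1 (x := (99/100 : ℝ)) (r := (49/149 : ℝ)) (lo := (-10051/1000000 : ℝ)) (hi := (-10049/1000000 : ℝ)) (by norm_num) (by norm_num)
      (by norm_num) (by norm_num [Finset.sum_range_succ]) (by norm_num [Finset.sum_range_succ])); convert this using 3 <;> norm_num)
    (by norm_num) (by norm_num) (by norm_num) (by norm_num) (by norm_num)
    (by have := (log_bds 0 (x := (693099/500000 : ℝ)) (r := (193099/1193099 : ℝ)) (lo := (81641/250000 : ℝ)) (hi := (163283/500000 : ℝ)) (by norm_num) (by norm_num)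
      (by norm_num) (by norm_num [Finset.sum_range_succ]) (by norm_num [Finset.sum_range_succ])).2; convert this using 2; norm_num)
    (log_bds 5 (x := (55999/1000000 : ℝ)) (r := (24749/87249 : ℝ)) (lo := (-1441211/500000 : ℝ)) (hi := (-144121/50000 : ℝ)) (by norm_num) (by norm_num)
      (by norm_num) (by norm_num [Finset.sum_range_succ]) (by norm_num [Finset.sum_range_succ])).1

lemma node1 : NodeOK (1/50 : ℝ) (138589/200000 : ℝ) (336673/500000 : ℝ) (326349/1000000 : ℝ) (-2322411/1000000 : ℝ) := by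
  refine node_mk (Hhi := (692949/1000000 : ℝ)) (hlo := (98037/1000000 : ℝ)) (by norm_num) (by norm_num)
    (log_bds 6 (x := (1/50 : ℝ)) (r := (7/57 : ℝ)) (lo := (-489003/125000 : ℝ)) (hi := (-1956011/500000 : ℝ)) (by norm_num) (by norm_num)
      (by norm_num) (by norm_num [Finset.sum_range_succ]) (by norm_num [Finset.sum_range_succ]))
    (by have := (log_bds 0 (x := (51/50 : ℝ)) (r := (1/101 : ℝ)) (lo := (9901/500000 : ℝ)) (hi := (4951/250000 : ℝ)) (by norm_num) (by norm_num)
      (by norm_num) (by norm_num [Finset.sum_range_succ]) (by norm_num [Finset.sum_range_succ])); convert this using 3 <;> norm_num)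
    (by have := (log_bds 1 (x := (49/50 : ℝ)) (r := (12/37 : ℝ)) (lo := (-5051/250000 : ℝ)) (hi := (-10101/500000 : ℝ)) (by norm_num) (by norm_num)
      (by norm_num) (by norm_num [Finset.sum_range_succ]) (by norm_num [Finset.sum_range_succ])); convert this using 3 <;> norm_num)
    (by norm_num) (by norm_num) (by norm_num) (by norm_num) (by norm_num)
    (by have := (log_bds 0 (x := (692949/500000 : ℝ)) (r := (192949/1192949 : ℝ)) (lo := (326347/1000000 : ℝ)) (hi := (326349/1000000 : ℝ)) (by norm_num) (by norm_num)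
      (by norm_num) (by norm_num [Finset.sum_range_succ]) (by norm_num [Finset.sum_range_succ])).2; convert this using 2; norm_num)
    (log_bds 4 (x := (98037/1000000 : ℝ)) (r := (35537/160537 : ℝ)) (lo := (-2322411/1000000 : ℝ)) (hi := (-2322409/1000000 : ℝ)) (by norm_num) (by norm_num)
      (by norm_num) (by norm_num [Finset.sum_range_succ]) (by norm_num [Finset.sum_range_succ])).1

lemma node2 : NodeOK (3/50 : ℝ) (43209/62500 : ℝ) (1984/3125 : ℝ) (81009/250000 : ℝ) (-18537/12500 : ℝ) := by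
  refine node_mk (Hhi := (172837/250000 : ℝ)) (hlo := (45393/200000 : ℝ)) (by norm_num) (by norm_num)
    (log_bds 5 (x := (3/50 : ℝ)) (r := (23/73 : ℝ)) (lo := (-703353/250000 : ℝ)) (hi := (-281341/100000 : ℝ)) (by norm_num) (by norm_num)
      (by norm_num) (by norm_num [Finset.sum_range_succ]) (by norm_num [Finset.sum_range_succ]))
    (by have := (log_bds 0 (x := (53/50 : ℝ)) (r := (3/103 : ℝ)) (lo := (14567/250000 : ℝ)) (hi := (5827/100000 : ℝ)) (by norm_num) (by norm_num)
      (by norm_num) (by norm_num [Finset.sum_range_succ]) (by norm_num [Finset.sum_range_succ])); convert this using 3 <;> norm_num)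
    (by have := (log_bds 1 (x := (47/50 : ℝ)) (r := (11/36 : ℝ)) (lo := (-15469/250000 : ℝ)) (hi := (-30937/500000 : ℝ)) (by norm_num) (by norm_num)
      (by norm_num) (by norm_num [Finset.sum_range_succ]) (by norm_num [Finset.sum_range_succ])); convert this using 3 <;> norm_num)
    (by norm_num) (by norm_num) (by norm_num) (by norm_num) (by norm_num)
    (by have := (log_bds 0 (x := (172837/125000 : ℝ)) (r := (47837/297837 : ℝ)) (lo := (162017/500000 : ℝ)) (hi := (81009/250000 : ℝ)) (by norm_num) (by norm_num)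
      (by norm_num) (by norm_num [Finset.sum_range_succ]) (by norm_num [Finset.sum_range_succ])).2; convert this using 2; norm_num)
    (log_bds 3 (x := (45393/200000 : ℝ)) (r := (20393/70393 : ℝ)) (lo := (-18537/12500 : ℝ)) (hi := (-741479/500000 : ℝ)) (by norm_num) (by norm_num)
      (by norm_num) (by norm_num [Finset.sum_range_succ]) (by norm_num [Finset.sum_range_succ])).1

lemma node3 : NodeOK (11/100 : ℝ) (687083/1000000 : ℝ) (588789/1000000 : ℝ) (158927/500000 : ℝ) (-1059833/1000000 : ℝ) := by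
  refine node_mk (Hhi := (687087/1000000 : ℝ)) (hlo := (173257/500000 : ℝ)) (by norm_num) (by norm_num)
    (log_bds 4 (x := (11/100 : ℝ)) (r := (19/69 : ℝ)) (lo := (-551819/250000 : ℝ)) (hi := (-1103637/500000 : ℝ)) (by norm_num) (by norm_num)
      (by norm_num) (by norm_num [Finset.sum_range_succ]) (by norm_num [Finset.sum_range_succ]))
    (by have := (log_bds 0 (x := (111/100 : ℝ)) (r := (11/211 : ℝ)) (lo := (104359/1000000 : ℝ)) (hi := (104361/1000000 : ℝ)) (by norm_num) (by norm_num)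
      (by norm_num) (by norm_num [Finset.sum_range_succ]) (by norm_num [Finset.sum_range_succ])); convert this using 3 <;> norm_num)
    (by have := (log_bds 1 (x := (89/100 : ℝ)) (r := (39/139 : ℝ)) (lo := (-23307/200000 : ℝ)) (hi := (-116533/1000000 : ℝ)) (by norm_num) (by norm_num)
      (by norm_num) (by norm_num [Finset.sum_range_succ]) (by norm_num [Finset.sum_range_succ])); convert this using 3 <;> norm_num)
    (by norm_num) (by norm_num) (by norm_num) (by norm_num) (by norm_num)
    (by have := (log_bds 0 (x := (687087/500000 : ℝ)) (r := (187087/1187087 : ℝ)) (lo := (79463/250000 : ℝ)) (hi := (158927/500000 : ℝ)) (by norm_num) (by norm_num)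
      (by norm_num) (by norm_num [Finset.sum_range_succ]) (by norm_num [Finset.sum_range_succ])).2; convert this using 2; norm_num)
    (log_bds 2 (x := (173257/500000 : ℝ)) (r := (48257/298257 : ℝ)) (lo := (-1059833/1000000 : ℝ)) (hi := (-1059831/1000000 : ℝ)) (by norm_num) (by norm_num)
      (by norm_num) (by norm_num [Finset.sum_range_succ]) (by norm_num [Finset.sum_range_succ])).1

lemma node4 : NodeOK (19/100 : ℝ) (134997/200000 : ℝ) (129799/250000 : ℝ) (300089/1000000 : ℝ) (-721093/1000000 : ℝ) := by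
  refine node_mk (Hhi := (674989/1000000 : ℝ)) (hlo := (486221/1000000 : ℝ)) (by norm_num) (by norm_num)
    (log_bds 3 (x := (19/100 : ℝ)) (r := (13/63 : ℝ)) (lo := (-415183/250000 : ℝ)) (hi := (-166073/100000 : ℝ)) (by norm_num) (by norm_num)
      (by norm_num) (by norm_num [Finset.sum_range_succ]) (by norm_num [Finset.sum_range_succ]))
    (by have := (log_bds 0 (x := (119/100 : ℝ)) (r := (19/219 : ℝ)) (lo := (2718/15625 : ℝ)) (hi := (86977/500000 : ℝ)) (by norm_num) (by norm_num)
      (by norm_num) (by norm_num [Finset.sum_range_succ]) (by norm_num [Finset.sum_range_succ])); convert this using 3 <;> norm_num)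
    (by have := (log_bds 1 (x := (81/100 : ℝ)) (r := (31/131 : ℝ)) (lo := (-105361/500000 : ℝ)) (hi := (-1317/6250 : ℝ)) (by norm_num) (by norm_num)
      (by norm_num) (by norm_num [Finset.sum_range_succ]) (by norm_num [Finset.sum_range_succ])); convert this using 3 <;> norm_num)
    (by norm_num) (by norm_num) (by norm_num) (by norm_num) (by norm_num)
    (by have := (log_bds 0 (x := (674989/500000 : ℝ)) (r := (174989/1174989 : ℝ)) (lo := (300087/1000000 : ℝ)) (hi := (300089/1000000 : ℝ)) (by norm_num) (by norm_num)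
      (by norm_num) (by norm_num [Finset.sum_range_succ]) (by norm_num [Finset.sum_range_succ])).2; convert this using 2; norm_num)
    (log_bds 2 (x := (486221/1000000 : ℝ)) (r := (236221/736221 : ℝ)) (lo := (-721093/1000000 : ℝ)) (hi := (-721091/1000000 : ℝ)) (by norm_num) (by norm_num)
      (by norm_num) (by norm_num [Finset.sum_range_succ]) (by norm_num [Finset.sum_range_succ])).1

lemma node5 : NodeOK (7/25 : ℝ) (81677/125000 : ℝ) (446289/1000000 : ℝ) (267613/1000000 : ℝ) (-104529/200000 : ℝ) := by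
  refine node_mk (Hhi := (32671/50000 : ℝ)) (hlo := (592951/1000000 : ℝ)) (by norm_num) (by norm_num)
    (log_bds 2 (x := (7/25 : ℝ)) (r := (3/53 : ℝ)) (lo := (-1272967/1000000 : ℝ)) (hi := (-254593/200000 : ℝ)) (by norm_num) (by norm_num)
      (by norm_num) (by norm_num [Finset.sum_range_succ]) (by norm_num [Finset.sum_range_succ]))
    (by have := (log_bds 0 (x := (32/25 : ℝ)) (r := (7/57 : ℝ)) (lo := (246859/1000000 : ℝ)) (hi := (246861/1000000 : ℝ)) (by norm_num) (by norm_num)
      (by norm_num) (by norm_num [Finset.sum_range_succ]) (by norm_num [Finset.sum_range_succ])); convert this using 3 <;> norm_num)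
    (by have := (log_bds 1 (x := (18/25 : ℝ)) (r := (11/61 : ℝ)) (lo := (-65701/200000 : ℝ)) (hi := (-328503/1000000 : ℝ)) (by norm_num) (by norm_num)
      (by norm_num) (by norm_num [Finset.sum_range_succ]) (by norm_num [Finset.sum_range_succ])); convert this using 3 <;> norm_num)
    (by norm_num) (by norm_num) (by norm_num) (by norm_num) (by norm_num)
    (by have := (log_bds 0 (x := (32671/25000 : ℝ)) (r := (7671/57671 : ℝ)) (lo := (267611/1000000 : ℝ)) (hi := (267613/1000000 : ℝ)) (by norm_num) (by norm_num)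
      (by norm_num) (by norm_num [Finset.sum_range_succ]) (by norm_num [Finset.sum_range_succ])).2; convert this using 2; norm_num)
    (log_bds 1 (x := (592951/1000000 : ℝ)) (r := (92951/1092951 : ℝ)) (lo := (-104529/200000 : ℝ)) (hi := (-522643/1000000 : ℝ)) (by norm_num) (by norm_num)
      (by norm_num) (by norm_num [Finset.sum_range_succ]) (by norm_num [Finset.sum_range_succ])).1

lemma node6 : NodeOK (17/50 : ℝ) (9909/15625 : ℝ) (400479/1000000 : ℝ) (118863/500000 : ℝ) (-17787/40000 : ℝ) := by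
  refine node_mk (Hhi := (31709/50000 : ℝ)) (hlo := (641033/1000000 : ℝ)) (by norm_num) (by norm_num)
    (log_bds 2 (x := (17/50 : ℝ)) (r := (9/59 : ℝ)) (lo := (-1078811/1000000 : ℝ)) (hi := (-1078809/1000000 : ℝ)) (by norm_num) (by norm_num)
      (by norm_num) (by norm_num [Finset.sum_range_succ]) (by norm_num [Finset.sum_range_succ]))
    (by have := (log_bds 0 (x := (67/50 : ℝ)) (r := (17/117 : ℝ)) (lo := (292669/1000000 : ℝ)) (hi := (292671/1000000 : ℝ)) (by norm_num) (by norm_num)
      (by norm_num) (by norm_num [Finset.sum_range_succ]) (by norm_num [Finset.sum_range_succ])); convert this using 3 <;> norm_num)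
    (by have := (log_bds 1 (x := (33/50 : ℝ)) (r := (4/29 : ℝ)) (lo := (-103879/250000 : ℝ)) (hi := (-207757/500000 : ℝ)) (by norm_num) (by norm_num)
      (by norm_num) (by norm_num [Finset.sum_range_succ]) (by norm_num [Finset.sum_range_succ])); convert this using 3 <;> norm_num)
    (by norm_num) (by norm_num) (by norm_num) (by norm_num) (by norm_num)
    (by have := (log_bds 0 (x := (31709/25000 : ℝ)) (r := (6709/56709 : ℝ)) (lo := (59431/250000 : ℝ)) (hi := (118863/500000 : ℝ)) (by norm_num) (by norm_num)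
      (by norm_num) (by norm_num [Finset.sum_range_succ]) (by norm_num [Finset.sum_range_succ])).2; convert this using 2; norm_num)
    (log_bds 1 (x := (641033/1000000 : ℝ)) (r := (141033/1141033 : ℝ)) (lo := (-17787/40000 : ℝ)) (hi := (-444673/1000000 : ℝ)) (by norm_num) (by norm_num)
      (by norm_num) (by norm_num [Finset.sum_range_succ]) (by norm_num [Finset.sum_range_succ])).1

lemma node7 : NodeOK (3/8 : ℝ) (155271/250000 : ℝ) (74939/200000 : ℝ) (108433/500000 : ℝ) (-206577/500000 : ℝ) := by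
  refine node_mk (Hhi := (19409/31250 : ℝ)) (hlo := (661561/1000000 : ℝ)) (by norm_num) (by norm_num)
    (log_bds 2 (x := (3/8 : ℝ)) (r := (1/5 : ℝ)) (lo := (-98083/100000 : ℝ)) (hi := (-245207/250000 : ℝ)) (by norm_num) (by norm_num)
      (by norm_num) (by norm_num [Finset.sum_range_succ]) (by norm_num [Finset.sum_range_succ]))
    (by have := (log_bds 0 (x := (11/8 : ℝ)) (r := (3/19 : ℝ)) (lo := (318453/1000000 : ℝ)) (hi := (63691/200000 : ℝ)) (by norm_num) (by norm_num)
      (by norm_num) (by norm_num [Finset.sum_range_succ]) (by norm_num [Finset.sum_range_succ])); convert this using 3 <;> norm_num)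
    (by have := (log_bds 1 (x := (5/8 : ℝ)) (r := (1/9 : ℝ)) (lo := (-94001/200000 : ℝ)) (hi := (-470003/1000000 : ℝ)) (by norm_num) (by norm_num)
      (by norm_num) (by norm_num [Finset.sum_range_succ]) (by norm_num [Finset.sum_range_succ])); convert this using 3 <;> norm_num)
    (by norm_num) (by norm_num) (by norm_num) (by norm_num) (by norm_num)
    (by have := (log_bds 0 (x := (19409/15625 : ℝ)) (r := (1892/17517 : ℝ)) (lo := (6777/31250 : ℝ)) (hi := (108433/500000 : ℝ)) (by norm_num) (by norm_num)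
      (by norm_num) (by norm_num [Finset.sum_range_succ]) (by norm_num [Finset.sum_range_succ])).2; convert this using 2; norm_num)
    (log_bds 1 (x := (661561/1000000 : ℝ)) (r := (161561/1161561 : ℝ)) (lo := (-206577/500000 : ℝ)) (hi := (-12911/31250 : ℝ)) (by norm_num) (by norm_num)
      (by norm_num) (by norm_num [Finset.sum_range_succ]) (by norm_num [Finset.sum_range_succ])).1

lemma piece0 {m : ℝ} (hu : (1/100 : ℝ) ≤ m) (hv : m ≤ (1/50 : ℝ)) :
    (-39/400 : ℝ) * ent m + (3/4 : ℝ) * ell m ≤ 1 / 2 ∧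
      ((-39/400 : ℝ) * ent m + (3/4 : ℝ) * ell m) * (log (2 * ent m) - log (binEntropy m))
        ≤ -log m / 2 - ell m :=
  piece node0 node1 (by norm_num) (by norm_num) (by norm_num) (p := (2/125 : ℝ)) (by norm_num)
    (log_bds 6 (x := (2/125 : ℝ)) (r := (3/253 : ℝ)) (lo := (-64612/15625 : ℝ)) (hi := (-2067583/500000 : ℝ)) (by norm_num) (by norm_num)
      (by norm_num) (by norm_num [Finset.sum_range_succ]) (by norm_num [Finset.sum_range_succ])).2
    (Wu := (444823/1000000 : ℝ)) (Wv := (54681/125000 : ℝ)) (by norm_num) (by norm_num) (by norm_num) (by norm_num)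
    (by norm_num) (Lu := (3208989/1000000 : ℝ)) (Lv := (1324417/500000 : ℝ)) (by norm_num) (by norm_num) (by norm_num)
    (by norm_num) (by norm_num) hu hv

lemma piece1 {m : ℝ} (hu : (1/50 : ℝ) ≤ m) (hv : m ≤ (3/50 : ℝ)) :
    (-39/400 : ℝ) * ent m + (3/4 : ℝ) * ell m ≤ 1 / 2 ∧
      ((-39/400 : ℝ) * ent m + (3/4 : ℝ) * ell m) * (log (2 * ent m) - log (binEntropy m))
        ≤ -log m / 2 - ell m :=
  piece node1 node2 (by norm_num) (by norm_num) (by norm_num) (p := (109/2500 : ℝ)) (by norm_num)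
    (log_bds 5 (x := (109/2500 : ℝ)) (r := (247/1497 : ℝ)) (lo := (-3132699/1000000 : ℝ)) (hi := (-3132697/1000000 : ℝ)) (by norm_num) (by norm_num)
      (by norm_num) (by norm_num [Finset.sum_range_succ]) (by norm_num [Finset.sum_range_succ])).2
    (Wu := (54681/125000 : ℝ)) (Wv := (81751/200000 : ℝ)) (by norm_num) (by norm_num) (by norm_num) (by norm_num)
    (by norm_num) (Lu := (2648761/1000000 : ℝ)) (Lv := (452039/250000 : ℝ)) (by norm_num) (by norm_num) (by norm_num)
    (by norm_num) (by norm_num) hu hv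

lemma piece2 {m : ℝ} (hu : (3/50 : ℝ) ≤ m) (hv : m ≤ (11/100 : ℝ)) :
    (-44551/300000 : ℝ) * ent m + (229/300 : ℝ) * ell m ≤ 1 / 2 ∧
      ((-44551/300000 : ℝ) * ent m + (229/300 : ℝ) * ell m) * (log (2 * ent m) - log (binEntropy m))
        ≤ -log m / 2 - ell m :=
  piece node2 node3 (by norm_num) (by norm_num) (by norm_num) (p := (97/1000 : ℝ)) (by norm_num)
    (log_bds 4 (x := (97/1000 : ℝ)) (r := (69/319 : ℝ)) (lo := (-466609/200000 : ℝ)) (hi := (-2333043/1000000 : ℝ)) (by norm_num) (by norm_num)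
      (by norm_num) (by norm_num [Finset.sum_range_succ]) (by norm_num [Finset.sum_range_succ])).2
    (Wu := (381959/1000000 : ℝ)) (Wv := (347409/1000000 : ℝ)) (by norm_num) (by norm_num) (by norm_num) (by norm_num)
    (by norm_num) (Lu := (1806997/1000000 : ℝ)) (Lv := (689771/500000 : ℝ)) (by norm_num) (by norm_num) (by norm_num)
    (by norm_num) (by norm_num) hu hv

lemma piece3 {m : ℝ} (hu : (11/100 : ℝ) ≤ m) (hv : m ≤ (19/100 : ℝ)) :
    (-44551/300000 : ℝ) * ent m + (229/300 : ℝ) * ell m ≤ 1 / 2 ∧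
      ((-44551/300000 : ℝ) * ent m + (229/300 : ℝ) * ell m) * (log (2 * ent m) - log (binEntropy m))
        ≤ -log m / 2 - ell m :=
  piece node3 node4 (by norm_num) (by norm_num) (by norm_num) (p := (409/2500 : ℝ)) (by norm_num)
    (log_bds 3 (x := (409/2500 : ℝ)) (r := (193/1443 : ℝ)) (lo := (-452583/250000 : ℝ)) (hi := (-181033/100000 : ℝ)) (by norm_num) (by norm_num)
      (by norm_num) (by norm_num [Finset.sum_range_succ]) (by norm_num [Finset.sum_range_succ])).2
    (Wu := (347409/1000000 : ℝ)) (Wv := (296083/1000000 : ℝ)) (by norm_num) (by norm_num) (by norm_num) (by norm_num)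
    (by norm_num) (Lu := (172211/125000 : ℝ)) (Lv := (256563/250000 : ℝ)) (by norm_num) (by norm_num) (by norm_num)
    (by norm_num) (by norm_num) hu hv

lemma piece4 {m : ℝ} (hu : (19/100 : ℝ) ≤ m) (hv : m ≤ (7/25 : ℝ)) :
    (-54057/334000 : ℝ) * ent m + (125/167 : ℝ) * ell m ≤ 1 / 2 ∧
      ((-54057/334000 : ℝ) * ent m + (125/167 : ℝ) * ell m) * (log (2 * ent m) - log (binEntropy m))
        ≤ -log m / 2 - ell m :=
  piece node4 node5 (by norm_num) (by norm_num) (by norm_num) (p := (2557/10000 : ℝ)) (by norm_num)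
    (log_bds 2 (x := (2557/10000 : ℝ)) (r := (57/5057 : ℝ)) (lo := (-1363751/1000000 : ℝ)) (hi := (-1363749/1000000 : ℝ)) (by norm_num) (by norm_num)
      (by norm_num) (by norm_num [Finset.sum_range_succ]) (by norm_num [Finset.sum_range_succ])).2
    (Wu := (17461/62500 : ℝ)) (Wv := (28537/125000 : ℝ)) (by norm_num) (by norm_num) (by norm_num) (by norm_num)
    (by norm_num) (Lu := (1021183/1000000 : ℝ)) (Lv := (159613/200000 : ℝ)) (by norm_num) (by norm_num) (by norm_num)
    (by norm_num) (by norm_num) hu hv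

lemma piece5 {m : ℝ} (hu : (7/25 : ℝ) ≤ m) (hv : m ≤ (17/50 : ℝ)) :
    (-54057/334000 : ℝ) * ent m + (125/167 : ℝ) * ell m ≤ 1 / 2 ∧
      ((-54057/334000 : ℝ) * ent m + (125/167 : ℝ) * ell m) * (log (2 * ent m) - log (binEntropy m))
        ≤ -log m / 2 - ell m :=
  piece node5 node6 (by norm_num) (by norm_num) (by norm_num) (p := (331/1000 : ℝ)) (by norm_num)
    (log_bds 2 (x := (331/1000 : ℝ)) (r := (81/581 : ℝ)) (lo := (-552819/500000 : ℝ)) (hi := (-276409/250000 : ℝ)) (by norm_num) (by norm_num)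
      (by norm_num) (by norm_num [Finset.sum_range_succ]) (by norm_num [Finset.sum_range_succ])).2
    (Wu := (28537/125000 : ℝ)) (Wv := (197121/1000000 : ℝ)) (by norm_num) (by norm_num) (by norm_num) (by norm_num)
    (by norm_num) (Lu := (790259/1000000 : ℝ)) (Lv := (172013/250000 : ℝ)) (by norm_num) (by norm_num) (by norm_num)
    (by norm_num) (by norm_num) hu hv

lemma piece6 {m : ℝ} (hu : (17/50 : ℝ) ≤ m) (hv : m ≤ (3/8 : ℝ)) :
    (-54057/334000 : ℝ) * ent m + (125/167 : ℝ) * ell m ≤ 1 / 2 ∧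
      ((-54057/334000 : ℝ) * ent m + (125/167 : ℝ) * ell m) * (log (2 * ent m) - log (binEntropy m))
        ≤ -log m / 2 - ell m :=
  piece node6 node7 (by norm_num) (by norm_num) (by norm_num) (p := (183/500 : ℝ)) (by norm_num)
    (log_bds 2 (x := (183/500 : ℝ)) (r := (29/154 : ℝ)) (lo := (-1005123/1000000 : ℝ)) (hi := (-1005121/1000000 : ℝ)) (by norm_num) (by norm_num)
      (by norm_num) (by norm_num [Finset.sum_range_succ]) (by norm_num [Finset.sum_range_succ])).2
    (Wu := (197121/1000000 : ℝ)) (Wv := (179941/1000000 : ℝ)) (by norm_num) (by norm_num) (by norm_num) (by norm_num)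
    (by norm_num) (Lu := (341201/500000 : ℝ)) (Lv := (633713/1000000 : ℝ)) (by norm_num) (by norm_num) (by norm_num)
    (by norm_num) (by norm_num) hu hv

lemma chord_int1 : ChordOK (1/100 : ℝ) (3/50 : ℝ) (wLine 0.986 0.642 0.918 0.591) := by
  intro m d hm hmb h0 h1
  have hH : ent m ≠ 0 := (ent_pos ⟨by linarith, by linarith⟩).ne'
  have he : wLine 0.986 0.642 0.918 0.591 (ell m / ent m) * ent m
      = (-39/400 : ℝ) * ent m + (3/4 : ℝ) * ell m := by
    unfold wLine; field_simp; ring
  have hp : (-39/400 : ℝ) * ent m + (3/4 : ℝ) * ell m ≤ 1 / 2 ∧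
      ((-39/400 : ℝ) * ent m + (3/4 : ℝ) * ell m) * (log (2 * ent m) - log (binEntropy m))
        ≤ -log m / 2 - ell m := by
    rcases le_or_gt m (1/50 : ℝ) with h | h
    · exact piece0 (by linarith) h
    exact piece1 (by linarith) (by linarith)
  rw [he]
  exact chord_of_corner (by linarith) h0 h1 hp.1 hp.2

lemma chord_int2 : ChordOK (3/50 : ℝ) (19/100 : ℝ) (wLine 0.919 0.553 0.769 0.4385) := by
  intro m d hm hmb h0 h1
  have hH : ent m ≠ 0 := (ent_pos ⟨by linarith, by linarith⟩).ne'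
  have he : wLine 0.919 0.553 0.769 0.4385 (ell m / ent m) * ent m
      = (-44551/300000 : ℝ) * ent m + (229/300 : ℝ) * ell m := by
    unfold wLine; field_simp; ring
  have hp : (-44551/300000 : ℝ) * ent m + (229/300 : ℝ) * ell m ≤ 1 / 2 ∧
      ((-44551/300000 : ℝ) * ent m + (229/300 : ℝ) * ell m) * (log (2 * ent m) - log (binEntropy m))
        ≤ -log m / 2 - ell m := by
    rcases le_or_gt m (11/100 : ℝ) with h | h
    · exact piece2 (by linarith) h
    exact piece3 (by linarith) (by linarith)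
  rw [he]
  exact chord_of_corner (by linarith) h0 h1 hp.1 hp.2

lemma chord_int3 : ChordOK (19/100 : ℝ) (3/8 : ℝ) (wLine 0.770 0.4145 0.603 0.2895) := by
  intro m d hm hmb h0 h1
  have hH : ent m ≠ 0 := (ent_pos ⟨by linarith, by linarith⟩).ne'
  have he : wLine 0.770 0.4145 0.603 0.2895 (ell m / ent m) * ent m
      = (-54057/334000 : ℝ) * ent m + (125/167 : ℝ) * ell m := by
    unfold wLine; field_simp; ring
  have hp : (-54057/334000 : ℝ) * ent m + (125/167 : ℝ) * ell m ≤ 1 / 2 ∧
      ((-54057/334000 : ℝ) * ent m + (125/167 : ℝ) * ell m) * (log (2 * ent m) - log (binEntropy m))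
        ≤ -log m / 2 - ell m := by
    rcases le_or_gt m (7/25 : ℝ) with h | h
    · exact piece4 (by linarith) h
    rcases le_or_gt m (17/50 : ℝ) with h | h
    · exact piece5 (by linarith) h
    exact piece6 (by linarith) (by linarith)
  rw [he]
  exact chord_of_corner (by linarith) h0 h1 hp.1 hp.2

/-- The chord bounds. -/
theorem chordAll_holds : ChordAll := by
  refine ⟨chord_zero, ?_, ?_, ?_⟩
  · convert chord_int1 using 1
  · convert chord_int2 using 1
  · convert chord_int3 using 1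

end Vale.Agent.P322
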