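import Vale.Agent.P322.Tdefs

/-! The two inverse-free inequalities to which the radial inequality is reduced. -/

noncomputable section

namespace Vale.Agent.P322

open Real

/-- Upper bound for the increase of `psiIcpt` over an increase `D` of `-log z`. -/
def eBd (D : ℝ) : ℝ := D / 2 + log (1 + D / (17 / 5)) / 2

/-- `1 / z` at mean entropy `Hv` and entropy `h`. -/
def zInv (Hv h : ℝ) : ℝ := (Hv * (Hv - h) + log 2 * h) / (log 2 * h)

/-- Mean entropy of the children `m ± d`. -/
def entBar (m d : ℝ) : ℝ := (ent (m + d) + ent (m - d)) / 2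

/-- Jensen gap of `ell` at the children `m ± d`. -/
def ellGap (m d : ℝ) : ℝ := (ell (m + d) + ell (m - d)) / 2 - ell m

/-- `(ent - ell) / ent ^ 2`. -/
def corA (Hv L : ℝ) : ℝ := (Hv - L) / Hv ^ 2

/-- The inequality for the corner mean `k = m`. -/
def ElemM : Prop :=
  ∀ m d : ℝ, 0 ≤ m → 0 < d → d < 1 - m →
    ent m * eBd (2 * log (ent m / entBar m d))
      ≤ 2 * log 2 * (((1 + m) * ellGap m d + (1 - m) * ellGap (-m) d) / 2)

/-- The inequality for the corner mean `k = 1`. -/
def ElemOne : Prop :=
  ∀ m d h : ℝ, 0 ≤ m → 0 < d → d < 1 - m → 0 < h → h < entBar m d →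
    ell m * eBd (log (zInv (ent m) h / zInv (entBar m d) h))
      ≤ ellGap m d * (2 * log 2 + log (zInv (entBar m d) h) / 2)
        + corA (ent m) (ell m) * (log 2 * h) / 2 *
            (zInv (ent m) h - zInv (entBar m d) h - log (zInv (ent m) h / zInv (entBar m d) h))
        + 0.645 * (log 2 * h) * (zInv (entBar m d) h - 1 - log (zInv (entBar m d) h))
            * min (corA (ent m) (ell m) - corA (entBar m d) (ell m + ellGap m d)) 0

end Vale.Agent.P322
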