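import Vale.Agent.P322.CurvRefined
import Vale.Agent.P322.ElemDefs
import Vale.Agent.P322.Tbasic

/-!
Facts F1 to F4 on the tangent intercept `psiIcpt` and on `psiChi`, in the variable
`X = log 2 / ent r`.
-/

noncomputable section

namespace Vale.Agent.P322

open Real Set Filter Topology

/-- The normalised curvature `t² Ψ''(t)` at `t = ent r`. -/
def curvC (r : ℝ) : ℝ := psiSlope' r * ent r ^ 2 / artanh r

lemma curvC_eq {r : ℝ} (hr : r ∈ Ioo (0:ℝ) 1) :
    curvC r = auxN (artanh r) ^ 2 * auxE (artanh r) / artanh r ^ 3 := by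
  have hA := artanh_pos hr
  unfold curvC
  rw [psiSlope'_eq_aux hr]
  field_simp

lemma curvC_ge {r : ℝ} (hr : r ∈ Ioo (0:ℝ) 1) : 1 / 2 ≤ curvC r := by
  have hA := artanh_pos hr
  rw [curvC_eq hr, le_div_iff₀ (pow_pos hA 3)]
  linarith [half_aux hA]

lemma curvC_le {r : ℝ} (hr : r ∈ Ioo (0:ℝ) 1) : curvC r ≤ 0.645 := by
  unfold curvC
  rw [div_le_iff₀ (artanh_pos hr)]
  exact psiSlope'_mul_ent_sq_le hr

lemma curvC_le_log {r : ℝ} (hr : r ∈ Ioo (0:ℝ) 1) :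
    curvC r ≤ 1 / 2 + 1 / (2 * (17 / 5 + log (log 2 / ent r))) := by
  have hr2 : r ∈ Ioo (-1:ℝ) 1 := ⟨by linarith [hr.1], hr.2⟩
  have hA := artanh_pos hr
  have h := refined_aux hA
  rw [tanh_artanh hr2] at h
  have hY : 0 < 17 / 5 + log (log 2 / ent r) := by
    have := log_nonneg (show 1 ≤ log 2 / ent r by
      rw [le_div_iff₀ (ent_pos hr2)]; linarith [ent_le r])
    linarith
  rw [curvC_eq hr, div_le_iff₀ (pow_pos hA 3)]
  generalize 17 / 5 + log (log 2 / ent r) = Y at h hY ⊢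
  have e : (1 / 2 + 1 / (2 * Y)) * artanh r ^ 3
      = (Y * artanh r ^ 3 + artanh r ^ 3) / (2 * Y) := by
    field_simp
  rw [e, le_div_iff₀ (by linarith)]
  linarith

lemma hasDerivAt_logInv {r : ℝ} (hr : r ∈ Ioo (0:ℝ) 1) :
    HasDerivAt (fun x => log (log 2 / ent x)) (artanh r / ent r) r := by
  have hr2 : r ∈ Ioo (-1:ℝ) 1 := ⟨by linarith [hr.1], hr.2⟩
  have hH := ent_pos hr2
  have hl : (0:ℝ) < log 2 := log_pos (by norm_num)
  have he : (fun x => log (log 2 / ent x)) =ᶠ[nhds r] fun x => log (log 2) - log (ent x) := by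
    filter_upwards [isOpen_Ioo.mem_nhds hr2] with x hx
    exact log_div hl.ne' (ent_pos hx).ne'
  refine (((hasDerivAt_ent hr2).log hH.ne').const_sub _ |>.congr_of_eventuallyEq he).congr_deriv ?_
  ring

lemma hasDerivAt_psiIcpt {r : ℝ} (hr : r ∈ Ioo (0:ℝ) 1) :
    HasDerivAt psiIcpt (curvC r * (artanh r / ent r)) r := by
  have hr2 : r ∈ Ioo (-1:ℝ) 1 := ⟨by linarith [hr.1], hr.2⟩
  have hA := artanh_pos hr
  have hH := ent_pos hr2
  have hne : (1:ℝ) - r ^ 2 ≠ 0 := by nlinarith [hr.1, hr.2]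
  refine (((hasDerivAt_id' r).fun_mul (hasDerivAt_artanh hr2)).fun_add
    ((hasDerivAt_psiSlope hr).fun_mul (hasDerivAt_ent hr2))).congr_deriv ?_
  unfold curvC psiSlope
  field_simp
  ring

lemma hasDerivAt_psiChi {r : ℝ} (hr : r ∈ Ioo (0:ℝ) 1) :
    HasDerivAt psiChi (curvC r * (artanh r / ent r) * (log 2 / ent r - 1)) r := by
  have hr2 : r ∈ Ioo (-1:ℝ) 1 := ⟨by linarith [hr.1], hr.2⟩
  have hA := artanh_pos hr
  have hH := ent_pos hr2
  refine (((hasDerivAt_psiSlope hr).const_mul (log 2)).fun_sub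
    (hasDerivAt_psiIcpt hr)).congr_deriv ?_
  unfold curvC
  field_simp

lemma hasDerivAt_xInv {r : ℝ} (hr : r ∈ Ioo (0:ℝ) 1) :
    HasDerivAt (fun x => log 2 / ent x) (log 2 / ent r * (artanh r / ent r)) r := by
  have hr2 : r ∈ Ioo (-1:ℝ) 1 := ⟨by linarith [hr.1], hr.2⟩
  refine (((hasDerivAt_ent hr2).fun_inv (ent_pos hr2).ne').const_mul (log 2)).congr_deriv ?_
  field_simp

lemma monotoneOn_Ioo_of_deriv {g g' : ℝ → ℝ} {a b : ℝ}
    (hd : ∀ x ∈ Ioo (0:ℝ) 1, HasDerivAt g (g' x) x) (ha : 0 < a) (hb : b < 1)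
    (hp : ∀ x ∈ Icc a b, 0 ≤ g' x) (hab : a ≤ b) : g a ≤ g b := by
  have hsub : ∀ x ∈ Icc a b, x ∈ Ioo (0:ℝ) 1 :=
    fun x hx => ⟨lt_of_lt_of_le ha hx.1, lt_of_le_of_lt hx.2 hb⟩
  exact monotoneOn_of_hasDerivWithinAt_nonneg (convex_Icc a b)
    (fun x hx => (hd x (hsub x hx)).continuousAt.continuousWithinAt)
    (fun x hx => (hd x (hsub x (interior_subset hx))).hasDerivWithinAt)
    (fun x hx => hp x (interior_subset hx)) (left_mem_Icc.mpr hab) (right_mem_Icc.mpr hab) hab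

/-- F1. -/
theorem psiIcpt_sub_le {r₁ r₂ : ℝ} (h2 : 0 < r₂) (h21 : r₂ ≤ r₁) (h1 : r₁ < 1) :
    psiIcpt r₁ - psiIcpt r₂ ≤ eBd (log (log 2 / ent r₁ / (log 2 / ent r₂))) := by
  have hl : (0:ℝ) < log 2 := log_pos (by norm_num)
  have hr2 : r₂ ∈ Ioo (-1:ℝ) 1 := ⟨by linarith, by linarith⟩
  have hr1 : r₁ ∈ Ioo (-1:ℝ) 1 := ⟨by linarith, h1⟩
  set y : ℝ → ℝ := fun x => log (log 2 / ent x) with hy
  have hy2 : 0 ≤ y r₂ := log_nonneg (by rw [le_div_iff₀ (ent_pos hr2)]; linarith [ent_le r₂])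
  have hymono : ∀ x ∈ Icc r₂ r₁, y r₂ ≤ y x := by
    intro x hx
    exact monotoneOn_Ioo_of_deriv (g := y) (fun x hx => hasDerivAt_logInv hx) h2
      (lt_of_le_of_lt hx.2 h1) (fun z hz => by
        have hz0 : 0 < z := lt_of_lt_of_le h2 hz.1
        have hz1 : z < 1 := lt_of_le_of_lt (le_trans hz.2 hx.2) h1
        exact div_nonneg (artanh_pos ⟨hz0, hz1⟩).le (ent_pos ⟨by linarith, hz1⟩).le) hx.1
  have hD : ∀ x ∈ Icc r₂ r₁, 0 < 1 + (y x - y r₂) / (17 / 5) := fun x hx => by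
    have := hymono x hx
    positivity
  have h : ∀ x ∈ Icc r₂ r₁, HasDerivAt
      (fun x => (y x - y r₂) / 2 + log (1 + (y x - y r₂) / (17 / 5)) / 2 - psiIcpt x)
      ((1 / 2 + 1 / (2 * (17 / 5 + (y x - y r₂))) - curvC x) * (artanh x / ent x)) x := by
    intro x hx
    have hx' : x ∈ Ioo (0:ℝ) 1 := ⟨lt_of_lt_of_le h2 hx.1, lt_of_le_of_lt hx.2 h1⟩
    have hdy : HasDerivAt (fun z => y z - y r₂) (artanh x / ent x) x :=
      (hasDerivAt_logInv hx').sub_const _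
    refine (((hdy.div_const 2).fun_add ((((hdy.div_const (17 / 5)).const_add 1).log
      (hD x hx).ne').div_const 2)).fun_sub (hasDerivAt_psiIcpt hx')).congr_deriv ?_
    have := hD x hx
    have h17 : (0:ℝ) < 17 / 5 + (y x - y r₂) := by linarith [hymono x hx]
    field_simp
  have hm := monotoneOn_of_hasDerivWithinAt_nonneg (convex_Icc r₂ r₁)
    (fun x hx => (h x hx).continuousAt.continuousWithinAt)
    (fun x hx => (h x (interior_subset hx)).hasDerivWithinAt)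
    (fun x hx => by
      have hx' := interior_subset hx
      have hxm : x ∈ Ioo (0:ℝ) 1 := ⟨lt_of_lt_of_le h2 hx'.1, lt_of_le_of_lt hx'.2 h1⟩
      refine mul_nonneg (sub_nonneg.mpr (le_trans (curvC_le_log hxm) (add_le_add le_rfl ?_)))
        (div_nonneg (artanh_pos hxm).le (ent_pos ⟨by linarith [hxm.1], hxm.2⟩).le)
      refine one_div_le_one_div_of_le (by linarith [hymono x hx']) ?_
      simp only [hy] at hy2 ⊢
      linarith)
    (left_mem_Icc.mpr h21) (right_mem_Icc.mpr h21) h21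
  simp at hm
  unfold eBd
  have e1 : log (log 2 / ent r₁ / (log 2 / ent r₂)) = y r₁ - y r₂ :=
    log_div (div_pos hl (ent_pos hr1)).ne' (div_pos hl (ent_pos hr2)).ne'
  rw [e1]
  norm_num at hm ⊢
  linarith

lemma ent_tendsto_zero : Tendsto ent (𝓝[>] (0:ℝ)) (𝓝 (log 2)) := by
  rw [← ent_zero]
  exact (ent_continuous.continuousAt).tendsto.mono_left nhdsWithin_le_nhds

/-- F2. -/
theorem psiIcpt_ge {r : ℝ} (hr : r ∈ Ioo (0:ℝ) 1) :
    2 * log 2 + log (log 2 / ent r) / 2 ≤ psiIcpt r := by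
  have hl : (0:ℝ) < log 2 := log_pos (by norm_num)
  have hmono : ∀ x ∈ Ioo 0 r, psiIcpt x - log (log 2 / ent x) / 2
      ≤ psiIcpt r - log (log 2 / ent r) / 2 := fun x hx =>
    monotoneOn_Ioo_of_deriv (g := fun z => psiIcpt z - log (log 2 / ent z) / 2)
      (fun z hz => (hasDerivAt_psiIcpt hz).fun_sub ((hasDerivAt_logInv hz).div_const 2)) hx.1 hr.2
      (fun z hz => by
        have hz' : z ∈ Ioo (0:ℝ) 1 := ⟨lt_of_lt_of_le hx.1 hz.1, lt_of_le_of_lt hz.2 hr.2⟩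
        have h0 : 0 ≤ artanh z / ent z :=
          div_nonneg (artanh_pos hz').le (ent_pos ⟨by linarith [hz'.1], hz'.2⟩).le
        have := mul_le_mul_of_nonneg_right (curvC_ge hz') h0
        linarith) hx.2.le
  have hlim : Tendsto (fun x => 2 * ent x - log (log 2 / ent x) / 2) (𝓝[>] (0:ℝ))
      (𝓝 (2 * log 2)) := by
    have h1 : Tendsto (fun x => log 2 / ent x) (𝓝[>] (0:ℝ)) (𝓝 1) := by
      have := (tendsto_const_nhds (x := log 2)).div ent_tendsto_zero hl.ne'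
      rwa [div_self hl.ne'] at this
    have h2 := ((h1.log one_ne_zero).div_const 2)
    simpa using (ent_tendsto_zero.const_mul 2).sub h2
  have hev : ∀ᶠ x in 𝓝[>] (0:ℝ), 2 * ent x - log (log 2 / ent x) / 2
      ≤ psiIcpt r - log (log 2 / ent r) / 2 := by
    filter_upwards [Ioo_mem_nhdsGT hr.1] with x hx
    have hx' : x ∈ Ioo (0:ℝ) 1 := ⟨hx.1, lt_trans hx.2 hr.2⟩
    refine le_trans ?_ (hmono x hx)
    have := mul_le_mul_of_nonneg_right (two_le_psiSlope hx')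
      (ent_pos (show x ∈ Ioo (-1:ℝ) 1 from ⟨by linarith [hx.1], hx'.2⟩)).le
    have := mul_nonneg hx.1.le (artanh_pos hx').le
    unfold psiIcpt
    linarith
  linarith [le_of_tendsto hlim hev]

/-- F3. -/
theorem psiChi_sub_ge {r₁ r₂ : ℝ} (h2 : 0 < r₂) (h21 : r₂ ≤ r₁) (h1 : r₁ < 1) :
    (log 2 / ent r₁ - log 2 / ent r₂ - log (log 2 / ent r₁ / (log 2 / ent r₂))) / 2
      ≤ psiChi r₁ - psiChi r₂ := by
  have hl : (0:ℝ) < log 2 := log_pos (by norm_num)
  have hp1 := div_pos hl (ent_pos (show r₁ ∈ Ioo (-1:ℝ) 1 from ⟨by linarith, h1⟩))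
  have hp2 := div_pos hl (ent_pos (show r₂ ∈ Ioo (-1:ℝ) 1 from ⟨by linarith, by linarith⟩))
  have := monotoneOn_Ioo_of_deriv
    (g := fun z => psiChi z - (log 2 / ent z - log (log 2 / ent z)) / 2)
    (fun z hz => (hasDerivAt_psiChi hz).fun_sub
      (((hasDerivAt_xInv hz).fun_sub (hasDerivAt_logInv hz)).div_const 2)) h2 h1
    (fun z hz => by
      have hz' : z ∈ Ioo (0:ℝ) 1 := ⟨lt_of_lt_of_le h2 hz.1, lt_of_le_of_lt hz.2 h1⟩
      have hz2 : z ∈ Ioo (-1:ℝ) 1 := ⟨by linarith [hz'.1], hz'.2⟩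
      have h0 : 0 ≤ artanh z / ent z := div_nonneg (artanh_pos hz').le (ent_pos hz2).le
      have hX : 0 ≤ log 2 / ent z - 1 := by
        rw [sub_nonneg, le_div_iff₀ (ent_pos hz2)]; linarith [ent_le z]
      have := mul_le_mul_of_nonneg_right (curvC_ge hz') (mul_nonneg h0 hX)
      linarith) h21
  rw [log_div hp1.ne' hp2.ne']
  linarith

/-- F4. -/
theorem psiChi_bounds {r : ℝ} (hr : r ∈ Ioo (0:ℝ) 1) :
    0 ≤ psiChi r ∧
      psiChi r ≤ 0.645 * (log 2 / ent r - 1 - log (log 2 / ent r)) := by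
  have hl : (0:ℝ) < log 2 := log_pos (by norm_num)
  refine ⟨?_, ?_⟩
  · have ht := psiD_tangent hr (d := log 2) hl
    rw [psiD_log_two] at ht
    unfold psiChi psiIcpt
    linarith
  set g : ℝ → ℝ := fun z => psiChi z - 0.645 * (log 2 / ent z - 1 - log (log 2 / ent z)) with hg
  have hmono : ∀ x ∈ Ioo 0 r, g r ≤ g x := fun x hx => by
    have := monotoneOn_Ioo_of_deriv (g := fun z => -g z)
      (fun z hz => ((hasDerivAt_psiChi hz).fun_sub
        ((((hasDerivAt_xInv hz).sub_const 1).fun_sub (hasDerivAt_logInv hz)).const_mul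
          (0.645:ℝ))).fun_neg) hx.1 hr.2
      (fun z hz => by
        have hz' : z ∈ Ioo (0:ℝ) 1 := ⟨lt_of_lt_of_le hx.1 hz.1, lt_of_le_of_lt hz.2 hr.2⟩
        have hz2 : z ∈ Ioo (-1:ℝ) 1 := ⟨by linarith [hz'.1], hz'.2⟩
        have h0 : 0 ≤ artanh z / ent z := div_nonneg (artanh_pos hz').le (ent_pos hz2).le
        have hX : 0 ≤ log 2 / ent z - 1 := by
          rw [sub_nonneg, le_div_iff₀ (ent_pos hz2)]; linarith [ent_le z]
        have := mul_le_mul_of_nonneg_right (curvC_le hz') (mul_nonneg h0 hX)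
        linarith) hx.2.le
    linarith
  have hlim : Tendsto (fun x => (1 + 1 / (1 - x ^ 2)) * (log 2 - ent x)
      - 0.645 * (log 2 / ent x - 1 - log (log 2 / ent x))) (𝓝[>] (0:ℝ)) (𝓝 0) := by
    have h1 : Tendsto (fun x => log 2 / ent x) (𝓝[>] (0:ℝ)) (𝓝 1) := by
      have := (tendsto_const_nhds (x := log 2)).div ent_tendsto_zero hl.ne'
      rwa [div_self hl.ne'] at this
    have h3 : Tendsto (fun x : ℝ => 1 + 1 / (1 - x ^ 2)) (𝓝[>] (0:ℝ)) (𝓝 (1 + 1)) := by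
      have : ContinuousAt (fun x : ℝ => 1 + 1 / (1 - x ^ 2)) 0 := by fun_prop (disch := norm_num)
      simpa using this.tendsto.mono_left nhdsWithin_le_nhds
    simpa using (h3.mul (ent_tendsto_zero.const_sub (log 2))).sub
      (((h1.sub_const 1).sub (h1.log one_ne_zero)).const_mul (0.645:ℝ))
  have hev : ∀ᶠ x in 𝓝[>] (0:ℝ), g r ≤ (1 + 1 / (1 - x ^ 2)) * (log 2 - ent x)
      - 0.645 * (log 2 / ent x - 1 - log (log 2 / ent x)) := by
    filter_upwards [Ioo_mem_nhdsGT hr.1] with x hx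
    have hx' : x ∈ Ioo (0:ℝ) 1 := ⟨hx.1, lt_trans hx.2 hr.2⟩
    refine le_trans (hmono x hx) (sub_le_sub_right ?_ _)
    have hA := artanh_pos hx'
    have hq : 0 < 1 - x ^ 2 := by nlinarith [hx'.1, hx'.2]
    have hS : psiSlope x ≤ 1 + 1 / (1 - x ^ 2) := by
      unfold psiSlope
      rw [add_le_add_iff_left, div_le_div_iff₀ (mul_pos hq hA) hq]
      nlinarith [mul_le_mul_of_nonneg_left (self_le_artanh ⟨hx'.1.le, hx'.2⟩) hq.le]
    have := mul_le_mul_of_nonneg_right hS (show 0 ≤ log 2 - ent x by linarith [ent_le x])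
    have := mul_nonneg hx'.1.le hA.le
    unfold psiChi psiIcpt
    linarith
  have h := ge_of_tendsto hlim hev
  simp only [hg] at h
  linarith

end Vale.Agent.P322
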