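import Vale.Agent.P322.PsiCurv

/-!
Refined curvature bound: with `c = t² Ψ''(t)` at `t = ent r` and `y = log (log 2 / t)`,
`c ≤ 1/2 + 1/(2 (17/5 + y))`.
-/

noncomputable section

namespace Vale.Agent.P322

open Real Set

lemma exp_neg_eight_fifths_le : exp (-(8 / 5) : ℝ) ≤ 0.2019 := by
  rw [exp_neg, inv_le_comm₀ (exp_pos _) (by norm_num)]
  have h1 := sum_le_exp_of_nonneg (show (0:ℝ) ≤ 3 / 5 by norm_num) 7
  simp [Finset.sum_range_succ, Nat.factorial] at h1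
  rw [show (8 / 5 : ℝ) = 1 + 3 / 5 by norm_num, exp_add]
  have h2 := exp_one_gt_d9
  norm_num at h1 h2 ⊢
  nlinarith

lemma exp_neg_two_mul_le {t : ℝ} (ht : 0 ≤ t) :
    exp (-(2 * (4 / 5 + t))) ≤ 0.2019 / (1 + 2 * t + 2 * t ^ 2 + 4 * t ^ 3 / 3) := by
  have hD : 0 < 1 + 2 * t + 2 * t ^ 2 + 4 * t ^ 3 / 3 := by positivity
  have h1 := sum_le_exp_of_nonneg (show (0:ℝ) ≤ 2 * t by positivity) 4
  simp [Finset.sum_range_succ, Nat.factorial] at h1
  rw [le_div_iff₀ hD, show -(2 * (4 / 5 + t)) = -(8 / 5) + -(2 * t) by ring, exp_add]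
  have h2 : exp (-(2 * t)) * (1 + 2 * t + 2 * t ^ 2 + 4 * t ^ 3 / 3) ≤ 1 := by
    calc exp (-(2 * t)) * (1 + 2 * t + 2 * t ^ 2 + 4 * t ^ 3 / 3)
        ≤ exp (-(2 * t)) * exp (2 * t) :=
          mul_le_mul_of_nonneg_left (by linarith) (exp_pos _).le
      _ = 1 := by rw [← exp_add]; simp
  rw [mul_assoc]
  calc exp (-(8 / 5) : ℝ) * (exp (-(2 * t)) * (1 + 2 * t + 2 * t ^ 2 + 4 * t ^ 3 / 3))
      ≤ 0.2019 * 1 := mul_le_mul exp_neg_eight_fifths_le h2 (by positivity) (by norm_num)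
    _ = 0.2019 := mul_one _

lemma log_ge_tail {x : ℝ} (hx : 5 / 2 ≤ x) :
    0.916 + 2 * (x - 5 / 2) / (x + 5 / 2) ≤ log x := by
  have hd : ∀ y ∈ Ici (5 / 2 : ℝ), HasDerivAt (fun y => log y - 2 * (y - 5 / 2) / (y + 5 / 2))
      ((y - 5 / 2) ^ 2 / (y * (y + 5 / 2) ^ 2)) y := by
    intro y hy
    have hy0 : (0:ℝ) < y := lt_of_lt_of_le (by norm_num) hy
    refine ((hasDerivAt_log hy0.ne').sub ((((hasDerivAt_id y).sub_const (5/2)).const_mul 2).fun_div
      ((hasDerivAt_id y).add_const (5/2)) (by simp only [id]; linarith))).congr_deriv ?_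
    simp only [id]
    field_simp
    ring
  have h := monotoneOn_of_hasDerivWithinAt_nonneg (convex_Ici (5/2:ℝ))
    (fun y hy => (hd y hy).continuousAt.continuousWithinAt)
    (fun y hy => (hd y (interior_subset hy)).hasDerivWithinAt)
    (fun y hy => by
      have hy0 : (0:ℝ) < y := lt_of_lt_of_le (by norm_num) (interior_subset hy : (5/2:ℝ) ≤ y)
      positivity) self_mem_Ici (show (5/2:ℝ) ≤ x from hx) hx
  simp at h
  have h3 : (0.916 : ℝ) ≤ log (5 / 2) := by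
    have e : 3 * log (5 / 2 : ℝ) = 4 * log 2 - log (128 / 125) := by
      rw [show (3:ℝ) * log (5 / 2) = log ((5 / 2) ^ 3) by rw [log_pow]; norm_num,
        show (4:ℝ) * log 2 = log ((2:ℝ) ^ 4) by rw [log_pow]; norm_num,
        ← log_div (by norm_num) (by norm_num)]
      norm_num
    have := log_le_sub_one_of_pos (show (0:ℝ) < 128 / 125 by norm_num)
    linarith [log_two_gt_d9]
  linarith

lemma tail_poly {t : ℝ} (ht : 0 ≤ t) :
    let A := 4 / 5 + t
    let Q := 0.2019 / (1 + 2 * t + 2 * t ^ 2 + 4 * t ^ 3 / 3)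
    (2 * ((A + 1 / 2 + Q / 4) ^ 2 * (A * (1 + Q ^ 2) / 2 - (1 - Q ^ 2) / 4)) - A ^ 3)
      * (17 / 5 + (2 * A - 0.3665 + Q - (0.916 + 2 * (2 * A + 1 - 5 / 2) / (2 * A + 1 + 5 / 2))))
      ≤ A ^ 3 := by
  intro A Q
  simp only [A, Q]
  have hD : 0 < 1 + 2 * t + 2 * t ^ 2 + 4 * t ^ 3 / 3 := by positivity
  have hx : 0 < 2 * (4 / 5 + t) + 1 + 5 / 2 := by linarith
  rw [← sub_nonneg]
  field_simp
  ring_nf
  positivity

lemma psiSlope'_eq_aux {r : ℝ} (hr : r ∈ Ioo (0:ℝ) 1) :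
    psiSlope' r * ent r ^ 2 = auxN (artanh r) ^ 2 * auxE (artanh r) / artanh r ^ 2 := by
  obtain ⟨w, hw⟩ : ∃ w, w = artanh r := ⟨_, rfl⟩
  have hw0 : 0 < w := hw ▸ artanh_pos hr
  have hr' : r = tanh w := by rw [hw, tanh_artanh ⟨by linarith [hr.1], hr.2⟩]
  have hc := cosh_pos w
  unfold psiSlope'
  rw [← hw, hr', ent_tanh, auxN, auxE, tanh_eq_sinh_div_cosh]
  have hcs := cosh_sq w
  have h1 : (1:ℝ) - (sinh w / cosh w) ^ 2 = 1 / cosh w ^ 2 := by
    field_simp; linarith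
  rw [h1]
  field_simp

lemma ent_tanh_lb {w : ℝ} (hw : 0 ≤ w) :
    exp (-(2 * w)) * (2 * w + 1) / (1 + exp (-(2 * w))) ≤ ent (tanh w) := by
  set q := exp (-(2 * w)) with hq
  have hq0 : 0 < q := exp_pos _
  set E := exp w with hE
  have hE0 : 0 < E := exp_pos _
  have hem : exp (-w) = E * q := by
    rw [hE, hq, ← exp_add]; congr 1; ring
  have hs : sinh w = E * (1 - q) / 2 := by rw [sinh_eq, hem, ← hE]; ring
  have hc : cosh w = E * (1 + q) / 2 := by rw [cosh_eq, hem, ← hE]; ring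
  have hL : lcosh w = w + log (1 + q) := by
    rw [lcosh, hc, show 2 * (E * (1 + q) / 2) = E * (1 + q) by ring,
      log_mul hE0.ne' (by linarith), hE, log_exp]
  have h3 : q / (1 + q) ≤ log (1 + q) := by
    have := one_sub_inv_le_log_of_pos (show (0:ℝ) < 1 + q by linarith)
    have e1 : 1 - (1 + q)⁻¹ = q / (1 + q) := by field_simp; ring
    linarith
  have e : ent (tanh w) = log (1 + q) + 2 * w * q / (1 + q) := by
    rw [ent_tanh, hL, tanh_eq_sinh_div_cosh, hs, hc]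
    field_simp
    ring
  rw [e]
  have e2 : q * (2 * w + 1) / (1 + q) = q / (1 + q) + 2 * w * q / (1 + q) := by ring
  linarith

lemma auxN_sq_mul_auxE_le {w : ℝ} (h0 : 0 ≤ w) :
    let q := exp (-(2 * w))
    auxN w ^ 2 * auxE w ≤ (w + 1 / 2 + q / 4) ^ 2 * (w * (1 + q ^ 2) / 2 - (1 - q ^ 2) / 4) := by
  intro q
  have hq0 : 0 < q := exp_pos _
  set E := exp w with hE
  have hE0 : 0 < E := exp_pos _
  have hqE : E * E * q = 1 := by
    rw [hE, ← exp_add, ← exp_add]; simp; ring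
  have hem : exp (-w) = E * q := by
    rw [hE, ← exp_add]; congr 1; ring
  have hs : sinh w = E * (1 - q) / 2 := by rw [sinh_eq, hem, ← hE]; ring
  have hc : cosh w = E * (1 + q) / 2 := by rw [cosh_eq, hem, ← hE]; ring
  have hL : lcosh w = w + log (1 + q) := by
    rw [lcosh, hc, show 2 * (E * (1 + q) / 2) = E * (1 + q) by ring,
      log_mul hE0.ne' (by linarith), hE, log_exp]
  have hN : auxN w ≤ E * q * (w + 1 / 2 + q / 4) := by
    have hl := log_one_add_le_pade hq0.le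
    rw [auxN, hL, hc, hs]
    nlinarith [mul_le_mul_of_nonneg_left hl hE0.le]
  have hEe : auxE w = E * E * (w * (1 + q ^ 2) / 2 - (1 - q ^ 2) / 4) := by
    rw [auxE, hs, hc]; ring
  have hB0 : 0 ≤ E * E * (w * (1 + q ^ 2) / 2 - (1 - q ^ 2) / 4) := hEe ▸ auxE_nonneg h0
  calc auxN w ^ 2 * auxE w
      ≤ (E * q * (w + 1 / 2 + q / 4)) ^ 2 *
        (E * E * (w * (1 + q ^ 2) / 2 - (1 - q ^ 2) / 4)) := by
        rw [hEe]
        exact mul_le_mul_of_nonneg_right (pow_le_pow_left₀ auxN_nonneg hN 2) hB0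
    _ = (E * E * q) ^ 2 * ((w + 1 / 2 + q / 4) ^ 2 *
        (w * (1 + q ^ 2) / 2 - (1 - q ^ 2) / 4)) := by ring
    _ = _ := by rw [hqE, one_pow, one_mul]

lemma small_poly {z : ℝ} (h0 : 0 ≤ z) (h1 : z ≤ 16 / 25) :
    let x := (z / 2 - z ^ 2 / 4 + z ^ 3 / 9) / 0.6931
    (2 * ((0.6932 - 0.1534 * z + 0.0289 * z ^ 2) ^ 2 *
        (4 / 3 + 0.5334 * z + 0.077 * z ^ 2 + 0.0066 * z ^ 3)) - 1)
      * (17 / 5 * (1 - x) + (x - x ^ 2 / 2)) ≤ 1 - x := by
  intro x
  simp only [x]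
  obtain ⟨s, hs, rfl⟩ : ∃ s : ℝ, 0 ≤ s ∧ z = 13 / 20 * s / (1 + s) := by
    refine ⟨z / (13 / 20 - z), div_nonneg h0 (by linarith), ?_⟩
    have h2 : (0:ℝ) < 13 / 20 - z := by linarith
    have e : 1 + z / (13 / 20 - z) = 13 / 20 / (13 / 20 - z) := by
      rw [eq_div_iff h2.ne', add_mul, div_mul_cancel₀ _ h2.ne']; ring
    rw [e, mul_div_assoc', div_div_div_cancel_right₀ h2.ne']
    ring
  have h3 : (0:ℝ) < 1 + s := by linarith
  rw [← sub_nonneg]
  field_simp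
  ring_nf
  positivity

lemma hasDerivAt_tanh' (x : ℝ) : HasDerivAt tanh (1 - tanh x ^ 2) x := by
  have h := (hasDerivAt_sinh x).fun_div (hasDerivAt_cosh x) (cosh_pos x).ne'
  rw [show tanh = fun y => sinh y / cosh y from funext tanh_eq_sinh_div_cosh]
  refine h.congr_deriv ?_
  have := (cosh_pos x).ne'
  field_simp

lemma hasDerivAt_ent_tanh (x : ℝ) :
    HasDerivAt (fun y => lcosh y - y * tanh y) (-x * (1 - tanh x ^ 2)) x := by
  refine ((hasDerivAt_lcosh x).fun_sub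
    ((hasDerivAt_id' x).fun_mul (hasDerivAt_tanh' x))).congr_deriv ?_
  ring

lemma tanh_lb {w : ℝ} (h0 : 0 ≤ w) : w - w ^ 3 / 3 ≤ tanh w := by
  have hd : ∀ y : ℝ, HasDerivAt (fun y => tanh y - (y - y ^ 3 / 3)) (y ^ 2 - tanh y ^ 2) y :=
    fun y => by
      refine ((hasDerivAt_tanh' y).sub ((hasDerivAt_id y).sub
        ((hasDerivAt_pow 3 y).div_const 3))).congr_deriv ?_
      norm_num <;> ring
  have := monotoneOn_of_hasDerivWithinAt_nonneg (convex_Ici (0:ℝ))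
    (fun y _ => (hd y).continuousAt.continuousWithinAt)
    (fun y _ => (hd y).hasDerivWithinAt)
    (fun y hy => by
      rw [interior_Ici] at hy
      have hy' : (0:ℝ) < y := hy
      have t0 := tanh_pos_of_pos hy'
      have t1 : tanh y ≤ y := by
        have := tanh_le_poly hy'.le
        rcases le_or_gt (y ^ 2) (5 / 2) with h | h
        · nlinarith [mul_le_mul_of_nonneg_left h (pow_nonneg hy'.le 3)]
        · nlinarith [tanh_lt_one y]
      nlinarith) self_mem_Ici (show (0:ℝ) ≤ w from h0) h0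
  simp at this
  linarith

lemma ent_tanh_lb_two {w : ℝ} (h0 : 0 ≤ w) : log 2 - w ^ 2 / 2 ≤ ent (tanh w) := by
  have hd : ∀ y : ℝ, HasDerivAt (fun y => lcosh y - y * tanh y + y ^ 2 / 2)
      (y * tanh y ^ 2) y := fun y => by
    refine ((hasDerivAt_ent_tanh y).fun_add ((hasDerivAt_pow 2 y).div_const 2)).congr_deriv ?_
    norm_num; ring
  have := monotoneOn_of_hasDerivWithinAt_nonneg (convex_Ici (0:ℝ))
    (fun y _ => (hd y).continuousAt.continuousWithinAt)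
    (fun y _ => (hd y).hasDerivWithinAt)
    (fun y hy => by
      rw [interior_Ici] at hy
      exact mul_nonneg (le_of_lt hy) (sq_nonneg _)) self_mem_Ici (show (0:ℝ) ≤ w from h0) h0
  simp [lcosh] at this
  rw [ent_tanh, lcosh]
  linarith

lemma ent_tanh_lb_six {w : ℝ} (h0 : 0 ≤ w) :
    log 2 - (w ^ 2 / 2 - w ^ 4 / 4 + w ^ 6 / 9) ≤ ent (tanh w) := by
  have hd : ∀ y : ℝ, HasDerivAt
      (fun y => lcosh y - y * tanh y + (y ^ 2 / 2 - y ^ 4 / 4 + y ^ 6 / 9))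
      (y * (tanh y ^ 2 - y ^ 2 + 2 * y ^ 4 / 3)) y := fun y => by
    refine ((hasDerivAt_ent_tanh y).fun_add ((((hasDerivAt_pow 2 y).div_const 2).fun_sub
      ((hasDerivAt_pow 4 y).div_const 4)).fun_add
      ((hasDerivAt_pow 6 y).div_const 9))).congr_deriv ?_
    norm_num; ring
  have := monotoneOn_of_hasDerivWithinAt_nonneg (convex_Ici (0:ℝ))
    (fun y _ => (hd y).continuousAt.continuousWithinAt)
    (fun y _ => (hd y).hasDerivWithinAt)
    (fun y hy => by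
      rw [interior_Ici] at hy
      have hy' : (0:ℝ) < y := hy
      refine mul_nonneg hy'.le ?_
      rcases le_or_gt (y ^ 2) (3 / 2) with h | h
      · have h2 : 0 ≤ y - y ^ 3 / 3 := by nlinarith
        nlinarith [pow_le_pow_left₀ h2 (tanh_lb hy'.le) 2, pow_nonneg hy'.le 6]
      · nlinarith [sq_nonneg (tanh y)]) self_mem_Ici (show (0:ℝ) ≤ w from h0) h0
  simp [lcosh] at this
  rw [ent_tanh, lcosh]
  linarith

lemma small_x {z : ℝ} (h0 : 0 ≤ z) (h1 : z ≤ 16 / 25) :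
    0 ≤ (z / 2 - z ^ 2 / 4 + z ^ 3 / 9) / 0.6931 ∧
      (z / 2 - z ^ 2 / 4 + z ^ 3 / 9) / 0.6931 < 1 := by
  have h2 : 0 ≤ z ^ 3 := pow_nonneg h0 3
  have h4 : z ^ 2 ≤ 16 / 25 * z := by nlinarith
  have h5 : z ^ 3 ≤ 16 / 25 * z ^ 2 := by nlinarith
  constructor
  · exact div_nonneg (by linarith) (by norm_num)
  · rw [div_lt_one (by norm_num)]; linarith

lemma log_le_of_ratio {x H : ℝ} (hx0 : 0 ≤ x) (hx1 : x < 1) (hH0 : 0 < H)
    (hH : (1 - x) * log 2 ≤ H) : log (log 2 / H) ≤ (x - x ^ 2 / 2) / (1 - x) := by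
  have hl0 : (0:ℝ) < log 2 := log_pos (by norm_num)
  have h1x : 0 < 1 - x := by linarith
  have hle : log 2 / H ≤ 1 + x / (1 - x) := by
    rw [div_le_iff₀ hH0, show 1 + x / (1 - x) = 1 / (1 - x) by field_simp; ring,
      one_div_mul_eq_div, le_div_iff₀ h1x]
    linarith
  have hp := log_one_add_le_pade (show 0 ≤ x / (1 - x) by positivity)
  have hpos : 0 < 1 + x / (1 - x) := by positivity
  refine le_trans (log_le_log (by positivity) hle) ?_
  rw [show (x - x ^ 2 / 2) / (1 - x)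
    = (x / (1 - x) + (x / (1 - x)) ^ 2 / 2) / (1 + x / (1 - x)) by field_simp; ring]
  rw [le_div_iff₀ hpos]
  linarith

lemma refined_comb {K cs w Y x : ℝ} (hw : 0 < w) (hx1 : x < 1) (hK : K ≤ w ^ 3 * cs)
    (hY0 : 0 ≤ 17 / 5 + Y) (hY : Y ≤ (x - x ^ 2 / 2) / (1 - x))
    (hsp : (2 * cs - 1) * (17 / 5 * (1 - x) + (x - x ^ 2 / 2)) ≤ 1 - x) :
    (2 * K - w ^ 3) * (17 / 5 + Y) ≤ w ^ 3 := by
  have h3 := pow_pos hw 3
  have h1x : 0 < 1 - x := by linarith
  rcases le_or_gt (2 * K - w ^ 3) 0 with h | h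
  · linarith [mul_nonpos_of_nonpos_of_nonneg h hY0]
  · have h4 : (2 * cs - 1) * (17 / 5 + (x - x ^ 2 / 2) / (1 - x)) ≤ 1 := by
      rw [show 17 / 5 + (x - x ^ 2 / 2) / (1 - x)
        = (17 / 5 * (1 - x) + (x - x ^ 2 / 2)) / (1 - x) by field_simp,
        ← mul_div_assoc, div_le_one h1x]
      exact hsp
    calc (2 * K - w ^ 3) * (17 / 5 + Y)
        ≤ (w ^ 3 * (2 * cs - 1)) * (17 / 5 + (x - x ^ 2 / 2) / (1 - x)) :=
          mul_le_mul (by linarith) (by linarith) hY0 (by linarith)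
      _ = w ^ 3 * ((2 * cs - 1) * (17 / 5 + (x - x ^ 2 / 2) / (1 - x))) := by ring
      _ ≤ w ^ 3 * 1 := mul_le_mul_of_nonneg_left h4 h3.le
      _ = w ^ 3 := mul_one _

lemma log_ratio_tail {A H q Q : ℝ} (hA : 4 / 5 ≤ A) (hH0 : 0 < H) (hq : q = exp (-(2 * A)))
    (hlb : q * (2 * A + 1) ≤ H * (1 + q)) (hqQ : q ≤ Q) :
    log (log 2 / H)
      ≤ 2 * A - 0.3665 + Q - (0.916 + 2 * (2 * A + 1 - 5 / 2) / (2 * A + 1 + 5 / 2)) := by
  have hl0 : (0:ℝ) < log 2 := log_pos (by norm_num)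
  have hq0 : 0 < q := hq ▸ exp_pos _
  have hA1 : 0 < 2 * A + 1 := by linarith
  have hlog := log_ge_tail (show (5:ℝ) / 2 ≤ 2 * A + 1 by linarith)
  have h1 : log 2 / H ≤ log 2 * (1 + q) / (q * (2 * A + 1)) := by
    rw [div_le_div_iff₀ hH0 (by positivity)]
    have := mul_le_mul_of_nonneg_left hlb hl0.le
    linarith
  refine le_trans (log_le_log (by positivity) h1) ?_
  rw [log_div (by positivity) (by positivity), log_mul hl0.ne' (by positivity),
    log_mul hq0.ne' hA1.ne']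
  have h2 : log q = -(2 * A) := by rw [hq, log_exp]
  have h3 : log (log 2) ≤ -0.3665 := by
    rw [log_le_iff_le_exp hl0]
    have h4 : exp (0.3665 : ℝ) ≤ 1.44269 := by
      have := abs_le.mp (Real.exp_bound (x := (0.3665:ℝ)) (by norm_num) (n := 6) (by norm_num))
      simp [Finset.sum_range_succ, Nat.factorial] at this
      norm_num at this ⊢
      linarith
    rw [exp_neg]
    refine le_trans ?_ (inv_anti₀ (exp_pos _) h4)
    refine le_trans log_two_lt_d9.le ?_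
    norm_num
  have h5 := log_le_sub_one_of_pos (show 0 < 1 + q by linarith)
  linarith

lemma tail_mono {A q Q : ℝ} (hA : 1 / 2 ≤ A) (hq0 : 0 ≤ q) (hqQ : q ≤ Q) :
    (A + 1 / 2 + q / 4) ^ 2 * (A * (1 + q ^ 2) / 2 - (1 - q ^ 2) / 4)
      ≤ (A + 1 / 2 + Q / 4) ^ 2 * (A * (1 + Q ^ 2) / 2 - (1 - Q ^ 2) / 4) := by
  have hsq := pow_le_pow_left₀ hq0 hqQ 2
  have h1 : 0 ≤ A * q ^ 2 := mul_nonneg (by linarith) (sq_nonneg q)
  have h2 := sq_nonneg q
  have h3 := mul_le_mul_of_nonneg_left hsq (show (0:ℝ) ≤ A by linarith)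
  exact mul_le_mul (pow_le_pow_left₀ (by linarith) (by linarith) 2) (by linarith) (by linarith)
    (sq_nonneg _)

lemma tail_comb {K A Y M Yb : ℝ} (hA : 0 < A) (hK : K ≤ M) (hY0 : 0 ≤ 17 / 5 + Y) (hY : Y ≤ Yb)
    (hp : (2 * M - A ^ 3) * (17 / 5 + Yb) ≤ A ^ 3) :
    (2 * K - A ^ 3) * (17 / 5 + Y) ≤ A ^ 3 := by
  rcases le_or_gt (2 * K - A ^ 3) 0 with h | h
  · linarith [mul_nonpos_of_nonpos_of_nonneg h hY0, pow_pos hA 3]
  · exact le_trans (mul_le_mul (by linarith) (by linarith) hY0 (by linarith)) hp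

/-- The refined bound `c ≤ 1/2 + 1/(2 (17/5 + log (log 2 / t)))`, cleared of denominators. -/
lemma refined_aux {w : ℝ} (hw : 0 < w) :
    (2 * (auxN w ^ 2 * auxE w) - w ^ 3) * (17 / 5 + log (log 2 / ent (tanh w))) ≤ w ^ 3 := by
  have hmem : tanh w ∈ Ioo (-1:ℝ) 1 := ⟨neg_one_lt_tanh w, tanh_lt_one w⟩
  have hent := ent_pos hmem
  have hl := log_two_gt_d9
  have hl0 : (0:ℝ) < log 2 := by linarith
  have hY0 : 0 ≤ 17 / 5 + log (log 2 / ent (tanh w)) := by
    have := log_nonneg (show 1 ≤ log 2 / ent (tanh w) by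
      rw [le_div_iff₀ hent]; linarith [ent_le (tanh w)])
    linarith
  rcases le_or_gt w (4 / 5) with hs | hb
  · have hz1 : w ^ 2 ≤ 16 / 25 := by nlinarith
    obtain ⟨hx0, hx1⟩ := small_x (sq_nonneg w) hz1
    have hsp := small_poly (sq_nonneg w) hz1
    simp only at hsp
    have hN := auxN_le hw.le (by linarith)
    have hE := auxE_le hw.le (by linarith)
    have hN' : auxN w ≤ 0.6932 - 0.1534 * w ^ 2 + 0.0289 * (w ^ 2) ^ 2 := by
      linarith [log_two_lt_d9]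
    have hc := mul_le_mul (pow_le_pow_left₀ auxN_nonneg hN' 2) hE (auxE_nonneg hw.le) (sq_nonneg _)
    refine refined_comb hw hx1 (hc.trans (le_of_eq ?_)) hY0
      (log_le_of_ratio hx0 hx1 hent ?_) hsp
    · ring
    · have h6 := ent_tanh_lb_six hw.le
      have e : w ^ 2 / 2 - w ^ 4 / 4 + w ^ 6 / 9
          = 0.6931 * (((w ^ 2) / 2 - (w ^ 2) ^ 2 / 4 + (w ^ 2) ^ 3 / 9) / 0.6931) := by
        ring
      linarith [mul_le_mul_of_nonneg_right (show (0.6931:ℝ) ≤ log 2 by linarith) hx0]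
  · obtain ⟨t, ht, rfl⟩ : ∃ t : ℝ, 0 ≤ t ∧ w = 4 / 5 + t := ⟨w - 4 / 5, by linarith, by ring⟩
    have hc := auxN_sq_mul_auxE_le (show 0 ≤ 4 / 5 + t by linarith)
    simp only at hc
    have hp := tail_poly ht
    simp only at hp
    have hqQ := exp_neg_two_mul_le ht
    have hlb := ent_tanh_lb hw.le
    rw [div_le_iff₀ (by linarith [exp_pos (-(2 * (4 / 5 + t)))])] at hlb
    have hy := log_ratio_tail hb.le hent rfl hlb hqQ
    exact tail_comb hw (hc.trans (tail_mono (by linarith) (exp_pos _).le hqQ)) hY0 hy hp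

/-- The lower bound `c ≥ 1/2`. -/
lemma half_aux {w : ℝ} (hw : 0 < w) : w ^ 3 / 2 ≤ auxN w ^ 2 * auxE w := by
  have hc := cosh_pos w
  have hN : auxN w = cosh w * ent (tanh w) := by
    rw [ent_tanh, auxN, tanh_eq_sinh_div_cosh]; field_simp
  rcases le_or_gt w (1 / 2) with h | h
  · have h2 := ent_tanh_lb_two hw.le
    have hz : w ^ 2 ≤ 1 / 4 := by nlinarith
    have hl := log_two_gt_d9
    have hch : 1 + w ^ 2 / 2 ≤ cosh w := by
      have := (hyp_bounds hw.le (by linarith)).2.2.1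
      nlinarith [sq_nonneg (w ^ 2)]
    have hN2 : 0.63 ≤ auxN w := by
      rw [hN]
      refine le_trans ?_ (mul_le_mul hch (le_trans ?_ h2) (show (0:ℝ) ≤ 0.6931 - w ^ 2 / 2 by
        linarith) hc.le)
      · nlinarith
      · linarith
    have hE : 4 / 3 * w ^ 3 ≤ auxE w := by
      have hd : ∀ y : ℝ, HasDerivAt (fun y => auxE y - 4 / 3 * y ^ 3)
          (4 * y * sinh y * cosh y - 4 * y ^ 2) y := fun y => by
        refine ((hasDerivAt_auxE y).sub ((hasDerivAt_pow 3 y).const_mul (4/3:ℝ))).congr_deriv ?_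
        norm_num; ring
      have := monotoneOn_of_hasDerivWithinAt_nonneg (convex_Icc (0:ℝ) 1)
        (fun y _ => (hd y).continuousAt.continuousWithinAt)
        (fun y _ => (hd y).hasDerivWithinAt)
        (fun y hy => by
          rw [interior_Icc] at hy
          obtain ⟨hs, -, hc1, -⟩ := hyp_bounds hy.1.le hy.2.le
          have a1 : y ≤ sinh y := by nlinarith [mul_nonneg hy.1.le (sq_nonneg y)]
          have a2 : 1 ≤ cosh y := one_le_cosh y
          nlinarith [mul_le_mul a1 a2 zero_le_one (by linarith [hy.1] : 0 ≤ sinh y), hy.1])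
        (left_mem_Icc.mpr zero_le_one) ⟨hw.le, by linarith⟩ hw.le
      simp [auxE] at this ⊢
      linarith
    calc w ^ 3 / 2 ≤ 0.63 ^ 2 * (4 / 3 * w ^ 3) := by nlinarith [pow_pos hw 3]
      _ ≤ auxN w ^ 2 * auxE w :=
        mul_le_mul (pow_le_pow_left₀ (by norm_num) hN2 2) hE (by positivity) (sq_nonneg _)
  · set q := exp (-(2 * w)) with hq
    have hq0 : 0 < q := exp_pos _
    set E := exp w with hE
    have hE0 : 0 < E := exp_pos _
    have hqE : E * E * q = 1 := by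
      rw [hE, hq, ← exp_add, ← exp_add]; simp; ring
    have hem : exp (-w) = E * q := by
      rw [hE, hq, ← exp_add]; congr 1; ring
    have hs : sinh w = E * (1 - q) / 2 := by rw [sinh_eq, hem, ← hE]; ring
    have hch : cosh w = E * (1 + q) / 2 := by rw [cosh_eq, hem, ← hE]; ring
    have hlb := ent_tanh_lb hw.le
    rw [← hq, div_le_iff₀ (by linarith)] at hlb
    have hN2 : E * q * (w + 1 / 2) ≤ auxN w := by
      rw [hN, hch]
      nlinarith [mul_le_mul_of_nonneg_left hlb hE0.le]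
    have hEe : auxE w = E * E * (w * (1 + q ^ 2) / 2 - (1 - q ^ 2) / 4) := by
      rw [auxE, hs, hch]; ring
    have hB : 0 ≤ w * (1 + q ^ 2) / 2 - (1 - q ^ 2) / 4 := by nlinarith [sq_nonneg q]
    have key : w ^ 3 / 2 ≤ (w + 1 / 2) ^ 2 * (w * (1 + q ^ 2) / 2 - (1 - q ^ 2) / 4) := by
      rcases le_or_gt 1 w with h1 | h1
      · nlinarith [mul_nonneg (sq_nonneg (w + 1 / 2))
          (mul_nonneg (sq_nonneg q) (show (0:ℝ) ≤ 2 * w + 1 by linarith))]
      · obtain ⟨t, ht0, ht1, hwt⟩ : ∃ t : ℝ, 0 ≤ t ∧ t ≤ 1 / 2 ∧ w = 1 / 2 + t :=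
          ⟨w - 1 / 2, by linarith, by linarith, by ring⟩
        have hq2 : 0.1353 * (1 - t) ^ 4 ≤ q ^ 2 := by
          have e : q ^ 2 = exp (-1) ^ 2 * exp (-t) ^ 4 := by
            rw [hq, hwt, ← exp_nat_mul, ← exp_nat_mul, ← exp_nat_mul, ← exp_add]
            congr 1; push_cast; ring
          rw [e]
          have h1 : (0.36787 : ℝ) ≤ exp (-1) := by
            rw [exp_neg, le_inv_comm₀ (by norm_num) (exp_pos 1)]
            linarith [exp_one_lt_d9, show (2.71829 : ℝ) ≤ 0.36787⁻¹ by norm_num]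
          have h2 : (0.1353 : ℝ) ≤ exp (-1) ^ 2 := by nlinarith
          exact mul_le_mul h2 (pow_le_pow_left₀ (by linarith)
            (by linarith [add_one_le_exp (-t)]) 4) (by positivity) (by positivity)
        have h3 : 0 ≤ (1 + 2 * t + 2 * (1 / 2)) ^ 3 := by positivity
        have hp : w ^ 3 / 2 ≤ (w + 1 / 2) ^ 2 * ((2 * w - 1) / 4)
            + 0.1353 * (1 - t) ^ 4 * ((2 * w + 1) / 4) * (w + 1 / 2) ^ 2 := by
          rw [hwt]
          nlinarith [mul_nonneg ht0 (sub_nonneg.mpr ht1),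
            mul_nonneg (sq_nonneg t) (sub_nonneg.mpr ht1),
            mul_nonneg (pow_nonneg ht0 3) (sub_nonneg.mpr ht1), pow_nonneg ht0 4]
        have hm := mul_le_mul_of_nonneg_right hq2
          (show 0 ≤ (2 * w + 1) / 4 * (w + 1 / 2) ^ 2 by positivity)
        nlinarith
    calc w ^ 3 / 2 ≤ (w + 1 / 2) ^ 2 * (w * (1 + q ^ 2) / 2 - (1 - q ^ 2) / 4) := key
      _ = (E * q * (w + 1 / 2)) ^ 2 * (E * E * (w * (1 + q ^ 2) / 2 - (1 - q ^ 2) / 4)) := by
          rw [show (E * q * (w + 1 / 2)) ^ 2 * (E * E * (w * (1 + q ^ 2) / 2 - (1 - q ^ 2) / 4))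
            = (E * E * q) ^ 2 * ((w + 1 / 2) ^ 2 * (w * (1 + q ^ 2) / 2 - (1 - q ^ 2) / 4)) by ring,
            hqE, one_pow, one_mul]
      _ ≤ auxN w ^ 2 * auxE w := by
          rw [hEe]
          exact mul_le_mul_of_nonneg_right (pow_le_pow_left₀ (by positivity) hN2 2)
            (mul_nonneg (mul_self_nonneg E) hB)

end Vale.Agent.P322
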