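import Mathlib.Analysis.SpecialFunctions.Artanh
import Mathlib.Analysis.SpecialFunctions.BinaryEntropy

/-! Definitions for the Courtade-Kumar inequality via a one-step Bellman inequality. -/

noncomputable section

namespace Vale.Agent.P322

open Real

/-- Entropy (in nats) of a sign with mean `x`. -/
def ent (x : ℝ) : ℝ := Real.binEntropy ((1 + x) / 2)

/-- `log 2 - ent x`. -/
def phi (x : ℝ) : ℝ := Real.log 2 - ent x

/-- The edge energy of the pair `a`, `b`. -/
def edgeJ (a b : ℝ) : ℝ := (a - b) * (artanh a - artanh b) / 4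

/-- The inverse of `ent` on `[0, 1]`, with its argument clipped to `[0, log 2]`. -/
def rEnt (d : ℝ) : ℝ :=
  Function.invFunOn ent (Set.Icc 0 1) (min (max d 0) (Real.log 2))

/-- `psiD (ent r) = r * artanh r`; zero from `log 2` on. -/
def psiD (d : ℝ) : ℝ := rEnt d * artanh (rEnt d)

/-- The perspective weight of the Bellman function at capacity `Hv` and entropy `h`. -/
def tC (Hv h : ℝ) : ℝ := (Hv - h) / Real.log 2 + h / Hv

/-- The Bellman function in the coordinates capacity `Hv`, entropy `h`. -/
def tT (Hv h : ℝ) : ℝ := tC Hv h * psiD (Real.log 2 * (h / Hv) / tC Hv h)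

/-- The Bellman function of a mean `m` and a mean entropy `h`. -/
def bellF (m h : ℝ) : ℝ := tT (ent m) h

/-- Uniform average on a finite type. -/
def avg {ι : Type} [Fintype ι] (f : ι → ℝ) : ℝ := (∑ i, f i) / (Fintype.card ι : ℝ)

/-- The one-step inequality for uniform finite joint laws of a pair in `(-1,1)`. -/
def TwoPointStmt : Prop :=
  ∀ (ι : Type) [Fintype ι] [Nonempty ι] (a b : ι → ℝ),
    (∀ i, a i ∈ Set.Ioo (-1 : ℝ) 1) → (∀ i, b i ∈ Set.Ioo (-1 : ℝ) 1) →
    bellF ((avg a + avg b) / 2) ((avg (fun i => ent (a i)) + avg (fun i => ent (b i))) / 2)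
      ≤ (bellF (avg a) (avg (fun i => ent (a i))) + bellF (avg b) (avg (fun i => ent (b i)))) / 2
        + avg (fun i => edgeJ (a i) (b i))

end Vale.Agent.P322
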