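import Vale.Agent.P322.ElemDefs
import Vale.Agent.P322.ElemMCore

/-! Proof of `ElemM`. -/

noncomputable section

namespace Vale.Agent.P322

open Real Set

namespace ElemMAux

/-- `-log (1 - r ^ 2)`. -/
def TT (r : ℝ) : ℝ := -log (1 - r ^ 2)

/-- The slack kept from the corner lemma. -/
def kap (T : ℝ) : ℝ := 8/125 * T / (1 + 4/25 * T)

/-- `eBd` in the variable `s = 1 - exp (-D/2)`. -/
def gS (s : ℝ) : ℝ := -log (1 - s) + log (1 + -log (1 - s) / (17/10)) / 2

lemma gS_zero : gS 0 = 0 := by simp [gS]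

lemma gS_eq (s : ℝ) : gS s = eBd (-2 * log (1 - s)) := by
  unfold gS eBd; ring_nf

lemma gS_convex : ConvexOn ℝ (Ico (0:ℝ) 1) gS := by
  have hu : ∀ x ∈ Ico (0:ℝ) 1, 0 ≤ -log (1 - x) := fun x hx =>
    neg_nonneg.2 (log_nonpos (by linarith [hx.2]) (by linarith [hx.1]))
  have hL : ∀ x ∈ Ico (0:ℝ) 1, HasDerivAt (fun s => -log (1 - s)) (1 / (1 - x)) x := by
    intro x hx
    refine (((hasDerivAt_id x).const_sub 1).log ?_).neg.congr_deriv ?_
    · simp only [id]; linarith [hx.2]
    · simp only [id]; ring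
  have h1 : ∀ x ∈ Ico (0:ℝ) 1, HasDerivAt gS
      ((1 + 1 / (2 * (17/10 + -log (1 - x)))) / (1 - x)) x := by
    intro x hx
    have := hu x hx
    have hne : (1:ℝ) - x ≠ 0 := by linarith [hx.2]
    refine ((hL x hx).add (((((hL x hx).div_const (17/10)).const_add 1).log
      (by positivity)).div_const 2)).congr_deriv ?_
    generalize -log (1 - x) = L at this ⊢
    field_simp

  have h2 : ∀ x ∈ Ico (0:ℝ) 1, HasDerivAt
      (fun s => (1 + 1 / (2 * (17/10 + -log (1 - s)))) / (1 - s))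
      ((1 + 1 / (2 * (17/10 + -log (1 - x))) - 1 / (2 * (17/10 + -log (1 - x)) ^ 2))
        / (1 - x) ^ 2) x := by
    intro x hx
    have := hu x hx
    have hne : (1:ℝ) - x ≠ 0 := by linarith [hx.2]
    refine ((((hasDerivAt_const x (1:ℝ)).fun_div (((hL x hx).const_add (17/10)).const_mul 2)
      (by positivity)).const_add 1).fun_div ((hasDerivAt_id x).const_sub 1) hne).congr_deriv ?_
    simp only [id]
    generalize -log (1 - x) = L at this ⊢
    field_simp
    ring
  refine convexOn_of_hasDerivWithinAt2_nonneg (convex_Ico 0 1)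
    (fun x hx => (h1 x hx).continuousAt.continuousWithinAt)
    (fun x hx => (h1 x (interior_subset hx)).hasDerivWithinAt)
    (fun x hx => (h2 x (interior_subset hx)).hasDerivWithinAt) (fun x hx => ?_)
  have := hu x (interior_subset hx)
  refine div_nonneg ?_ (sq_nonneg _)
  generalize -log (1 - x) = L at this ⊢
  have h0 : (0:ℝ) < 17/10 + L := by linarith
  field_simp
  nlinarith

/-- `x * gS (F / x)` decreases in `x`. -/
lemma perspective_anti {F x y : ℝ} (hF : 0 ≤ F) (hy : 0 < y) (hFy : F < y) (hyx : y ≤ x) :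
    x * gS (F / x) ≤ y * gS (F / y) := by
  have hx : 0 < x := lt_of_lt_of_le hy hyx
  have m1 : F / y ∈ Ico (0:ℝ) 1 := ⟨div_nonneg hF hy.le, (div_lt_one hy).2 hFy⟩
  have m0 : (0:ℝ) ∈ Ico (0:ℝ) 1 := ⟨le_rfl, one_pos⟩
  have wa : 0 ≤ y / x := by positivity
  have wb : 0 ≤ 1 - y / x := sub_nonneg.2 ((div_le_one hx).2 hyx)
  have h := gS_convex.2 m1 m0 wa wb (by ring)
  simp only [smul_eq_mul, gS_zero, mul_zero, add_zero] at h
  rw [show y / x * (F / y) = F / x by field_simp] at h
  calc x * gS (F / x) ≤ x * (y / x * gS (F / y)) := mul_le_mul_of_nonneg_left h hx.le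
    _ = y * gS (F / y) := by field_simp

lemma artanh_lower {r : ℝ} (hr : r ∈ Ico (0:ℝ) 1) : 3 * r / (3 - r ^ 2) ≤ artanh r := by
  have hd : ∀ x ∈ Icc (0:ℝ) r, HasDerivAt (fun x => artanh x - 3 * x / (3 - x ^ 2))
      (1 / (1 - x ^ 2) - 3 * (3 + x ^ 2) / (3 - x ^ 2) ^ 2) x := by
    intro x hx
    have hx1 : x < 1 := lt_of_le_of_lt hx.2 hr.2
    have hne : (3:ℝ) - x ^ 2 ≠ 0 := by nlinarith [hx.1]
    refine ((hasDerivAt_artanh ⟨by linarith [hx.1], hx1⟩).sub
      (((hasDerivAt_id x).const_mul 3).fun_div ((hasDerivAt_pow 2 x).const_sub 3) hne)).congr_deriv ?_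
    simp only [id]
    field_simp
    ring
  have hm : MonotoneOn (fun x => artanh x - 3 * x / (3 - x ^ 2)) (Icc 0 r) := by
    refine monotoneOn_of_hasDerivWithinAt_nonneg (convex_Icc _ _)
      (fun x hx => (hd x hx).continuousAt.continuousWithinAt)
      (fun x hx => (hd x (interior_subset hx)).hasDerivWithinAt) ?_
    intro x hx
    have hx' := interior_subset hx
    have h1 : 0 < 1 - x ^ 2 := by nlinarith [hx'.1, hx'.2, hr.2]
    have h3 : 0 < (3 - x ^ 2) ^ 2 := pow_pos (by nlinarith [hx'.1, hx'.2, hr.2]) 2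
    rw [sub_nonneg, div_le_div_iff₀ h3 h1]
    nlinarith [sq_nonneg (x ^ 2)]
  have := hm ⟨le_rfl, hr.1⟩ ⟨hr.1, le_rfl⟩ hr.1
  simp at this
  linarith

/-- `ent r - (1 - r²) (artanh r / (2 r) + c)`. -/
def MM (c r : ℝ) : ℝ := ent r - (1 - r ^ 2) * (artanh r / (2 * r) + c)

/-- `(artanh r (1 - r²) - r) / r³`. -/
def kk (r : ℝ) : ℝ := (artanh r * (1 - r ^ 2) - r) / r ^ 3

lemma MM_deriv {c r : ℝ} (hr : r ∈ Ioo (0:ℝ) 1) :
    HasDerivAt (MM c) (r * (kk r / 2 + 2 * c)) r := by
  have hr' : r ∈ Ioo (-1:ℝ) 1 := ⟨by linarith [hr.1], hr.2⟩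
  have h0 : r ≠ 0 := hr.1.ne'
  have hne : (1:ℝ) - r ^ 2 ≠ 0 := by nlinarith [hr.1, hr.2]
  refine ((hasDerivAt_ent hr').sub (((hasDerivAt_pow 2 r).const_sub 1).fun_mul
    (((hasDerivAt_artanh hr').fun_div ((hasDerivAt_id r).const_mul 2)
      (by simpa using h0)).add_const c))).congr_deriv ?_
  simp only [id, kk]
  field_simp
  ring

lemma kk_anti : AntitoneOn kk (Ioo (0:ℝ) 1) := by
  have hd : ∀ x ∈ Ioo (0:ℝ) 1, HasDerivAt kk
      ((3 * x - artanh x * (3 - x ^ 2)) / x ^ 4) x := by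
    intro x hx
    have h0 : x ≠ 0 := hx.1.ne'
    have hne : (1:ℝ) - x ^ 2 ≠ 0 := by nlinarith [hx.1, hx.2]
    refine ((((hasDerivAt_artanh ⟨by linarith [hx.1], hx.2⟩).fun_mul
      ((hasDerivAt_pow 2 x).const_sub 1)).sub (hasDerivAt_id x)).fun_div
      (hasDerivAt_pow 3 x) (pow_ne_zero 3 h0)).congr_deriv ?_
    simp only [id, Pi.sub_apply]
    field_simp
    ring
  refine antitoneOn_of_hasDerivWithinAt_nonpos (convex_Ioo _ _)
    (fun x hx => (hd x hx).continuousAt.continuousWithinAt)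
    (fun x hx => (hd x (interior_subset hx)).hasDerivWithinAt) ?_
  intro x hx
  have hx' := interior_subset hx
  refine div_nonpos_of_nonpos_of_nonneg ?_ (by positivity)
  have h := artanh_lower ⟨hx'.1.le, hx'.2⟩
  have h3 : 0 < 3 - x ^ 2 := by nlinarith [hx'.1, hx'.2]
  rw [div_le_iff₀ h3] at h
  linarith

lemma MM_nonneg {c r : ℝ} (hc0 : 0 ≤ c) (hc : 1/2 < (log 2 - c) * (1 - (1/100:ℝ) ^ 2))
    (hr : r ∈ Ioo (0:ℝ) 1) : 0 ≤ MM c r := by
  rcases le_or_gt (kk r / 2 + 2 * c) 0 with h | h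
  · by_contra hneg
    push Not at hneg
    -- choose `s ≥ r` close to `1`
    set δ := min (-(MM c r) / (4 * (1 / r + c) + 1)) (1/2) with hδ
    have hden : 0 < 4 * (1 / r + c) + 1 := by have := hr.1; positivity
    have hδ0 : 0 < δ := lt_min (div_pos (by linarith) hden) (by norm_num)
    set s := max r (1 - δ ^ 2) with hs
    have hrs : r ≤ s := le_max_left _ _
    have hs1 : s < 1 := max_lt hr.2 (by nlinarith)
    have hs0 : 0 < s := lt_of_lt_of_le hr.1 hrs
    have hm : AntitoneOn (MM c) (Icc r s) := by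
      refine antitoneOn_of_hasDerivWithinAt_nonpos (f' := fun x => x * (kk x / 2 + 2 * c))
        (convex_Icc _ _)
        (fun x hx => (MM_deriv ⟨lt_of_lt_of_le hr.1 hx.1,
          lt_of_le_of_lt hx.2 hs1⟩).continuousAt.continuousWithinAt)
        (fun x hx => (MM_deriv ⟨lt_of_lt_of_le hr.1 (interior_subset hx).1,
          lt_of_le_of_lt (interior_subset hx).2 hs1⟩).hasDerivWithinAt) ?_
      intro x hx
      have hx' := interior_subset hx
      have := kk_anti hr ⟨lt_of_lt_of_le hr.1 hx'.1, lt_of_le_of_lt hx'.2 hs1⟩ hx'.1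
      exact mul_nonpos_of_nonneg_of_nonpos (by linarith [hr.1, hx'.1]) (by linarith)
    have h1 := hm ⟨le_rfl, hrs⟩ ⟨hrs, le_rfl⟩ hrs
    have hq : 1 - s ≤ δ ^ 2 := by have := le_max_right r (1 - δ ^ 2); linarith
    have hA : (1 - s ^ 2) * artanh s ≤ 4 * δ := by
      have hsm : s ∈ Ioo (-1:ℝ) 1 := ⟨by linarith, hs1⟩
      have e1 : artanh s = log (sqrt ((1 + s) / (1 - s))) := by
        rw [log_sqrt (div_nonneg (by linarith) (by linarith)),
          artanh_eq_half_log (Ioo_subset_Icc_self hsm)]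
        ring
      set w := sqrt ((1 + s) / (1 - s))
      have hw : 0 < w := sqrt_pos.2 (div_pos (by linarith) (by linarith))
      have h2 : log w ≤ w := by linarith [log_le_sub_one_of_pos hw]
      have h3 : w * (1 - s) ≤ 2 * δ := by
        have hw2 : w ^ 2 = (1 + s) / (1 - s) :=
          sq_sqrt (div_nonneg (by linarith) (by linarith))
        rw [eq_div_iff (by linarith)] at hw2
        nlinarith [mul_pos hw (sub_pos.2 hs1)]
      rw [e1]
      calc (1 - s ^ 2) * log w ≤ (1 - s ^ 2) * w :=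
            mul_le_mul_of_nonneg_left h2 (by nlinarith)
        _ = (1 + s) * (w * (1 - s)) := by ring
        _ ≤ 4 * δ := by nlinarith [mul_pos hw (sub_pos.2 hs1)]
    have hpart : (1 - s ^ 2) * (artanh s / (2 * s) + c) ≤ δ * (4 * (1 / r + c)) := by
      have e : (1 - s ^ 2) * (artanh s / (2 * s) + c)
          = (1 - s ^ 2) * artanh s * (1 / (2 * s)) + (1 - s ^ 2) * c := by ring
      have i1 : (1:ℝ) / (2 * s) ≤ 1 / r := by
        apply one_div_le_one_div_of_le hr.1; linarith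
      have i2 : 1 - s ^ 2 ≤ 4 * δ := by nlinarith [min_le_right (-(MM c r) / (4 * (1 / r + c) + 1)) (1/2)]
      have i3 := mul_le_mul hA i1 (by positivity) (by linarith)
      have i4 := mul_le_mul_of_nonneg_right i2 hc0
      rw [e]
      nlinarith
    have h2 : δ * (4 * (1 / r + c) + 1) ≤ -(MM c r) :=
      (le_div_iff₀ hden).1 (min_le_left _ _)
    have h3 : 0 ≤ ent s := ent_nonneg ⟨by linarith, hs1.le⟩
    unfold MM at h1 h2
    nlinarith
  · set t := min r (1/100) with ht
    have ht0 : 0 < t := lt_min hr.1 (by norm_num)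
    have htr : t ≤ r := min_le_left _ _
    have ht1 : t < 1 := lt_of_le_of_lt htr hr.2
    have hm : MonotoneOn (MM c) (Icc t r) := by
      refine monotoneOn_of_hasDerivWithinAt_nonneg (f' := fun x => x * (kk x / 2 + 2 * c))
        (convex_Icc _ _)
        (fun x hx => (MM_deriv ⟨lt_of_lt_of_le ht0 hx.1,
          lt_of_le_of_lt hx.2 hr.2⟩).continuousAt.continuousWithinAt)
        (fun x hx => (MM_deriv ⟨lt_of_lt_of_le ht0 (interior_subset hx).1,
          lt_of_le_of_lt (interior_subset hx).2 hr.2⟩).hasDerivWithinAt) ?_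
      intro x hx
      have hx' := interior_subset hx
      have := kk_anti ⟨lt_of_lt_of_le ht0 hx'.1, lt_of_le_of_lt hx'.2 hr.2⟩ hr hx'.2
      exact mul_nonneg (by linarith [hx'.1]) (by linarith)
    have h1 := hm ⟨le_rfl, htr⟩ ⟨htr, le_rfl⟩ htr
    have h2 := sq_le_ent (x := t) ⟨by linarith, ht1.le⟩
    have h3 := artanh_le_div (r := t) ⟨ht0.le, ht1⟩
    have ht2 : t ^ 2 ≤ (1/100:ℝ) ^ 2 := pow_le_pow_left₀ ht0.le (min_le_right _ _) 2
    have h4 : 0 < 1 - t ^ 2 := by nlinarith
    have h5 : (1 - t ^ 2) * (artanh t / (2 * t)) ≤ 1/2 := by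
      rw [le_div_iff₀ h4] at h3
      rw [← mul_div_assoc, div_le_iff₀ (by positivity)]
      linarith
    have hlc : 0 < log 2 - c := by nlinarith
    have h6 := mul_le_mul_of_nonneg_left (sub_le_sub_left ht2 1) hlc.le
    unfold MM at h1 ⊢
    nlinarith

/-- `ent r ≥ (1 - r²) log 2 (1 + a T)`. -/
lemma ent_lower {r : ℝ} (hr : r ∈ Ioo (0:ℝ) 1) :
    (1 - r ^ 2) * (log 2 * (1 + 139/500 * TT r)) ≤ ent r := by
  set c := log 2 * (139/500)
  have hc0 : 0 ≤ c := by positivity
  have hc : 1/2 < (log 2 - c) * (1 - (1/100:ℝ) ^ 2) := by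
    simp only [c]; nlinarith [log_two_gt_d9]
  have hd : ∀ x ∈ Ico (0:ℝ) 1, HasDerivAt (fun x => ent x / (1 - x ^ 2) + c * log (1 - x ^ 2))
      ((- artanh x * (1 - x ^ 2) + 2 * x * ent x - 2 * c * x * (1 - x ^ 2)) / (1 - x ^ 2) ^ 2) x := by
    intro x hx
    have hne : (1:ℝ) - x ^ 2 ≠ 0 := by nlinarith [hx.1, hx.2]
    refine (((hasDerivAt_ent ⟨by linarith [hx.1], hx.2⟩).fun_div
      ((hasDerivAt_pow 2 x).const_sub 1) hne).add
      ((((hasDerivAt_pow 2 x).const_sub 1).log hne).const_mul c)).congr_deriv ?_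
    field_simp
    ring
  have hm : MonotoneOn (fun x => ent x / (1 - x ^ 2) + c * log (1 - x ^ 2)) (Icc 0 r) := by
    refine monotoneOn_of_hasDerivWithinAt_nonneg (convex_Icc _ _)
      (fun x hx => (hd x ⟨hx.1, lt_of_le_of_lt hx.2 hr.2⟩).continuousAt.continuousWithinAt)
      (fun x hx => (hd x ⟨(interior_subset hx).1,
        lt_of_le_of_lt (interior_subset hx).2 hr.2⟩).hasDerivWithinAt) ?_
    intro x hx
    rw [interior_Icc] at hx
    have h := MM_nonneg hc0 hc ⟨hx.1, lt_trans hx.2 hr.2⟩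
    refine div_nonneg ?_ (sq_nonneg _)
    have h0 := hx.1.ne'
    have : - artanh x * (1 - x ^ 2) + 2 * x * ent x - 2 * c * x * (1 - x ^ 2)
        = 2 * x * MM c x := by
      unfold MM; field_simp; ring
    rw [this]; exact mul_nonneg (by linarith [hx.1]) h
  have h := hm ⟨le_rfl, hr.1.le⟩ ⟨hr.1.le, le_rfl⟩ hr.1.le
  simp [ent_zero] at h
  have h4 : 0 < 1 - r ^ 2 := by nlinarith [hr.1, hr.2]
  have h5 : log 2 - c * log (1 - r ^ 2) ≤ ent r / (1 - r ^ 2) := by linarith
  rw [le_div_iff₀ h4] at h5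
  simp only [TT, c] at h5 ⊢
  linarith

lemma TT_pos {r : ℝ} (hr : r ∈ Ioo (0:ℝ) 1) : 0 < TT r :=
  neg_pos.2 (log_neg (by nlinarith [hr.1, hr.2]) (by nlinarith [hr.1]))

/-- `log z / 2 ≥ (z - 1) / (z + 1)`. -/
lemma half_log_lower {z : ℝ} (hz : 1 ≤ z) : (z - 1) / (z + 1) ≤ log z / 2 := by
  have h := le_log_one_add_of_nonneg (x := z - 1) (by linarith)
  rw [show (1:ℝ) + (z - 1) = z by ring, show z - 1 + 2 = z + 1 by ring, mul_div_assoc] at h
  linarith

lemma gS_le {s Lb : ℝ} (hs : s < 1) (hs0 : 0 ≤ s) (hLb : -log (1 - s) ≤ Lb) :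
    gS s ≤ -log (1 - s) + log (1 + Lb / (17/10)) / 2 := by
  have h0 : 0 ≤ -log (1 - s) := neg_nonneg.2 (log_nonpos (by linarith) (by linarith))
  unfold gS
  have := log_le_log (x := 1 + -log (1 - s) / (17/10)) (y := 1 + Lb / (17/10))
    (by positivity) (by linarith)
  linarith

/-- The lemma at the corner mean, with slack. -/
lemma minus_lemma {r : ℝ} (hr : r ∈ Ioo (0:ℝ) 1) :
    gS (phi r / log 2) ≤ TT r - kap (TT r) := by
  have hl : 0 < log 2 := log_pos one_lt_two
  have he := ent_lower hr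
  have hep : 0 < ent r := ent_pos ⟨by linarith [hr.1], hr.2⟩
  have h4 : 0 < 1 - r ^ 2 := by nlinarith [hr.1, hr.2]
  have hT := TT_pos hr
  have hTdef : log (1 - r ^ 2) = -TT r := by simp [TT]
  set T := TT r
  have h1 : (1 - r ^ 2) * (1 + 139/500 * T) ≤ 1 - phi r / log 2 := by
    rw [phi, sub_div, div_self hl.ne', sub_sub_cancel, le_div_iff₀ hl]; linarith
  have hw : 0 < 1 + 139/500 * T := by positivity
  have hL := log_le_log (mul_pos h4 hw) h1
  rw [log_mul h4.ne' hw.ne', hTdef] at hL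
  have hlog : 139/500 * T / (1 + 139/500 * T) ≤ log (1 + 139/500 * T) := by
    have h := one_sub_inv_le_log_of_pos hw
    rwa [show 1 - (1 + 139/500 * T)⁻¹ = 139/500 * T / (1 + 139/500 * T) by field_simp; ring] at h
  have hs1 : phi r / log 2 < 1 := by rw [div_lt_one hl, phi]; linarith
  have hs0 : 0 ≤ phi r / log 2 := div_nonneg (by simp only [phi]; linarith [ent_le r]) hl.le
  have h0 : 0 ≤ -log (1 - phi r / log 2) := neg_nonneg.2 (log_nonpos (by linarith) (by linarith))
  set L1 := T - 139/500 * T / (1 + 139/500 * T) with hL1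
  have hLb : -log (1 - phi r / log 2) ≤ L1 := by simp only [hL1]; linarith
  have hg := gS_le hs1 hs0 hLb
  have hL10 : 0 ≤ L1 := le_trans h0 hLb
  -- now a rational inequality
  set Z := (1 + 139/500 * T) ^ 2 / (1 + L1 / (17/10)) with hZdef
  have hz0 : 0 < 1 + L1 / (17/10) := by positivity
  have hQ : 1 + L1 / (17/10) =
      (17/10 * (1 + 139/500 * T) + T * (1 - 139/500 + 139/500 * T))
        / (17/10 * (1 + 139/500 * T)) := by
    simp only [hL1]; field_simp; ring
  have hZ : Z = 17/10 * (1 + 139/500 * T) ^ 3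
      / (17/10 * (1 + 139/500 * T) + T * (1 - 139/500 + 139/500 * T)) := by
    rw [hZdef, hQ]; field_simp
  have hden : 0 < 17/10 * (1 + 139/500 * T) + T * (1 - 139/500 + 139/500 * T) := by positivity
  have hZ1 : 1 ≤ Z := by
    rw [hZ, one_le_div hden]; nlinarith [mul_pos hT hT, pow_pos hT 3]
  have hlogZ := half_log_lower hZ1
  have hrat : kap T ≤ (Z - 1) / (Z + 1) := by
    rw [hZ, div_sub_one hden.ne', div_add_one hden.ne', div_div_div_cancel_right₀ hden.ne', kap,
      div_le_div_iff₀ (by positivity) (by positivity)]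
    nlinarith [mul_nonneg hT.le (sq_nonneg (T - 634/1000)), pow_pos hT 3, pow_pos hT 4,
      mul_pos hT hT]
  have hlz : log Z = 2 * log (1 + 139/500 * T) - log (1 + L1 / (17/10)) := by
    rw [hZdef, log_div (by positivity) hz0.ne', log_pow]; push_cast; ring
  linarith

lemma numB_le_numA {x T : ℝ} (hx : 0 < x) (hxl : x ≤ 6932/10000) (hT : 0 < T) (hTx : x ^ 2 ≤ T) :
    ElemMCore.numB x T ≤ ElemMCore.numA x T := by
  have i1 : 12 * x ^ 3 * T ≤ 12 * (6932/10000) * (x ^ 2 * T) := by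
    nlinarith [mul_le_mul_of_nonneg_right hxl (mul_nonneg (sq_nonneg x) hT.le)]
  have i2 : 4 * x ^ 2 * T ^ 2 ≤ 4 * (6932/10000) * (x * T ^ 2) := by
    nlinarith [mul_le_mul_of_nonneg_right hxl (mul_nonneg hx.le (sq_nonneg T))]
  have i3 : 8 * x ^ 4 ≤ 8 * (x ^ 2 * T) := by
    nlinarith [mul_le_mul_of_nonneg_left hTx (sq_nonneg x)]
  have i4 : 0 ≤ x ^ 2 * T := by positivity
  have i5 : 0 ≤ x * T ^ 2 := by positivity
  have i6 : 0 ≤ T ^ 3 := by positivity
  unfold ElemMCore.numA ElemMCore.numB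
  ring_nf
  linarith

/-- The lemma at the full mean. -/
lemma plus_lemma {r : ℝ} (hr : r ∈ Ioo (0:ℝ) 1) :
    log (1 + r) * gS (phi r / log (1 + r)) ≤ log 2 * TT r + log 2 * kap (TT r) := by
  have h1r : 0 < 1 - r := by linarith [hr.2]
  have h2r : 0 < 1 + r := by linarith [hr.1]
  set x := log (1 + r) with hxdef
  have hx : 0 < x := log_pos (by linarith [hr.1])
  have hx1 : x < log 2 := log_lt_log h2r (by linarith [hr.2])
  have hT := TT_pos hr
  have hTy : TT r = -log (1 - r) - x := by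
    simp only [TT, hxdef]
    rw [show 1 - r ^ 2 = (1 - r) * (1 + r) by ring, log_mul h1r.ne' h2r.ne']; ring
  set T := TT r with hTdef
  have hcore := ElemMCore.core (x := x) (T := T) hx hx1 (by
    rw [hxdef, exp_log h2r, hTdef, TT]; ring_nf)
  have hphi : phi r = ((1 + r) * x - (1 - r) * (T + x)) / 2 := by
    rw [hTy, phi, ent, binEntropy, show 1 - (1 + r) / 2 = (1 - r) / 2 by ring, log_inv, log_inv,
      log_div h2r.ne' two_ne_zero, log_div h1r.ne' two_ne_zero, hxdef]
    ring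
  have hD : 0 < 2 * x + T := by linarith
  have hs : 1 - phi r / x = (1 - r) * ((2 * x + T) / (2 * x)) := by
    rw [hphi]; field_simp; ring
  have hs1 : phi r / x < 1 := by
    have : 0 < (1 - r) * ((2 * x + T) / (2 * x)) := by positivity
    linarith [hs]
  have hs0 : 0 ≤ phi r / x := div_nonneg (by simp only [phi]; linarith [ent_le r]) hx.le
  have hL : -log (1 - phi r / x) = T + x - log ((2 * x + T) / (2 * x)) := by
    rw [hs, log_mul h1r.ne' (by positivity), hTy]; ring
  set w := (2 * x + T) / (2 * x) with hw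
  have hw0 : 0 < w := by positivity
  have hlogw : T / (2 * x + T) ≤ log w := by
    have h := one_sub_inv_le_log_of_pos hw0
    rwa [show 1 - w⁻¹ = T / (2 * x + T) by rw [hw]; field_simp; ring] at h
  set Lb := T + x - T / (2 * x + T) with hLbdef
  have h0 : 0 ≤ -log (1 - phi r / x) := neg_nonneg.2 (log_nonpos (by linarith) (by linarith))
  have hLb : -log (1 - phi r / x) ≤ Lb := by rw [hL, hLbdef]; linarith
  have hg := gS_le hs1 hs0 hLb
  have hz0 : 0 < 1 + Lb / (17/10) := by linarith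
  set A := ElemMCore.numA x T with hA
  set B := ElemMCore.numB x T with hB
  have hE : 0 < (17/10 + T + x) * (2 * x + T) - T := by nlinarith
  have hB0 : 0 < B := by rw [hB, ElemMCore.numB]; positivity
  have hA0 : 0 < A := by rw [hA, ElemMCore.numA]; positivity
  have hZ : w ^ 2 / (1 + Lb / (17/10)) = A / B := by
    rw [hw, hLbdef, hA, hB, ElemMCore.numA, ElemMCore.numB,
      show 1 + (T + x - T / (2 * x + T)) / (17/10)
        = ((17/10 + T + x) * (2 * x + T) - T) / (17/10 * (2 * x + T)) by field_simp; ring]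
    field_simp
    ring
  have hTx : x ^ 2 ≤ T := by
    have h1 : r ^ 2 ≤ T := by
      have := log_le_sub_one_of_pos (show 0 < 1 - r ^ 2 by nlinarith [hr.1, hr.2])
      simp only [hTdef, TT]; linarith
    have h2 : x ≤ r := by have := log_le_sub_one_of_pos h2r; linarith
    nlinarith [mul_le_mul h2 h2 hx.le hr.1.le]
  have hxl : x ≤ 6932/10000 := by linarith [log_two_lt_d9]
  have hAB : B ≤ A := numB_le_numA hx hxl hT hTx
  have hlogZ := half_log_lower (z := A / B) ((one_le_div hB0).2 hAB)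
  rw [← hZ, log_div (by positivity) hz0.ne', log_pow, hZ,
    show (A / B - 1) / (A / B + 1) = (A - B) / (A + B) by field_simp] at hlogZ
  push_cast at hlogZ
  have hq : 0 < 1 + 4/25 * T := by positivity
  have hs2 : 0 < (A + B) * (1 + 4/25 * T) := by positivity
  have hfin : x * (T + x) - x * ((A - B) / (A + B)) ≤ log 2 * T + log 2 * kap T := by
    rw [← sub_nonneg]
    have e : log 2 * T + log 2 * kap T - (x * (T + x) - x * ((A - B) / (A + B)))
        = (((log 2 - x) * T - x ^ 2) * (A + B) * (1 + 4/25 * T) + x * (A - B) * (1 + 4/25 * T)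
          + log 2 * (8/125) * T * (A + B)) / ((A + B) * (1 + 4/25 * T)) := by
      unfold kap; field_simp; ring
    rw [e]; exact div_nonneg hcore hs2.le
  have := mul_le_mul_of_nonneg_left hg hx.le
  have := mul_le_mul_of_nonneg_left hlogZ hx.le
  rw [hL] at *
  linarith

lemma kap_mono {p n : ℝ} (hp : 0 < p) (hpn : p ≤ n) (hn : n < 1) :
    kap (TT p) * n ^ 2 ≤ kap (TT n) * p ^ 2 := by
  have h1 : MonotoneOn (fun T => kap T / (1 - exp (-T))) (Ioi 0) := by
    have hd : ∀ T ∈ Ioi (0:ℝ), HasDerivAt (fun T => kap T / (1 - exp (-T)))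
        (8/125 * ((1 - exp (-T)) - T * (1 + 4/25 * T) * exp (-T))
          / ((1 + 4/25 * T) * (1 - exp (-T))) ^ 2) T := by
      intro T hT
      have hT' : (0:ℝ) < T := hT
      have e1 : 0 < 1 - exp (-T) := by
        have := exp_lt_one_iff.2 (show -T < 0 by linarith); linarith
      have e2 : (0:ℝ) < 1 + 4/25 * T := by positivity
      refine ((((hasDerivAt_id T).const_mul (8/125:ℝ)).fun_div
        (((hasDerivAt_id T).const_mul (4/25:ℝ)).const_add 1) e2.ne').fun_div
        ((hasDerivAt_neg T).exp.const_sub 1) e1.ne').congr_deriv ?_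
      simp only [id]
      field_simp
      ring
    refine monotoneOn_of_hasDerivWithinAt_nonneg (convex_Ioi _)
      (fun T hT => (hd T hT).continuousAt.continuousWithinAt)
      (fun T hT => (hd T (interior_subset hT)).hasDerivWithinAt) ?_
    intro T hT
    have hT' : (0:ℝ) < T := interior_subset hT
    refine div_nonneg (mul_nonneg (by norm_num) ?_) (sq_nonneg _)
    have h := quadratic_le_exp_of_nonneg hT'.le
    have h2 : 1 - exp (-T) - T * (1 + 4/25 * T) * exp (-T)
        = exp (-T) * (exp T - (1 + T + 4/25 * T ^ 2)) := by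
      rw [mul_sub, ← exp_add]; ring_nf; rw [exp_zero]; ring
    rw [h2]
    exact mul_nonneg (exp_pos _).le (by nlinarith)
  have hp' : p ∈ Ioo (0:ℝ) 1 := ⟨hp, by linarith⟩
  have hn' : n ∈ Ioo (0:ℝ) 1 := ⟨by linarith, hn⟩
  have hle : TT p ≤ TT n := by
    simp only [TT, neg_le_neg_iff]
    exact log_le_log (by nlinarith) (by nlinarith)
  have h := h1 (TT_pos hp') (TT_pos hn') hle
  have e : ∀ r ∈ Ioo (0:ℝ) 1, 1 - exp (-TT r) = r ^ 2 := fun r hr => by
    simp only [TT, neg_neg]; rw [exp_log (by nlinarith [hr.1, hr.2])]; ring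
  simp only [e p hp', e n hn'] at h
  rw [div_le_div_iff₀ (by positivity) (by nlinarith)] at h
  exact h

lemma ent_children (m d : ℝ) (hm : 0 ≤ m) (hd : 0 < d) (hmd : d < 1 - m) :
    entBar m d = ent m - ((1 + m) / 2 * phi (d / (1 + m)) + (1 - m) / 2 * phi (d / (1 - m))) := by
  have h1 : 0 < 1 + m := by linarith
  have h2 : 0 < 1 - m := by linarith
  have hp : d / (1 + m) < 1 := by rw [div_lt_one h1]; linarith
  have hn : d / (1 - m) < 1 := by rw [div_lt_one h2]; linarith
  have hp0 : 0 < d / (1 + m) := by positivity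
  have hn0 : 0 < d / (1 - m) := by positivity
  obtain ⟨p, hpd⟩ : ∃ p, d / (1 + m) = p := ⟨_, rfl⟩
  obtain ⟨q, hqd⟩ : ∃ q, d / (1 - m) = q := ⟨_, rfl⟩
  rw [hpd] at hp hp0; rw [hqd] at hn hn0
  have hd1 : d = p * (1 + m) := by rw [← hpd]; field_simp
  have hd2 : d = q * (1 - m) := by rw [← hqd]; field_simp
  rw [hpd, hqd]
  simp only [entBar, phi, ent, binEntropy, log_inv]
  rw [show (1 + (m + d)) / 2 = (1 + m) / 2 * (1 + p) by rw [hd1]; ring,
    show (1 + (m - d)) / 2 = (1 + m) / 2 * (1 - p) by rw [hd1]; ring,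
    show 1 - (1 + m) / 2 * (1 + p) = (1 - m) / 2 * (1 - q) by linarith [hd1, hd2],
    show 1 - (1 + m) / 2 * (1 - p) = (1 - m) / 2 * (1 + q) by linarith [hd1, hd2],
    show 1 - (1 + p) / 2 = (1 - p) / 2 by ring, show 1 - (1 + q) / 2 = (1 - q) / 2 by ring,
    show 1 - (1 + m) / 2 = (1 - m) / 2 by ring]
  rw [log_mul (by positivity) (by linarith), log_mul (by positivity) (by linarith),
    log_mul (by positivity) (by linarith), log_mul (by positivity) (by linarith),
    log_div (by linarith : (1:ℝ) + p ≠ 0) two_ne_zero,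
    log_div (by linarith : (1:ℝ) - p ≠ 0) two_ne_zero,
    log_div (by linarith : (1:ℝ) + q ≠ 0) two_ne_zero,
    log_div (by linarith : (1:ℝ) - q ≠ 0) two_ne_zero]
  ring

lemma ellGap_eq (m d : ℝ) (h1 : 0 < 1 + m - d) (hd : 0 < d) :
    ellGap m d = TT (d / (1 + m)) / 2 := by
  have hm : 0 < 1 + m := by linarith
  have h2 : 1 - (d / (1 + m)) ^ 2 = ((1 + m + d) * (1 + m - d)) / (1 + m) ^ 2 := by
    field_simp; ring
  simp only [ellGap, ell, TT]
  rw [h2, log_div (mul_pos (by linarith) h1).ne' (by positivity), log_mul (by linarith) h1.ne', log_pow,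
    log_div (by linarith) two_ne_zero, log_div (by linarith) two_ne_zero,
    log_div hm.ne' two_ne_zero]
  push_cast
  ring_nf

end ElemMAux

open ElemMAux in
/-- `ElemM` holds. -/
theorem elemM_holds : ElemM := by
  intro m d hm hd hmd
  have h1 : 0 < 1 + m := by linarith
  have h2 : 0 < 1 - m := by linarith
  set p := d / (1 + m) with hpdef
  set n := d / (1 - m) with hndef
  have hp : p ∈ Ioo (0:ℝ) 1 := ⟨by positivity, by rw [hpdef, div_lt_one h1]; linarith⟩
  have hn : n ∈ Ioo (0:ℝ) 1 := ⟨by positivity, by rw [hndef, div_lt_one h2]; linarith⟩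
  have hpn : p ≤ n := div_le_div_of_nonneg_left hd.le h2 (by linarith)
  set Wp := (1 + m) / 2 with hWp
  set Wn := (1 - m) / 2 with hWn
  have hWp0 : 0 < Wp := by positivity
  have hWn0 : 0 < Wn := by positivity
  have hbar := ent_children m d hm hd hmd
  rw [← hpdef, ← hndef, ← hWp, ← hWn] at hbar
  have hHsum : ent m = Wp * ell m + Wn * ell (-m) := by
    simp only [ent, binEntropy, ell, hWp, hWn, log_inv,
      show 1 - (1 + m) / 2 = (1 - m) / 2 by ring, ← sub_eq_add_neg]
  set xp := ell m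
  set xn := ell (-m)
  have hxp : log (1 + p) ≤ xp := by
    have e : xp = log (2 / (1 + m)) := by
      simp only [xp, ell]; rw [← log_inv, inv_div]
    rw [e]
    refine log_le_log (by linarith [hp.1]) ?_
    rw [hpdef, le_div_iff₀ h1, add_mul, div_mul_cancel₀ d h1.ne']; linarith
  have hxn : log 2 ≤ xn := by
    have e : xn = log (2 / (1 - m)) := by
      simp only [xn, ell]; rw [← log_inv, inv_div, ← sub_eq_add_neg]
    rw [e]
    refine log_le_log two_pos ?_
    rw [le_div_iff₀ h2]; linarith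
  have hl : 0 < log 2 := log_pos one_lt_two
  have hxp1 : 0 < log (1 + p) := log_pos (by linarith [hp.1])
  have hφp : 0 ≤ phi p := by simp only [phi]; linarith [ent_le p]
  have hφn : 0 ≤ phi n := by simp only [phi]; linarith [ent_le n]
  have hφn1 : phi n < log 2 := by
    simp only [phi]; linarith [ent_pos (x := n) ⟨by linarith [hn.1], hn.2⟩]
  have hφp1 : phi p < log (1 + p) := by
    have h := artanh_pos hp
    rw [artanh_eq_half_log_sub ⟨by linarith [hp.1], hp.2⟩] at h
    simp only [phi, ent, binEntropy, log_inv, show 1 - (1 + p) / 2 = (1 - p) / 2 by ring]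
    rw [log_div (by linarith [hp.1]) two_ne_zero, log_div (by linarith [hp.2]) two_ne_zero]
    nlinarith [mul_pos (sub_pos.2 hp.2) h]
  have hxp0 : 0 < xp := by linarith
  have hxn0 : 0 < xn := by linarith
  have hH : 0 < ent m := ent_pos ⟨by linarith, by linarith⟩
  have hG1 : (Wp * phi p + Wn * phi n) / ent m < 1 := by
    rw [div_lt_one hH, hHsum]
    nlinarith
  have hG0 : 0 ≤ (Wp * phi p + Wn * phi n) / ent m := by positivity
  have hratio : entBar m d / ent m = 1 - (Wp * phi p + Wn * phi n) / ent m := by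
    rw [hbar]; field_simp
  have hlhs : eBd (2 * log (ent m / entBar m d)) = gS ((Wp * phi p + Wn * phi n) / ent m) := by
    rw [gS_eq, ← hratio, ← inv_div (entBar m d) (ent m), log_inv]; ring_nf
  -- Jensen
  have mp : phi p / xp ∈ Ico (0:ℝ) 1 :=
    ⟨div_nonneg hφp hxp0.le, (div_lt_one hxp0).2 (by linarith)⟩
  have mn : phi n / xn ∈ Ico (0:ℝ) 1 :=
    ⟨div_nonneg hφn hxn0.le, (div_lt_one hxn0).2 (by linarith)⟩
  have wa : 0 ≤ Wp * xp / ent m := by positivity
  have wb : 0 ≤ Wn * xn / ent m := by positivity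
  have hJ := gS_convex.2 mp mn wa wb (by rw [← add_div, ← hHsum, div_self hH.ne'])
  simp only [smul_eq_mul] at hJ
  rw [show Wp * xp / ent m * (phi p / xp) + Wn * xn / ent m * (phi n / xn)
    = (Wp * phi p + Wn * phi n) / ent m by field_simp] at hJ
  have hJ' : ent m * gS ((Wp * phi p + Wn * phi n) / ent m)
      ≤ Wp * (xp * gS (phi p / xp)) + Wn * (xn * gS (phi n / xn)) := by
    refine le_trans (mul_le_mul_of_nonneg_left hJ hH.le) (le_of_eq ?_)
    field_simp
  have hP := le_trans (perspective_anti hφp hxp1 hφp1 hxp) (plus_lemma hp)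
  have hN := le_trans (perspective_anti hφn hl hφn1 hxn)
    (mul_le_mul_of_nonneg_left (minus_lemma hn) hl.le)
  have hk := kap_mono hp.1 hpn hn.2
  have hkn : 0 ≤ kap (TT n) := by
    have := TT_pos hn
    unfold kap; positivity
  have hWk : Wp * kap (TT p) ≤ Wn * kap (TT n) := by
    refine le_of_mul_le_mul_right (a := n ^ 2) ?_ (by have := hn.1; positivity)
    calc Wp * kap (TT p) * n ^ 2 = Wp * (kap (TT p) * n ^ 2) := by ring
      _ ≤ Wp * (kap (TT n) * p ^ 2) := mul_le_mul_of_nonneg_left hk hWp0.le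
      _ ≤ Wn * kap (TT n) * n ^ 2 := by
        have e1 : Wp * p ^ 2 ≤ Wn * n ^ 2 := by
          have i1 : Wp * p ^ 2 = d / 2 * p := by
            simp only [hWp, hpdef]; field_simp
          have i2 : Wn * n ^ 2 = d / 2 * n := by
            simp only [hWn, hndef]; field_simp
          rw [i1, i2]; exact mul_le_mul_of_nonneg_left hpn (by linarith)
        calc Wp * (kap (TT n) * p ^ 2) = kap (TT n) * (Wp * p ^ 2) := by ring
          _ ≤ kap (TT n) * (Wn * n ^ 2) := mul_le_mul_of_nonneg_left e1 hkn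
          _ = Wn * kap (TT n) * n ^ 2 := by ring
  have e1 := ellGap_eq m d (by linarith) hd
  have e2 := ellGap_eq (-m) d (by linarith) hd
  rw [← sub_eq_add_neg] at e2
  rw [hlhs, e1, e2]
  have a1 := mul_le_mul_of_nonneg_left hP hWp0.le
  have a2 := mul_le_mul_of_nonneg_left hN hWn0.le
  have a3 := mul_le_mul_of_nonneg_left hWk hl.le
  simp only [hWp, hWn] at hJ' a1 a2 a3 ⊢
  linarith

end Vale.Agent.P322
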