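import Vale.Agent.P322.OneHighSlope
import Mathlib.Analysis.Complex.ExponentialBounds

/-! Parameters of the boxes: each follows from its value at the ends of the interval. -/

noncomputable section

namespace Vale.Agent.P322

open Real Set

lemma high_log_bounds {v x lo hi : ℝ} (n : ℕ) (h0 : 0 ≤ x) (h1 : x < 1)
    (hv : v = (1 + x) / (1 - x))
    (hlo : lo ≤ 2 * ∑ i ∈ Finset.range n, x ^ (2 * i + 1) / (2 * i + 1))
    (hhi : 2 * ((∑ i ∈ Finset.range n, x ^ (2 * i + 1) / (2 * i + 1))
      + x ^ (2 * n + 1) / (1 - x ^ 2)) ≤ hi) : lo ≤ log v ∧ log v ≤ hi := by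
  subst hv
  have a := sum_range_le_log_div h0 h1 n
  have b := log_div_le_sum_range_add h0 h1 n
  constructor <;> linarith

lemma high_hasDerivAt_dc {m : ℝ} (h0 : 0 < m) :
    HasDerivAt highDc ((log m - log (1 + m)) / 2) m := by
  have a := (hasDerivAt_id' m).fun_mul (hasDerivAt_log h0.ne')
  have b := ((hasDerivAt_id' m).const_add 1).fun_mul
    (((hasDerivAt_id' m).const_add 1).log (show 1 + m ≠ 0 by linarith))
  refine (((a.sub b).div_const 2).const_add (log 2)).congr_deriv ?_
  have : 1 + m ≠ 0 := by linarith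
  field_simp
  ring

lemma high_continuousAt_dc {m : ℝ} (h0 : 0 < m) : ContinuousAt highDc m :=
  (high_hasDerivAt_dc h0).continuousAt

/-- `t * ent - highDc` is concave. -/
lemma high_t_of_ends {t a b : ℝ} (ht : 0 ≤ t) (ha : 0 < a) (hb : b ≤ 1)
    (ea : highDc a ≤ t * ent a) (eb : highDc b ≤ t * ent b) {m : ℝ} (hm : m ∈ Icc a b) :
    highDc m ≤ t * ent m := by
  have hc : ConcaveOn ℝ (Icc a b) (fun x => t * ent x - highDc x) := by
    refine concaveOn_of_hasDerivWithinAt2_nonpos (convex_Icc a b)
      (f' := fun x => t * -artanh x - (log x - log (1 + x)) / 2)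
      (f'' := fun x => t * -(1 / (1 - x ^ 2)) - (1 / x - 1 / (1 + x)) / 2) ?_ ?_ ?_ ?_
    · exact fun x hx => ((ent_continuous.continuousAt.const_mul t).sub
        (high_continuousAt_dc (by linarith [hx.1]))).continuousWithinAt
    · intro x hx
      rw [interior_Icc] at hx
      exact (((hasDerivAt_ent ⟨by linarith [hx.1], by linarith [hx.2]⟩).const_mul t).sub
        (high_hasDerivAt_dc (by linarith [hx.1]))).hasDerivWithinAt
    · intro x hx
      rw [interior_Icc] at hx
      have hx0 : 0 < x := by linarith [hx.1]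
      refine (((hasDerivAt_artanh ⟨by linarith, by linarith [hx.2]⟩).neg.const_mul t).sub
        (((hasDerivAt_log hx0.ne').sub
          (((hasDerivAt_id' x).const_add 1).log (show 1 + x ≠ 0 by linarith))).div_const 2)
          |>.congr_deriv ?_).hasDerivWithinAt
      field_simp
    · intro x hx
      rw [interior_Icc] at hx
      have hx0 : 0 < x := by linarith [hx.1]
      have h1 : 0 ≤ 1 / (1 - x ^ 2) := div_nonneg (by norm_num) (by nlinarith [hx.2])
      have h2 : 1 / (1 + x) ≤ 1 / x := one_div_le_one_div_of_le hx0 (by linarith)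
      nlinarith [mul_nonneg ht h1]
  have := hc.min_le_of_mem_Icc (left_mem_Icc.2 (hm.1.trans hm.2))
    (right_mem_Icc.2 (hm.1.trans hm.2)) hm
  rcases min_le_iff.1 this with h | h <;> linarith

/-- `ent - k * ell` is concave. -/
lemma high_be_of_ends {k a b : ℝ} (hk : 0 ≤ k) (ha : 0 ≤ a) (hb : b ≤ 1)
    (ea : k * ell a ≤ ent a) (eb : k * ell b ≤ ent b) {m : ℝ} (hm : m ∈ Icc a b) :
    k * ell m ≤ ent m := by
  have hc : ConcaveOn ℝ (Icc a b) (fun x => ent x - k * (log 2 - log (1 + x))) := by
    refine concaveOn_of_hasDerivWithinAt2_nonpos (convex_Icc a b)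
      (f' := fun x => -artanh x - k * -(1 / (1 + x)))
      (f'' := fun x => -(1 / (1 - x ^ 2)) - k * (1 / (1 + x) ^ 2)) ?_ ?_ ?_ ?_
    · intro x hx
      refine (ent_continuous.continuousAt.sub (ContinuousAt.const_mul ?_ k)).continuousWithinAt
      exact continuousAt_const.sub
        ((continuousAt_const.add continuousAt_id).log (by simp; linarith [hx.1]))
    · intro x hx
      rw [interior_Icc] at hx
      exact ((hasDerivAt_ent ⟨by linarith [hx.1], by linarith [hx.2]⟩).sub
        (((((hasDerivAt_id' x).const_add 1).log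
          (show 1 + x ≠ 0 by linarith [hx.1])).const_sub (log 2)).const_mul k)).hasDerivWithinAt
    · intro x hx
      rw [interior_Icc] at hx
      have h0 : 1 + x ≠ 0 := by linarith [hx.1]
      have hd : HasDerivAt (fun y => 1 / (1 + y)) (-(1 / (1 + x) ^ 2)) x := by
        simp only [one_div]
        refine (((hasDerivAt_id' x).const_add 1).fun_inv h0).congr_deriv ?_
        ring
      refine (((hasDerivAt_artanh ⟨by linarith [hx.1], by linarith [hx.2]⟩).neg.sub
        ((hd.neg).const_mul k)).congr_deriv ?_).hasDerivWithinAt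
      ring
    · intro x hx
      rw [interior_Icc] at hx
      have h1 : 0 ≤ 1 / (1 - x ^ 2) := div_nonneg (by norm_num) (by nlinarith [hx.1, hx.2])
      have h2 : 0 ≤ k * (1 / (1 + x) ^ 2) := by positivity
      linarith
  have hab := hm.1.trans hm.2
  have := hc.min_le_of_mem_Icc (left_mem_Icc.2 hab) (right_mem_Icc.2 hab) hm
  rw [ell_eq (show -1 < m by linarith [hm.1])]
  rw [ell_eq (show -1 < a by linarith)] at ea
  rw [ell_eq (show -1 < b by linarith)] at eb
  rcases min_le_iff.1 this with h | h <;> linarith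

/-- `M * highGc - ell * highDc`, whose sign carries the slope bound. -/
def highPhi (M m : ℝ) : ℝ := M * highGc m - (log 2 - log (1 + m)) * highDc m

/-- Derivative of `highPhi`. -/
def highPhi1 (M m : ℝ) : ℝ :=
  M * (1 / (1 + m) - 1 / (2 * m)) + highDc m / (1 + m)
    - (log 2 - log (1 + m)) * ((log m - log (1 + m)) / 2)

lemma high_hasDerivAt_phi {M m : ℝ} (h0 : 0 < m) : HasDerivAt (highPhi M) (highPhi1 M m) m := by
  have h1 : 1 + m ≠ 0 := by linarith
  have g : HasDerivAt highGc (1 / (1 + m) - 1 / (2 * m)) m := by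
    refine (((((hasDerivAt_id' m).const_add 1).log h1).sub_const (log 2)).sub
      ((hasDerivAt_log h0.ne').div_const 2)).congr_deriv ?_
    field_simp
  refine ((g.const_mul M).sub (((((hasDerivAt_id' m).const_add 1).log h1).const_sub
    (log 2)).fun_mul (high_hasDerivAt_dc h0))).congr_deriv ?_
  unfold highPhi1
  field_simp
  ring

/-- Lower bound for the second derivative of `highPhi`, times `2 m ^ 2 (1 + m) ^ 3`. -/
def highPhi2 (M m : ℝ) : ℝ :=
  M * ((1 + m) ^ 3 - 2 * m ^ 2 * (1 + m))
    - 866434 / 625000 * m ^ 2 * (1 + m) ^ 2 - (1 - m) * m * (1 + m) ^ 2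
    - 866434 / 1250000 * (1 - m) * m ^ 2 * (1 + m) - (1 - m) ^ 2 * m ^ 2
    - (1 - m) * m * (1 + m)

lemma high_phi_nonneg {M a b : ℝ} (ha : 0 < a) (hb : b ≤ 1) (e0 : 0 ≤ highPhi M b)
    (e1 : highPhi1 M b ≤ 0) (h2 : ∀ m ∈ Icc a b, 0 ≤ highPhi2 M m) {m : ℝ} (hm : m ∈ Icc a b) :
    (log 2 - log (1 + m)) * highDc m ≤ M * highGc m := by
  have hd2 : ∀ x ∈ Icc a b, ∃ v, HasDerivAt (highPhi1 M) v x ∧ 0 ≤ v := by
    intro x hx
    have x0 : 0 < x := by linarith [hx.1]
    have x1 : 0 ≤ 1 - x := by linarith [hx.2]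
    have h1 : (0:ℝ) < 1 + x := by linarith
    have hlog := ((hasDerivAt_id' x).const_add 1).log h1.ne'
    have hd : HasDerivAt (fun y => 1 / (1 + y) - 1 / (2 * y))
        (1 / (2 * x ^ 2) - 1 / (1 + x) ^ 2) x := by
      simp only [one_div]
      refine ((((hasDerivAt_id' x).const_add 1).fun_inv h1.ne').sub
        (((hasDerivAt_id' x).const_mul 2).fun_inv (by linarith))).congr_deriv ?_
      field_simp
      ring
    refine ⟨_, ((hd.const_mul M).add ((high_hasDerivAt_dc x0).fun_div
      ((hasDerivAt_id' x).const_add 1) h1.ne')).sub ((hlog.const_sub (log 2)).fun_mul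
      (((hasDerivAt_log x0.ne').sub hlog).div_const 2)), ?_⟩
    have hl2 : log 2 ≤ 866434 / 1250000 := by linarith [log_two_lt_d9]
    have b1 : log (1 + x) - log x ≤ log 2 + (1 - x) / (2 * x) := by
      have h := log_le_sub_one_of_pos (show 0 < (1 + x) / (2 * x) by positivity)
      rw [log_div h1.ne' (by linarith), log_mul (by norm_num) x0.ne'] at h
      have e : (1 + x) / (2 * x) - 1 = (1 - x) / (2 * x) := by field_simp; ring
      linarith
    have b2 : log 2 - log (1 + x) ≤ (1 - x) / (1 + x) := by
      have h := log_le_sub_one_of_pos (show 0 < 2 / (1 + x) by positivity)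
      rw [log_div (by norm_num) h1.ne'] at h
      have e : 2 / (1 + x) - 1 = (1 - x) / (1 + x) := by field_simp; ring
      linarith
    have b3 : log 2 + (1 - x) / (1 + x) ≤ log (1 + x) - log x := by
      have h := log_le_sub_one_of_pos (show 0 < 2 * x / (1 + x) by positivity)
      rw [log_div (by linarith) h1.ne', log_mul (by norm_num) x0.ne'] at h
      have e : 2 * x / (1 + x) - 1 = -((1 - x) / (1 + x)) := by field_simp; ring
      linarith
    have b4 : highDc x ≤ (1 - x) * (866434 / 2500000) + (1 - x) ^ 2 / (2 * (1 + x)) := by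
      have h := mul_le_mul_of_nonneg_left b3 x0.le
      have h' := mul_le_mul_of_nonneg_left hl2 x1
      have e : (1 - x) ^ 2 / (2 * (1 + x))
          = (1 - x) / (1 + x) / 2 - x * ((1 - x) / (1 + x)) / 2 := by field_simp
      unfold highDc
      linarith
    have q := h2 x hx
    unfold highPhi2 at q
    have c1 := mul_le_mul_of_nonneg_right (le_trans b1 (add_le_add hl2 le_rfl))
      (show 0 ≤ 2 * x ^ 2 * (1 + x) ^ 2 by positivity)
    have c2 := mul_le_mul_of_nonneg_right b4 (show 0 ≤ 2 * x ^ 2 * (1 + x) by positivity)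
    have c3 := mul_le_mul_of_nonneg_right b2
      (show 0 ≤ x * (1 + x) ^ 2 by positivity)
    have c4 : (1 - x) / (1 + x) * (x * (1 + x) ^ 2) = (1 - x) * x * (1 + x) := by field_simp
    have c5 : (1 - x) / (2 * x) * (2 * x ^ 2 * (1 + x) ^ 2) = (1 - x) * x * (1 + x) ^ 2 := by
      field_simp
    have c6 : (1 - x) ^ 2 / (2 * (1 + x)) * (2 * x ^ 2 * (1 + x)) = (1 - x) ^ 2 * x ^ 2 := by
      field_simp
    refine le_of_mul_le_mul_right ?_ (show 0 < 2 * x ^ 2 * (1 + x) ^ 3 by positivity)
    rw [zero_mul]
    field_simp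
    nlinarith
  choose v hv using hd2
  have hv1 : ∀ x ∈ Icc a b, HasDerivAt (highPhi1 M) (deriv (highPhi1 M) x) x := fun x hx =>
    (hv x hx).1.differentiableAt.hasDerivAt
  have mono := monotoneOn_of_hasDerivWithinAt_nonneg (convex_Icc a b)
    (fun x hx => (hv1 x hx).continuousAt.continuousWithinAt)
    (fun x hx => (hv1 x (interior_subset hx)).hasDerivWithinAt)
    (fun x hx => by rw [(hv x (interior_subset hx)).1.deriv]; exact (hv x (interior_subset hx)).2)
  have anti := antitoneOn_of_hasDerivWithinAt_nonpos (convex_Icc a b)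
    (fun x hx => (high_hasDerivAt_phi (M := M) (show 0 < x by linarith [hx.1]))
      |>.continuousAt.continuousWithinAt)
    (fun x hx => (high_hasDerivAt_phi (M := M)
      (show 0 < x by linarith [(interior_subset hx).1])).hasDerivWithinAt)
    (fun x hx => le_trans
      (mono (interior_subset hx) (right_mem_Icc.2 (hm.1.trans hm.2)) (interior_subset hx).2) e1)
  have h := anti hm (right_mem_Icc.2 (hm.1.trans hm.2)) hm.2
  unfold highPhi at h e0
  linarith

/-- The four facts used on a box. -/
def HighParams (a b e1 t2 be M : ℝ) : Prop :=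
  ∀ m ∈ Icc a b, m < 1 → e1 * log 2 ≤ ent m ∧ highDc m ≤ t2 * ent m ∧
    (2 * be + 1) * ell m ≤ ent m ∧ ell m * highDc m ≤ M * highGc m

lemma high_params_of {a b e1 t2 be M : ℝ} (ha : 0 < a) (hb : b ≤ 1) (ht : 0 ≤ t2)
    (hk : 0 ≤ 2 * be + 1) (he : e1 * log 2 ≤ ent b) (ta : highDc a ≤ t2 * ent a)
    (tb : highDc b ≤ t2 * ent b) (ka : (2 * be + 1) * ell a ≤ ent a)
    (kb : (2 * be + 1) * ell b ≤ ent b) (e0 : 0 ≤ highPhi M b) (e1' : highPhi1 M b ≤ 0)
    (h2 : ∀ m ∈ Icc a b, 0 ≤ highPhi2 M m) : HighParams a b e1 t2 be M := by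
  intro m hm hm1
  refine ⟨?_, high_t_of_ends ht ha hb ta tb hm, high_be_of_ends hk ha.le hb ka kb hm, ?_⟩
  · exact he.trans (ent_strictAntiOn.antitoneOn ⟨by linarith [hm.1], hm1.le⟩
      ⟨by linarith [hm.1, hm.2], hb⟩ hm.2)
  · rw [ell_eq (show -1 < m by linarith [hm.1])]
    exact high_phi_nonneg ha hb e0 e1' h2 hm

private lemma lg_a375 : ((-49041463/50000000) : ℝ) ≤ log (3/8) ∧ log (3/8) ≤ (-245207313/250000000) := by
  have h := high_log_bounds (v := (8/3)) (x := (5/11)) (lo := (245207313/250000000)) (hi := (49041463/50000000)) 12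
    (by norm_num) (by norm_num) (by norm_num) (by norm_num [Finset.sum_range_succ])
    (by norm_num [Finset.sum_range_succ])
  rw [show (3/8) = ((8/3) : ℝ)⁻¹ by norm_num, log_inv]
  constructor <;> linarith [h.1, h.2]

private lemma lg_b375 : ((31845373/100000000) : ℝ) ≤ log (11/8) ∧ log (11/8) ≤ (159226867/500000000) := high_log_bounds (x := (3/19)) 5
    (by norm_num) (by norm_num) (by norm_num) (by norm_num [Finset.sum_range_succ])
    (by norm_num [Finset.sum_range_succ])

private lemma lg_c375 : ((-47000363/100000000) : ℝ) ≤ log (5/8) ∧ log (5/8) ≤ (-470003629/1000000000) := by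
  have h := high_log_bounds (v := (8/5)) (x := (3/13)) (lo := (470003629/1000000000)) (hi := (47000363/100000000)) 7
    (by norm_num) (by norm_num) (by norm_num) (by norm_num [Finset.sum_range_succ])
    (by norm_num [Finset.sum_range_succ])
  rw [show (5/8) = ((8/5) : ℝ)⁻¹ by norm_num, log_inv]
  constructor <;> linarith [h.1, h.2]

private lemma lg_a400 : ((-45814537/50000000) : ℝ) ≤ log (2/5) ∧ log (2/5) ≤ (-916290731/1000000000) := by
  have h := high_log_bounds (v := (5/2)) (x := (3/7)) (lo := (916290731/1000000000)) (hi := (45814537/50000000)) 11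
    (by norm_num) (by norm_num) (by norm_num) (by norm_num [Finset.sum_range_succ])
    (by norm_num [Finset.sum_range_succ])
  rw [show (2/5) = ((5/2) : ℝ)⁻¹ by norm_num, log_inv]
  constructor <;> linarith [h.1, h.2]

private lemma lg_b400 : ((84118059/250000000) : ℝ) ≤ log (7/5) ∧ log (7/5) ≤ (168236121/500000000) := high_log_bounds (x := (1/6)) 5
    (by norm_num) (by norm_num) (by norm_num) (by norm_num [Finset.sum_range_succ])
    (by norm_num [Finset.sum_range_succ])

private lemma lg_c400 : ((-255412813/500000000) : ℝ) ≤ log (3/5) ∧ log (3/5) ≤ (-510825623/1000000000) := by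
  have h := high_log_bounds (v := (5/3)) (x := (1/4)) (lo := (510825623/1000000000)) (hi := (255412813/500000000)) 7
    (by norm_num) (by norm_num) (by norm_num) (by norm_num [Finset.sum_range_succ])
    (by norm_num [Finset.sum_range_succ])
  rw [show (3/5) = ((5/3) : ℝ)⁻¹ by norm_num, log_inv]
  constructor <;> linarith [h.1, h.2]

private lemma lg_a425 : ((-855666113/1000000000) : ℝ) ≤ log (17/40) ∧ log (17/40) ≤ (-855666109/1000000000) := by
  have h := high_log_bounds (v := (40/17)) (x := (23/57)) (lo := (855666109/1000000000)) (hi := (855666113/1000000000)) 11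
    (by norm_num) (by norm_num) (by norm_num) (by norm_num [Finset.sum_range_succ])
    (by norm_num [Finset.sum_range_succ])
  rw [show (17/40) = ((40/17) : ℝ)⁻¹ by norm_num, log_inv]
  constructor <;> linarith [h.1, h.2]

private lemma lg_b425 : ((88542953/250000000) : ℝ) ≤ log (57/40) ∧ log (57/40) ≤ (354171823/1000000000) := high_log_bounds (x := (17/97)) 5
    (by norm_num) (by norm_num) (by norm_num) (by norm_num [Finset.sum_range_succ])
    (by norm_num [Finset.sum_range_succ])

private lemma lg_c425 : ((-110677049/200000000) : ℝ) ≤ log (23/40) ∧ log (23/40) ≤ (-553385237/1000000000) := by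
  have h := high_log_bounds (v := (40/23)) (x := (17/63)) (lo := (553385237/1000000000)) (hi := (110677049/200000000)) 7
    (by norm_num) (by norm_num) (by norm_num) (by norm_num [Finset.sum_range_succ])
    (by norm_num [Finset.sum_range_succ])
  rw [show (23/40) = ((40/23) : ℝ)⁻¹ by norm_num, log_inv]
  constructor <;> linarith [h.1, h.2]

private lemma lg_a460 : ((-97066099/125000000) : ℝ) ≤ log (23/50) ∧ log (23/50) ≤ (-776528789/1000000000) := by
  have h := high_log_bounds (v := (50/23)) (x := (27/73)) (lo := (776528789/1000000000)) (hi := (97066099/125000000)) 10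
    (by norm_num) (by norm_num) (by norm_num) (by norm_num [Finset.sum_range_succ])
    (by norm_num [Finset.sum_range_succ])
  rw [show (23/50) = ((50/23) : ℝ)⁻¹ by norm_num, log_inv]
  constructor <;> linarith [h.1, h.2]

private lemma lg_b460 : ((75687287/200000000) : ℝ) ≤ log (73/50) ∧ log (73/50) ≤ (378436437/1000000000) := high_log_bounds (x := (23/123)) 6
    (by norm_num) (by norm_num) (by norm_num) (by norm_num [Finset.sum_range_succ])
    (by norm_num [Finset.sum_range_succ])

private lemma lg_c460 : ((-308093071/500000000) : ℝ) ≤ log (27/50) ∧ log (27/50) ≤ (-616186139/1000000000) := by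
  have h := high_log_bounds (v := (50/27)) (x := (23/77)) (lo := (616186139/1000000000)) (hi := (308093071/500000000)) 8
    (by norm_num) (by norm_num) (by norm_num) (by norm_num [Finset.sum_range_succ])
    (by norm_num [Finset.sum_range_succ])
  rw [show (27/50) = ((50/27) : ℝ)⁻¹ by norm_num, log_inv]
  constructor <;> linarith [h.1, h.2]

private lemma lg_a500 : ((-693147183/1000000000) : ℝ) ≤ log (1/2) ∧ log (1/2) ≤ (-34657359/50000000) := by
  have h := high_log_bounds (v := 2) (x := (1/3)) (lo := (34657359/50000000)) (hi := (693147183/1000000000)) 9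
    (by norm_num) (by norm_num) (by norm_num) (by norm_num [Finset.sum_range_succ])
    (by norm_num [Finset.sum_range_succ])
  rw [show (1/2) = (2 : ℝ)⁻¹ by norm_num, log_inv]
  constructor <;> linarith [h.1, h.2]

private lemma lg_b500 : ((405465107/1000000000) : ℝ) ≤ log (3/2) ∧ log (3/2) ≤ (40546511/100000000) := high_log_bounds (x := (1/5)) 6
    (by norm_num) (by norm_num) (by norm_num) (by norm_num [Finset.sum_range_succ])
    (by norm_num [Finset.sum_range_succ])

private lemma lg_c500 : ((-693147183/1000000000) : ℝ) ≤ log (1/2) ∧ log (1/2) ≤ (-34657359/50000000) := by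
  have h := high_log_bounds (v := 2) (x := (1/3)) (lo := (34657359/50000000)) (hi := (693147183/1000000000)) 9
    (by norm_num) (by norm_num) (by norm_num) (by norm_num [Finset.sum_range_succ])
    (by norm_num [Finset.sum_range_succ])
  rw [show (1/2) = (2 : ℝ)⁻¹ by norm_num, log_inv]
  constructor <;> linarith [h.1, h.2]

private lemma lg_a550 : ((-597837003/1000000000) : ℝ) ≤ log (11/20) ∧ log (11/20) ≤ (-597837/1000000) := by
  have h := high_log_bounds (v := (20/11)) (x := (9/31)) (lo := (597837/1000000)) (hi := (597837003/1000000000)) 8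
    (by norm_num) (by norm_num) (by norm_num) (by norm_num [Finset.sum_range_succ])
    (by norm_num [Finset.sum_range_succ])
  rw [show (11/20) = ((20/11) : ℝ)⁻¹ by norm_num, log_inv]
  constructor <;> linarith [h.1, h.2]

private lemma lg_b550 : ((43825493/100000000) : ℝ) ≤ log (31/20) ∧ log (31/20) ≤ (54781867/125000000) := high_log_bounds (x := (11/51)) 6
    (by norm_num) (by norm_num) (by norm_num) (by norm_num [Finset.sum_range_succ])
    (by norm_num [Finset.sum_range_succ])

private lemma lg_c550 : ((-7985077/10000000) : ℝ) ≤ log (9/20) ∧ log (9/20) ≤ (-49906731/62500000) := by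
  have h := high_log_bounds (v := (20/9)) (x := (11/29)) (lo := (49906731/62500000)) (hi := (7985077/10000000)) 10
    (by norm_num) (by norm_num) (by norm_num) (by norm_num [Finset.sum_range_succ])
    (by norm_num [Finset.sum_range_succ])
  rw [show (9/20) = ((20/9) : ℝ)⁻¹ by norm_num, log_inv]
  constructor <;> linarith [h.1, h.2]

private lemma lg_a620 : ((-239017901/500000000) : ℝ) ≤ log (31/50) ∧ log (31/50) ≤ (-2390179/5000000) := by
  have h := high_log_bounds (v := (50/31)) (x := (19/81)) (lo := (2390179/5000000)) (hi := (239017901/500000000)) 7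
    (by norm_num) (by norm_num) (by norm_num) (by norm_num [Finset.sum_range_succ])
    (by norm_num [Finset.sum_range_succ])
  rw [show (31/50) = ((50/31) : ℝ)⁻¹ by norm_num, log_inv]
  constructor <;> linarith [h.1, h.2]

private lemma lg_b620 : ((482426149/1000000000) : ℝ) ≤ log (81/50) ∧ log (81/50) ≤ (482426151/1000000000) := high_log_bounds (x := (31/131)) 7
    (by norm_num) (by norm_num) (by norm_num) (by norm_num [Finset.sum_range_succ])
    (by norm_num [Finset.sum_range_succ])

private lemma lg_c620 : ((-30237001/31250000) : ℝ) ≤ log (19/50) ∧ log (19/50) ≤ (-483792013/500000000) := by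
  have h := high_log_bounds (v := (50/19)) (x := (31/69)) (lo := (483792013/500000000)) (hi := (30237001/31250000)) 12
    (by norm_num) (by norm_num) (by norm_num) (by norm_num [Finset.sum_range_succ])
    (by norm_num [Finset.sum_range_succ])
  rw [show (19/50) = ((50/19) : ℝ)⁻¹ by norm_num, log_inv]
  constructor <;> linarith [h.1, h.2]

private lemma lg_a700 : ((-71334989/200000000) : ℝ) ≤ log (7/10) ∧ log (7/10) ≤ (-356674943/1000000000) := by
  have h := high_log_bounds (v := (10/7)) (x := (3/17)) (lo := (356674943/1000000000)) (hi := (71334989/200000000)) 6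
    (by norm_num) (by norm_num) (by norm_num) (by norm_num [Finset.sum_range_succ])
    (by norm_num [Finset.sum_range_succ])
  rw [show (7/10) = ((10/7) : ℝ)⁻¹ by norm_num, log_inv]
  constructor <;> linarith [h.1, h.2]

private lemma lg_b700 : ((2122513/4000000) : ℝ) ≤ log (17/10) ∧ log (17/10) ≤ (106125651/200000000) := high_log_bounds (x := (7/27)) 7
    (by norm_num) (by norm_num) (by norm_num) (by norm_num [Finset.sum_range_succ])
    (by norm_num [Finset.sum_range_succ])

private lemma lg_c700 : ((-150496601/125000000) : ℝ) ≤ log (3/10) ∧ log (3/10) ≤ (-300993201/250000000) := by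
  have h := high_log_bounds (v := (10/3)) (x := (7/13)) (lo := (300993201/250000000)) (hi := (150496601/125000000)) 16
    (by norm_num) (by norm_num) (by norm_num) (by norm_num [Finset.sum_range_succ])
    (by norm_num [Finset.sum_range_succ])
  rw [show (3/10) = ((10/3) : ℝ)⁻¹ by norm_num, log_inv]
  constructor <;> linarith [h.1, h.2]

private lemma lg_a770 : ((-52272953/200000000) : ℝ) ≤ log (77/100) ∧ log (77/100) ≤ (-65341191/250000000) := by
  have h := high_log_bounds (v := (100/77)) (x := (23/177)) (lo := (65341191/250000000)) (hi := (52272953/200000000)) 5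
    (by norm_num) (by norm_num) (by norm_num) (by norm_num [Finset.sum_range_succ])
    (by norm_num [Finset.sum_range_succ])
  rw [show (77/100) = ((100/77) : ℝ)⁻¹ by norm_num, log_inv]
  constructor <;> linarith [h.1, h.2]

private lemma lg_b770 : ((114195909/200000000) : ℝ) ≤ log (177/100) ∧ log (177/100) ≤ (142744889/250000000) := high_log_bounds (x := (77/277)) 7
    (by norm_num) (by norm_num) (by norm_num) (by norm_num [Finset.sum_range_succ])
    (by norm_num [Finset.sum_range_succ])

private lemma lg_c770 : ((-183709497/125000000) : ℝ) ≤ log (23/100) ∧ log (23/100) ≤ (-1469675969/1000000000) := by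
  have h := high_log_bounds (v := (100/23)) (x := (77/123)) (lo := (1469675969/1000000000)) (hi := (183709497/125000000)) 21
    (by norm_num) (by norm_num) (by norm_num) (by norm_num [Finset.sum_range_succ])
    (by norm_num [Finset.sum_range_succ])
  rw [show (23/100) = ((100/23) : ℝ)⁻¹ by norm_num, log_inv]
  constructor <;> linarith [h.1, h.2]

private lemma lg_a850 : ((-16251893/100000000) : ℝ) ≤ log (17/20) ∧ log (17/20) ≤ (-162518929/1000000000) := by
  have h := high_log_bounds (v := (20/17)) (x := (3/37)) (lo := (162518929/1000000000)) (hi := (16251893/100000000)) 4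
    (by norm_num) (by norm_num) (by norm_num) (by norm_num [Finset.sum_range_succ])
    (by norm_num [Finset.sum_range_succ])
  rw [show (17/20) = ((20/17) : ℝ)⁻¹ by norm_num, log_inv]
  constructor <;> linarith [h.1, h.2]

private lemma lg_b850 : ((307592819/500000000) : ℝ) ≤ log (37/20) ∧ log (37/20) ≤ (307592821/500000000) := high_log_bounds (x := (17/57)) 8
    (by norm_num) (by norm_num) (by norm_num) (by norm_num [Finset.sum_range_succ])
    (by norm_num [Finset.sum_range_succ])

private lemma lg_c850 : ((-237139999/125000000) : ℝ) ≤ log (3/20) ∧ log (3/20) ≤ (-118569999/62500000) := by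
  have h := high_log_bounds (v := (20/3)) (x := (17/23)) (lo := (118569999/62500000)) (hi := (237139999/125000000)) 33
    (by norm_num) (by norm_num) (by norm_num) (by norm_num [Finset.sum_range_succ])
    (by norm_num [Finset.sum_range_succ])
  rw [show (3/20) = ((20/3) : ℝ)⁻¹ by norm_num, log_inv]
  constructor <;> linarith [h.1, h.2]

lemma highParams0 : HighParams (3/8) (2/5) (22/25) (117/250) (41/125) (193/200) := by
  have := log_two_gt_d9
  have := log_two_lt_d9
  obtain ⟨_, _⟩ := lg_a375
  obtain ⟨_, _⟩ := lg_b375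
  obtain ⟨_, _⟩ := lg_c375
  have E375 := high_ent_eq (m := (3/8)) (by constructor <;> norm_num)
  norm_num at E375
  have A375 := ell_eq (x := (3/8)) (by norm_num)
  norm_num at A375
  obtain ⟨_, _⟩ := lg_a400
  obtain ⟨_, _⟩ := lg_b400
  obtain ⟨_, _⟩ := lg_c400
  have E400 := high_ent_eq (m := (2/5)) (by constructor <;> norm_num)
  norm_num at E400
  have A400 := ell_eq (x := (2/5)) (by norm_num)
  norm_num at A400
  refine high_params_of (by norm_num) (by norm_num) (by norm_num) (by norm_num) ?_ ?_ ?_ ?_ ?_ ?_ ?_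
    fun m ⟨h0, h1⟩ => by
      have m0 : 0 ≤ m := by linarith
      have q := mul_nonneg (sub_nonneg.2 h0) (sub_nonneg.2 h1)
      unfold highPhi2
      nlinarith [q, mul_nonneg m0 q, mul_nonneg (mul_nonneg m0 m0) q, mul_nonneg q q,
        sub_nonneg.2 h0, mul_nonneg (sub_nonneg.2 h1) m0]

  all_goals
    try simp only [highPhi, highPhi1, highDc, highGc]
    norm_num [E375, A375, E400, A400]
    try nlinarith

lemma highParams1 : HighParams (2/5) (17/40) (173/200) (9/20) (89/250) (989/1000) := by
  have := log_two_gt_d9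
  have := log_two_lt_d9
  obtain ⟨_, _⟩ := lg_a400
  obtain ⟨_, _⟩ := lg_b400
  obtain ⟨_, _⟩ := lg_c400
  have E400 := high_ent_eq (m := (2/5)) (by constructor <;> norm_num)
  norm_num at E400
  have A400 := ell_eq (x := (2/5)) (by norm_num)
  norm_num at A400
  obtain ⟨_, _⟩ := lg_a425
  obtain ⟨_, _⟩ := lg_b425
  obtain ⟨_, _⟩ := lg_c425
  have E425 := high_ent_eq (m := (17/40)) (by constructor <;> norm_num)
  norm_num at E425
  have A425 := ell_eq (x := (17/40)) (by norm_num)
  norm_num at A425
  refine high_params_of (by norm_num) (by norm_num) (by norm_num) (by norm_num) ?_ ?_ ?_ ?_ ?_ ?_ ?_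
    fun m ⟨h0, h1⟩ => by
      have m0 : 0 ≤ m := by linarith
      have q := mul_nonneg (sub_nonneg.2 h0) (sub_nonneg.2 h1)
      unfold highPhi2
      nlinarith [q, mul_nonneg m0 q, mul_nonneg (mul_nonneg m0 m0) q, mul_nonneg q q,
        sub_nonneg.2 h0, mul_nonneg (sub_nonneg.2 h1) m0]

  all_goals
    try simp only [highPhi, highPhi1, highDc, highGc]
    norm_num [E400, A400, E425, A425]
    try nlinarith

lemma highParams2 : HighParams (17/40) (23/50) (841/1000) (54/125) (48/125) (51/50) := by
  have := log_two_gt_d9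
  have := log_two_lt_d9
  obtain ⟨_, _⟩ := lg_a425
  obtain ⟨_, _⟩ := lg_b425
  obtain ⟨_, _⟩ := lg_c425
  have E425 := high_ent_eq (m := (17/40)) (by constructor <;> norm_num)
  norm_num at E425
  have A425 := ell_eq (x := (17/40)) (by norm_num)
  norm_num at A425
  obtain ⟨_, _⟩ := lg_a460
  obtain ⟨_, _⟩ := lg_b460
  obtain ⟨_, _⟩ := lg_c460
  have E460 := high_ent_eq (m := (23/50)) (by constructor <;> norm_num)
  norm_num at E460
  have A460 := ell_eq (x := (23/50)) (by norm_num)
  norm_num at A460
  refine high_params_of (by norm_num) (by norm_num) (by norm_num) (by norm_num) ?_ ?_ ?_ ?_ ?_ ?_ ?_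
    fun m ⟨h0, h1⟩ => by
      have m0 : 0 ≤ m := by linarith
      have q := mul_nonneg (sub_nonneg.2 h0) (sub_nonneg.2 h1)
      unfold highPhi2
      nlinarith [q, mul_nonneg m0 q, mul_nonneg (mul_nonneg m0 m0) q, mul_nonneg q q,
        sub_nonneg.2 h0, mul_nonneg (sub_nonneg.2 h1) m0]

  all_goals
    try simp only [highPhi, highPhi1, highDc, highGc]
    norm_num [E425, A425, E460, A460]
    try nlinarith

lemma highParams3 : HighParams (23/50) (1/2) (81/100) (409/1000) (213/500) (211/200) := by
  have := log_two_gt_d9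
  have := log_two_lt_d9
  obtain ⟨_, _⟩ := lg_a460
  obtain ⟨_, _⟩ := lg_b460
  obtain ⟨_, _⟩ := lg_c460
  have E460 := high_ent_eq (m := (23/50)) (by constructor <;> norm_num)
  norm_num at E460
  have A460 := ell_eq (x := (23/50)) (by norm_num)
  norm_num at A460
  obtain ⟨_, _⟩ := lg_a500
  obtain ⟨_, _⟩ := lg_b500
  obtain ⟨_, _⟩ := lg_c500
  have E500 := high_ent_eq (m := (1/2)) (by constructor <;> norm_num)
  norm_num at E500
  have A500 := ell_eq (x := (1/2)) (by norm_num)
  norm_num at A500
  refine high_params_of (by norm_num) (by norm_num) (by norm_num) (by norm_num) ?_ ?_ ?_ ?_ ?_ ?_ ?_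
    fun m ⟨h0, h1⟩ => by
      have m0 : 0 ≤ m := by linarith
      have q := mul_nonneg (sub_nonneg.2 h0) (sub_nonneg.2 h1)
      unfold highPhi2
      nlinarith [q, mul_nonneg m0 q, mul_nonneg (mul_nonneg m0 m0) q, mul_nonneg q q,
        sub_nonneg.2 h0, mul_nonneg (sub_nonneg.2 h1) m0]

  all_goals
    try simp only [highPhi, highPhi1, highDc, highGc]
    norm_num [E460, A460, E500, A500]
    try nlinarith

lemma highParams4 : HighParams (1/2) (11/20) (96/125) (48/125) (477/1000) (137/125) := by
  have := log_two_gt_d9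
  have := log_two_lt_d9
  obtain ⟨_, _⟩ := lg_a500
  obtain ⟨_, _⟩ := lg_b500
  obtain ⟨_, _⟩ := lg_c500
  have E500 := high_ent_eq (m := (1/2)) (by constructor <;> norm_num)
  norm_num at E500
  have A500 := ell_eq (x := (1/2)) (by norm_num)
  norm_num at A500
  obtain ⟨_, _⟩ := lg_a550
  obtain ⟨_, _⟩ := lg_b550
  obtain ⟨_, _⟩ := lg_c550
  have E550 := high_ent_eq (m := (11/20)) (by constructor <;> norm_num)
  norm_num at E550
  have A550 := ell_eq (x := (11/20)) (by norm_num)
  norm_num at A550
  refine high_params_of (by norm_num) (by norm_num) (by norm_num) (by norm_num) ?_ ?_ ?_ ?_ ?_ ?_ ?_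
    fun m ⟨h0, h1⟩ => by
      have m0 : 0 ≤ m := by linarith
      have q := mul_nonneg (sub_nonneg.2 h0) (sub_nonneg.2 h1)
      unfold highPhi2
      nlinarith [q, mul_nonneg m0 q, mul_nonneg (mul_nonneg m0 m0) q, mul_nonneg q q,
        sub_nonneg.2 h0, mul_nonneg (sub_nonneg.2 h1) m0]

  all_goals
    try simp only [highPhi, highPhi1, highDc, highGc]
    norm_num [E500, A500, E550, A550]
    try nlinarith

lemma highParams5 : HighParams (11/20) (31/50) (701/1000) (71/200) (109/200) (1149/1000) := by
  have := log_two_gt_d9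
  have := log_two_lt_d9
  obtain ⟨_, _⟩ := lg_a550
  obtain ⟨_, _⟩ := lg_b550
  obtain ⟨_, _⟩ := lg_c550
  have E550 := high_ent_eq (m := (11/20)) (by constructor <;> norm_num)
  norm_num at E550
  have A550 := ell_eq (x := (11/20)) (by norm_num)
  norm_num at A550
  obtain ⟨_, _⟩ := lg_a620
  obtain ⟨_, _⟩ := lg_b620
  obtain ⟨_, _⟩ := lg_c620
  have E620 := high_ent_eq (m := (31/50)) (by constructor <;> norm_num)
  norm_num at E620
  have A620 := ell_eq (x := (31/50)) (by norm_num)
  norm_num at A620
  refine high_params_of (by norm_num) (by norm_num) (by norm_num) (by norm_num) ?_ ?_ ?_ ?_ ?_ ?_ ?_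
    fun m ⟨h0, h1⟩ => by
      have m0 : 0 ≤ m := by linarith
      have q := mul_nonneg (sub_nonneg.2 h0) (sub_nonneg.2 h1)
      unfold highPhi2
      nlinarith [q, mul_nonneg m0 q, mul_nonneg (mul_nonneg m0 m0) q, mul_nonneg q q,
        sub_nonneg.2 h0, mul_nonneg (sub_nonneg.2 h1) m0]

  all_goals
    try simp only [highPhi, highPhi1, highDc, highGc]
    norm_num [E550, A550, E620, A620]
    try nlinarith

lemma highParams6 : HighParams (31/50) (7/10) (609/1000) (159/500) (653/1000) (603/500) := by
  have := log_two_gt_d9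
  have := log_two_lt_d9
  obtain ⟨_, _⟩ := lg_a620
  obtain ⟨_, _⟩ := lg_b620
  obtain ⟨_, _⟩ := lg_c620
  have E620 := high_ent_eq (m := (31/50)) (by constructor <;> norm_num)
  norm_num at E620
  have A620 := ell_eq (x := (31/50)) (by norm_num)
  norm_num at A620
  obtain ⟨_, _⟩ := lg_a700
  obtain ⟨_, _⟩ := lg_b700
  obtain ⟨_, _⟩ := lg_c700
  have E700 := high_ent_eq (m := (7/10)) (by constructor <;> norm_num)
  norm_num at E700
  have A700 := ell_eq (x := (7/10)) (by norm_num)
  norm_num at A700
  refine high_params_of (by norm_num) (by norm_num) (by norm_num) (by norm_num) ?_ ?_ ?_ ?_ ?_ ?_ ?_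
    fun m ⟨h0, h1⟩ => by
      have m0 : 0 ≤ m := by linarith
      have q := mul_nonneg (sub_nonneg.2 h0) (sub_nonneg.2 h1)
      unfold highPhi2
      nlinarith [q, mul_nonneg m0 q, mul_nonneg (mul_nonneg m0 m0) q, mul_nonneg q q,
        sub_nonneg.2 h0, mul_nonneg (sub_nonneg.2 h1) m0]

  all_goals
    try simp only [highPhi, highPhi1, highDc, highGc]
    norm_num [E620, A620, E700, A700]
    try nlinarith

lemma highParams7 : HighParams (7/10) (77/100) (257/500) (139/500) (4/5) (313/250) := by
  have := log_two_gt_d9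
  have := log_two_lt_d9
  obtain ⟨_, _⟩ := lg_a700
  obtain ⟨_, _⟩ := lg_b700
  obtain ⟨_, _⟩ := lg_c700
  have E700 := high_ent_eq (m := (7/10)) (by constructor <;> norm_num)
  norm_num at E700
  have A700 := ell_eq (x := (7/10)) (by norm_num)
  norm_num at A700
  obtain ⟨_, _⟩ := lg_a770
  obtain ⟨_, _⟩ := lg_b770
  obtain ⟨_, _⟩ := lg_c770
  have E770 := high_ent_eq (m := (77/100)) (by constructor <;> norm_num)
  norm_num at E770
  have A770 := ell_eq (x := (77/100)) (by norm_num)
  norm_num at A770
  refine high_params_of (by norm_num) (by norm_num) (by norm_num) (by norm_num) ?_ ?_ ?_ ?_ ?_ ?_ ?_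
    fun m ⟨h0, h1⟩ => by
      have m0 : 0 ≤ m := by linarith
      have q := mul_nonneg (sub_nonneg.2 h0) (sub_nonneg.2 h1)
      unfold highPhi2
      nlinarith [q, mul_nonneg m0 q, mul_nonneg (mul_nonneg m0 m0) q, mul_nonneg q q,
        sub_nonneg.2 h0, mul_nonneg (sub_nonneg.2 h1) m0]

  all_goals
    try simp only [highPhi, highPhi1, highDc, highGc]
    norm_num [E700, A700, E770, A770]
    try nlinarith

lemma highParams8 : HighParams (77/100) (17/20) (48/125) (49/200) (24/25) (651/500) := by
  have := log_two_gt_d9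
  have := log_two_lt_d9
  obtain ⟨_, _⟩ := lg_a770
  obtain ⟨_, _⟩ := lg_b770
  obtain ⟨_, _⟩ := lg_c770
  have E770 := high_ent_eq (m := (77/100)) (by constructor <;> norm_num)
  norm_num at E770
  have A770 := ell_eq (x := (77/100)) (by norm_num)
  norm_num at A770
  obtain ⟨_, _⟩ := lg_a850
  obtain ⟨_, _⟩ := lg_b850
  obtain ⟨_, _⟩ := lg_c850
  have E850 := high_ent_eq (m := (17/20)) (by constructor <;> norm_num)
  norm_num at E850
  have A850 := ell_eq (x := (17/20)) (by norm_num)
  norm_num at A850
  refine high_params_of (by norm_num) (by norm_num) (by norm_num) (by norm_num) ?_ ?_ ?_ ?_ ?_ ?_ ?_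
    fun m ⟨h0, h1⟩ => by
      have m0 : 0 ≤ m := by linarith
      have q := mul_nonneg (sub_nonneg.2 h0) (sub_nonneg.2 h1)
      unfold highPhi2
      nlinarith [q, mul_nonneg m0 q, mul_nonneg (mul_nonneg m0 m0) q, mul_nonneg q q,
        sub_nonneg.2 h0, mul_nonneg (sub_nonneg.2 h1) m0]

  all_goals
    try simp only [highPhi, highPhi1, highDc, highGc]
    norm_num [E770, A770, E850, A850]
    try nlinarith

lemma highParams9 : HighParams (17/20) 1 0 (207/1000) (151/125) (1733/1250) := by
  have := log_two_gt_d9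
  have := log_two_lt_d9
  obtain ⟨_, _⟩ := lg_a850
  obtain ⟨_, _⟩ := lg_b850
  obtain ⟨_, _⟩ := lg_c850
  have E850 := high_ent_eq (m := (17/20)) (by constructor <;> norm_num)
  norm_num at E850
  have A850 := ell_eq (x := (17/20)) (by norm_num)
  norm_num at A850
  have A1000 : ell 1 = 0 := by norm_num [ell]
  refine high_params_of (by norm_num) (by norm_num) (by norm_num) (by norm_num) ?_ ?_ ?_ ?_ ?_ ?_ ?_
    fun m ⟨h0, h1⟩ => by
      have m0 : 0 ≤ m := by linarith
      have q := mul_nonneg (sub_nonneg.2 h0) (sub_nonneg.2 h1)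
      unfold highPhi2
      nlinarith [q, mul_nonneg m0 q, mul_nonneg (mul_nonneg m0 m0) q, mul_nonneg q q,
        sub_nonneg.2 h0, mul_nonneg (sub_nonneg.2 h1) m0]

  all_goals
    try simp only [highPhi, highPhi1, highDc, highGc]
    norm_num [E850, A850, ent_one, A1000]
    try nlinarith

end Vale.Agent.P322
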