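import Vale.Agent.P322.OneHighBox
import Vale.Agent.P322.OneHighEnd

/-! `ElemOne` for `m ≥ 3/8`. -/

noncomputable section

namespace Vale.Agent.P322

open Real Set

lemma high_log_one_add_le {q : ℝ} (hq : 0 ≤ q) :
    log (1 + q) ≤ q * (6 + q) / (6 + 4 * q) := by
  have hd : ∀ x ∈ Icc 0 q, HasDerivAt (fun x => x * (6 + x) / (6 + 4 * x) - log (1 + x))
      (4 * x ^ 3 / ((6 + 4 * x) ^ 2 * (1 + x))) x := by
    intro x hx
    have h1 : 6 + 4 * x ≠ 0 := by linarith [hx.1]
    have h2 : 1 + x ≠ 0 := by linarith [hx.1]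
    refine ((((hasDerivAt_id' x).fun_mul ((hasDerivAt_id' x).const_add 6)).fun_div
      (((hasDerivAt_id' x).const_mul 4).const_add 6) h1).sub
      (((hasDerivAt_id' x).const_add 1).log h2)).congr_deriv ?_
    have h3 : (6 + 4 * x) ^ 2 ≠ 0 := pow_ne_zero 2 h1
    rw [div_sub_div _ _ h3 h2, div_eq_div_iff (mul_ne_zero h3 h2) (mul_ne_zero h3 h2)]
    ring
  have h := monotoneOn_of_hasDerivWithinAt_nonneg (convex_Icc 0 q)
    (fun x hx => (hd x hx).continuousAt.continuousWithinAt)
    (fun x hx => (hd x (interior_subset hx)).hasDerivWithinAt)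
    (fun x hx => ?_) (left_mem_Icc.2 hq) (right_mem_Icc.2 hq) hq
  · simpa using h
  · have := (interior_subset hx).1
    positivity

lemma high_log_ge {X : ℝ} (hX : 1 ≤ X) : 2 * (X - 1) / (X + 1) ≤ log X := by
  have h1 : 0 < X + 1 := by linarith
  have h2 : (X - 1) / (X + 1) < 1 := by rw [div_lt_one h1]; linarith
  have h := sum_range_le_log_div (div_nonneg (by linarith) h1.le) h2 1
  have e : (1 + (X - 1) / (X + 1)) / (1 - (X - 1) / (X + 1)) = X := by field_simp; ring
  rw [e] at h
  simp at h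
  rw [mul_div_assoc]
  linarith

/-- The correction term only helps when `z = ent - ell` grows. -/
lemma high_corr_mono {z z0 a b w K : ℝ} (hb : 0 ≤ b) (hz : z0 ≤ z)
    (hK : 129 / 100 * b * w ^ 2 ≤ K) :
    z0 / 2 * K - 129 / 200 * w ^ 2 * max (b * z0 - a) 0
      ≤ z / 2 * K - 129 / 200 * w ^ 2 * max (b * z - a) 0 := by
  have h : max (b * z - a) 0 ≤ max (b * z0 - a) 0 + b * (z - z0) := by
    refine max_le ?_ ?_
    · linarith [le_max_left (b * z0 - a) 0]
    · linarith [le_max_right (b * z0 - a) 0, mul_nonneg hb (sub_nonneg.2 hz)]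
  have h' := mul_le_mul_of_nonneg_left h (show 0 ≤ 129 / 200 * w ^ 2 by positivity)
  have h'' := mul_le_mul_of_nonneg_right hK (sub_nonneg.2 hz)
  linarith

lemma high_T1 {a e t G M L lb U P x r k0 k1 k2 : ℝ} (hae : 0 ≤ a * e * t) (hG : 0 ≤ G) (hM : 0 < M)
    (hL : 693 / 1000 ≤ L) (hx : 0 < x) (hU : 0 ≤ U) (hP : P = U + x) (hr0 : 0 ≤ r) (hr : r ≤ 1)
    (hlb : 2 * U / (U + 2 * x) ≤ lb) (hsl : a * e * t * L ≤ M * G)
    (h0 : k0 * M ≤ 693 / 1000 * (1386 / 1000))
    (h1 : k1 * M ≤ 693 / 1000 * ((1 + (2 * r - r ^ 2)) / 2))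
    (h2 : 693 / 1000 * r ^ 2 ≤ k2 * M) :
    a * e * t / P * (k0 * P + k1 * U - k2 * x) ≤ G * (2 * L + lb / 2) := by
  have hP0 : 0 < P := by linarith
  have h3 : U * (1 + (2 * r - r ^ 2)) - r ^ 2 * (2 * x) ≤ 2 * U * P / (U + 2 * x) := by
    rw [hP, le_div_iff₀ (by linarith)]
    nlinarith [sq_nonneg (U - r * (U + 2 * x))]
  have h4 : 2 * U * P / (U + 2 * x) ≤ lb * P := by
    rw [show 2 * U * P / (U + 2 * x) = 2 * U / (U + 2 * x) * P by ring]
    exact mul_le_mul_of_nonneg_right hlb hP0.le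
  obtain ⟨W, hW⟩ : ∃ W, W = 1386 / 1000 * P + U * (1 + (2 * r - r ^ 2)) / 2 - r ^ 2 * x := ⟨_, rfl⟩
  have hr2 : r ^ 2 ≤ 1 := pow_le_one₀ hr0 hr
  have hra : 0 ≤ 2 * r - r ^ 2 := by nlinarith
  have hW0 : 0 ≤ W := by
    have := mul_le_mul_of_nonneg_right hr2 hx.le
    have := mul_nonneg hU hra
    linarith
  have h5 : (k0 * P + k1 * U - k2 * x) * M ≤ 693 / 1000 * W := by
    have q0 := mul_le_mul_of_nonneg_right h0 hP0.le
    have q1 := mul_le_mul_of_nonneg_right h1 hU
    have q2 := mul_le_mul_of_nonneg_right h2 hx.le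
    rw [hW]; linarith
  have h6 : a * e * t * ((k0 * P + k1 * U - k2 * x) * M) ≤ a * e * t * (L * W) :=
    mul_le_mul_of_nonneg_left (h5.trans (mul_le_mul_of_nonneg_right hL hW0)) hae
  have h7 := mul_le_mul_of_nonneg_right hsl hW0
  have h8 : M * G * W ≤ M * G * ((2 * L + lb / 2) * P) := by
    refine mul_le_mul_of_nonneg_left ?_ (by positivity)
    have := mul_le_mul_of_nonneg_right hL hP0.le
    rw [hW]; linarith
  rw [div_mul_eq_mul_div, div_le_iff₀ hP0]
  refine le_of_mul_le_mul_right ?_ hM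
  linarith

theorem high_core {m d h e1 t2 be M r k0 k1 k2 : ℝ} (hm : 1 / 3 ≤ m) (hd0 : 0 < d)
    (hd : d < 1 - m) (hh0 : 0 < h) (hh : h < entBar m d) (hbox : HighBox e1 t2 k0 k1 k2 be)
    (he : e1 * log 2 ≤ ent m) (ht : highDc m ≤ t2 * ent m) (hk : (2 * be + 1) * ell m ≤ ent m)
    (hs : ell m * highDc m ≤ M * highGc m) (hbe : 0 ≤ be) (hM : 0 < M) (hr0 : 0 ≤ r) (hr : r ≤ 1)
    (h0 : k0 * M ≤ 693 / 1000 * (1386 / 1000))
    (h1 : k1 * M ≤ 693 / 1000 * ((1 + (2 * r - r ^ 2)) / 2))
    (h2 : 693 / 1000 * r ^ 2 ≤ k2 * M) :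
    ell m * eBd (log (zInv (ent m) h / zInv (entBar m d) h))
      ≤ ellGap m d * (2 * log 2 + log (zInv (entBar m d) h) / 2)
        + corA (ent m) (ell m) * (log 2 * h) / 2 *
            (zInv (ent m) h - zInv (entBar m d) h - log (zInv (ent m) h / zInv (entBar m d) h))
        + 0.645 * (log 2 * h) * (zInv (entBar m d) h - 1 - log (zInv (entBar m d) h))
            * min (corA (ent m) (ell m) - corA (entBar m d) (ell m + ellGap m d)) 0 := by
  have hm0 : 0 ≤ m := by linarith
  have hBH : entBar m d ≤ ent m := entBar_le (by linarith) (by linarith) hd0.le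
  have ha : 0 < ell m := by
    rw [ell_eq (by linarith)]
    linarith [log_lt_log (show 0 < 1 + m by linarith) (show 1 + m < 2 by linarith)]
  have hG : 0 < ellGap m d := high_gap_pos hd0 (by linarith)
  have hGc : 0 < highGc m := by
    rw [← high_corner_gap (show 0 < m by linarith)]
    exact high_gap_pos (by linarith) (by linarith)
  have hslope : ell m * (ent m - entBar m d) ≤ M * ellGap m d := by
    refine le_of_mul_le_mul_right ?_ hGc
    have := mul_le_mul_of_nonneg_left (high_slope hm hd0 hd) ha.le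
    have := mul_le_mul_of_nonneg_right hs hG.le
    linarith
  have hdrop := high_drop_le_corner hm hd0 hd
  have hl : 693 / 1000 ≤ log 2 := by linarith [log_two_gt_d9]
  have l0 : 0 < log 2 := by linarith
  obtain ⟨H, hH⟩ : ∃ H, H = ent m := ⟨_, rfl⟩
  obtain ⟨B, hB⟩ : ∃ B, B = entBar m d := ⟨_, rfl⟩
  rw [← hH] at hBH he ht hk hdrop hslope ⊢
  rw [← hB] at hh hBH hdrop hslope ⊢
  generalize ell m = a at *
  generalize ellGap m d = G at *
  have H0 : 0 < H := by linarith
  -- normalised variables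
  obtain ⟨e, he'⟩ : ∃ e, e = H / log 2 := ⟨_, rfl⟩
  obtain ⟨t, ht'⟩ : ∃ t, t = (H - B) / H := ⟨_, rfl⟩
  obtain ⟨w, hw'⟩ : ∃ w, w = (B - h) / H := ⟨_, rfl⟩
  have eH : H = e * log 2 := by rw [he']; field_simp
  have eB : B = H * (1 - t) := by rw [ht']; field_simp; ring
  have eh : h = H * (1 - t - w) := by rw [hw', ht']; field_simp; ring
  have e0 : 0 < e := he' ▸ div_pos H0 l0
  have ee : e1 ≤ e := by rw [he', le_div_iff₀ l0]; exact he
  have t0 : 0 ≤ t := ht' ▸ div_nonneg (by linarith) H0.le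
  have w0 : 0 ≤ w := hw' ▸ div_nonneg (by linarith) H0.le
  have tt : t ≤ t2 := by rw [ht', div_le_iff₀ H0]; linarith
  have x0 : 0 < 1 - t - w := by
    have : 0 < H * (1 - t - w) := eh ▸ hh0
    exact (mul_pos_iff_of_pos_left H0).1 this
  obtain ⟨x, hx'⟩ : ∃ x, x = 1 - t - w := ⟨_, rfl⟩
  obtain ⟨b, hb'⟩ : ∃ b, b = 1 - t := ⟨_, rfl⟩
  have b0 : 0 < b := by linarith
  have hx : 0 < x := hx' ▸ x0
  obtain ⟨U, hU'⟩ : ∃ U, U = e * b * w := ⟨_, rfl⟩
  have U0 : 0 ≤ U := by rw [hU']; positivity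
  obtain ⟨P, hP'⟩ : ∃ P, P = U + x := ⟨_, rfl⟩
  have P0 : 0 < P := by linarith
  obtain ⟨N, hN'⟩ : ∃ N, N = 1 + w := ⟨_, rfl⟩
  have N0 : 0 < N := by linarith
  obtain ⟨F, hF'⟩ : ∃ F, F = 6 * P + 4 * (e * t * N) := ⟨_, rfl⟩
  have F0 : 0 < F := by rw [hF']; positivity
  -- the two inverse zeros
  have hXb : zInv B h = P / x := by
    unfold zInv
    rw [eB, eh, eH, hP', hU', hb', ← hx']
    field_simp
    rw [hx']; ring
  have hXm : zInv H h = (P + e * t * N) / x := by
    unfold zInv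
    rw [eh, eH, hP', hU', hb', hN', ← hx']
    field_simp
    rw [hx']; ring
  rw [hXb, hXm]
  have hq : (P + e * t * N) / x / (P / x) = 1 + e * t * N / P := by field_simp
  rw [hq]
  obtain ⟨D, hD'⟩ : ∃ D, D = log (1 + e * t * N / P) := ⟨_, rfl⟩
  rw [← hD']
  have hQ0 : 0 ≤ e * t * N / P := by positivity
  have hD0 : 0 ≤ D := hD' ▸ log_nonneg (by linarith)
  have hD1 : D ≤ e * t * N / P * (6 * P + e * t * N) / F := by
    refine le_trans (hD' ▸ high_log_one_add_le hQ0) (le_of_eq ?_)
    rw [hF']; field_simp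
  -- left side
  have hL : a * eBd D ≤ a * e * t / P * (6471 / 10000 * N * (6 * P + e * t * N) / F) := by
    have h3 : eBd D ≤ 6471 / 10000 * D := by linarith [eBd_le_mul hD0]
    have h4 := h3.trans (mul_le_mul_of_nonneg_left hD1 (by norm_num))
    refine le_trans (mul_le_mul_of_nonneg_left h4 ha.le) (le_of_eq ?_)
    field_simp
  -- first term
  have hlb : 2 * U / (U + 2 * x) ≤ log (P / x) := by
    refine le_trans (le_of_eq ?_) (high_log_ge ((one_le_div hx).2 (by linarith)))
    rw [hP']; field_simp; ring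
  have hT1 := high_T1 (a := a) (e := e) (t := t) (G := G) (L := log 2) (P := P) (k0 := k0)
    (k1 := k1) (k2 := k2) (by positivity) hG.le hM hl hx U0 hP' hr0 hr hlb
    (le_trans (le_of_eq (by rw [eB, eH]; ring)) hslope) h0 h1 h2
  -- second term
  have hT2 : e * t / P * ((H - a) / 2 * (N * (b * w + 3 * x * t * N / F)))
      ≤ corA H a * (log 2 * h) / 2 * ((P + e * t * N) / x - P / x - D) := by
    have hz : 0 ≤ H - a := by
      have := mul_nonneg (mul_nonneg zero_le_two hbe) ha.le
      linarith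
    have e1 : corA H a * (log 2 * h) / 2 * ((P + e * t * N) / x - P / x - D)
        = (H - a) / 2 * (t * N - x / e * D) := by
      unfold corA
      rw [eh, ← hx', eH]
      field_simp
      ring
    have e2 : e * t / P * ((H - a) / 2 * (N * (b * w + 3 * x * t * N / F)))
        = (H - a) / 2 * (t * N - x / e * (e * t * N / P * (6 * P + e * t * N) / F)) := by
      rw [hF']
      field_simp
      rw [hP', hU']; ring
    rw [e1, e2]
    refine mul_le_mul_of_nonneg_left (sub_le_sub_left ?_ _) (by linarith)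
    exact mul_le_mul_of_nonneg_left hD1 (by positivity)
  -- third term
  have hT3 : -(e * t / P * (129 / 200 * w ^ 2 * max (b * (H - a) - a) 0))
      ≤ 0.645 * (log 2 * h) * (P / x - 1 - log (P / x))
          * min (corA H a - corA B (a + G)) 0 := by
    have X1 : 1 ≤ P / x := (one_le_div hx).2 (by linarith)
    have q1 : 0 ≤ P / x - 1 - log (P / x) := by
      linarith [log_le_sub_one_of_pos (show 0 < P / x by linarith)]
    have q2 : P / x - 1 - log (P / x) ≤ U ^ 2 / (x * P) := by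
      have := one_sub_inv_le_log_of_pos (show 0 < P / x by linarith)
      have e3 : P / x - 1 - (1 - (P / x)⁻¹) = U ^ 2 / (x * P) := by
        rw [hP']; field_simp; ring
      linarith
    have B0 : 0 < B := by linarith
    have q3 : -(t * max (b * (H - a) - a) 0 / (b ^ 2 * H ^ 2)) ≤ min (corA H a - corA B (a + G)) 0 := by
      refine le_min ?_ (neg_nonpos.2 (by positivity))
      have e4 : corA H a - corA B (a + G)
          = (G - t * (b * (H - a) - a)) / (b ^ 2 * H ^ 2) := by
        unfold corA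
        rw [show B = H * b by rw [hb']; exact eB]
        field_simp
        rw [hb']; ring
      rw [e4, ← neg_div]
      refine div_le_div_of_nonneg_right ?_ (by positivity)
      have := mul_le_mul_of_nonneg_left (le_max_left (b * (H - a) - a) 0) t0
      linarith
    have c0 : 0 ≤ 0.645 * (log 2 * h) := by positivity
    have q4 := mul_le_mul_of_nonneg_left q3 (mul_nonneg c0 q1)
    refine le_trans ?_ q4
    rw [mul_neg, neg_le_neg_iff]
    refine le_trans (mul_le_mul_of_nonneg_right (mul_le_mul_of_nonneg_left q2 c0)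
      (by positivity)) (le_of_eq ?_)
    rw [eh, ← hx', hU', eH]
    field_simp
    ring
  -- monotonicity in `H - a`
  have hmono := high_corr_mono (a := a) (z := H - a) (z0 := 2 * be * a) (b := b) (w := w)
    (K := N * (b * w + 3 * x * t * N / F)) b0.le (by linarith) (by
      have h5 : 0 ≤ N * (3 * x * t * N / F) := by positivity
      have h6 := mul_le_mul_of_nonneg_left (show 129 / 100 * w ≤ N by rw [hN']; linarith)
        (mul_nonneg b0.le w0)
      linarith)
  have hmono' := mul_le_mul_of_nonneg_left hmono (show 0 ≤ e * t / P by positivity)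
  -- the polynomial
  have hmax : max (b * (2 * be * a) - a) 0 = a * max (b * (2 * be + 1) - 1 - b) 0 := by
    rw [mul_max_of_nonneg _ _ ha.le, mul_zero]; ring_nf
  obtain ⟨p1, p2⟩ := hbox e t w ee t0 tt w0 (by linarith)
  have hp : 0 ≤ highPoly k0 k1 k2 be (max ((1 - t) * (2 * be + 1) - 1 - (1 - t)) 0) e t w := by
    rcases le_total ((1 - t) * (2 * be + 1) - 1 - (1 - t)) 0 with h' | h'
    · rwa [max_eq_right h']
    · rwa [max_eq_left h']
  have hfin : a * e * t / P * (6471 / 10000 * N * (6 * P + e * t * N) / F)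
      ≤ a * e * t / P * (k0 * P + k1 * U - k2 * x)
        + e * t / P * ((2 * be * a) / 2 * (N * (b * w + 3 * x * t * N / F))
            - 129 / 200 * w ^ 2 * max (b * (2 * be * a) - a) 0) := by
    rw [hmax]
    have h7 : 0 ≤ a * e * t / (P * F) * highPoly k0 k1 k2 be
        (max (b * (2 * be + 1) - 1 - b) 0) e t w :=
      mul_nonneg (by positivity) (hb' ▸ hp)
    refine le_of_sub_nonneg (le_trans h7 (le_of_eq ?_))
    generalize max (b * (2 * be + 1) - 1 - b) 0 = g
    simp only [highPoly, highBr, highDen]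
    field_simp
    rw [hF', hP', hU', hN', hx', hb']
    ring
  linarith

/-- `ElemOne` for `m ≥ 3/8`. -/
theorem elemOne_high {m d h : ℝ} (hm : 3 / 8 ≤ m) (hd0 : 0 < d) (hd : d < 1 - m) (hh0 : 0 < h)
    (hh : h < entBar m d) :
    ell m * eBd (log (zInv (ent m) h / zInv (entBar m d) h))
      ≤ ellGap m d * (2 * log 2 + log (zInv (entBar m d) h) / 2)
        + corA (ent m) (ell m) * (log 2 * h) / 2 *
            (zInv (ent m) h - zInv (entBar m d) h - log (zInv (ent m) h / zInv (entBar m d) h))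
        + 0.645 * (log 2 * h) * (zInv (entBar m d) h - 1 - log (zInv (entBar m d) h))
            * min (corA (ent m) (ell m) - corA (entBar m d) (ell m + ellGap m d)) 0 := by
  have hm1 : m < 1 := by linarith
  have h3 : 1 / 3 ≤ m := by linarith
  rcases le_total m (2/5) with b0 | b0
  · obtain ⟨p1, p2, p3, p4⟩ := highParams0 m ⟨by linarith, b0⟩ hm1
    exact high_core (r := (7/20)) h3 hd0 hd hh0 hh highBox0 p1 p2 p3 p4 (by norm_num)
      (by norm_num) (by norm_num) (by norm_num) (by norm_num) (by norm_num) (by norm_num)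
  rcases le_total m (17/40) with b1 | b1
  · obtain ⟨p1, p2, p3, p4⟩ := highParams1 m ⟨by linarith, b1⟩ hm1
    exact high_core (r := (7/20)) h3 hd0 hd hh0 hh highBox1 p1 p2 p3 p4 (by norm_num)
      (by norm_num) (by norm_num) (by norm_num) (by norm_num) (by norm_num) (by norm_num)
  rcases le_total m (23/50) with b2 | b2
  · obtain ⟨p1, p2, p3, p4⟩ := highParams2 m ⟨by linarith, b2⟩ hm1
    exact high_core (r := (3/10)) h3 hd0 hd hh0 hh highBox2 p1 p2 p3 p4 (by norm_num)
      (by norm_num) (by norm_num) (by norm_num) (by norm_num) (by norm_num) (by norm_num)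
  rcases le_total m (1/2) with b3 | b3
  · obtain ⟨p1, p2, p3, p4⟩ := highParams3 m ⟨by linarith, b3⟩ hm1
    exact high_core (r := (3/10)) h3 hd0 hd hh0 hh highBox3 p1 p2 p3 p4 (by norm_num)
      (by norm_num) (by norm_num) (by norm_num) (by norm_num) (by norm_num) (by norm_num)
  rcases le_total m (11/20) with b4 | b4
  · obtain ⟨p1, p2, p3, p4⟩ := highParams4 m ⟨by linarith, b4⟩ hm1
    exact high_core (r := (1/4)) h3 hd0 hd hh0 hh highBox4 p1 p2 p3 p4 (by norm_num)
      (by norm_num) (by norm_num) (by norm_num) (by norm_num) (by norm_num) (by norm_num)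
  rcases le_total m (31/50) with b5 | b5
  · obtain ⟨p1, p2, p3, p4⟩ := highParams5 m ⟨by linarith, b5⟩ hm1
    exact high_core (r := (3/20)) h3 hd0 hd hh0 hh highBox5 p1 p2 p3 p4 (by norm_num)
      (by norm_num) (by norm_num) (by norm_num) (by norm_num) (by norm_num) (by norm_num)
  rcases le_total m (7/10) with b6 | b6
  · obtain ⟨p1, p2, p3, p4⟩ := highParams6 m ⟨by linarith, b6⟩ hm1
    exact high_core (r := (1/10)) h3 hd0 hd hh0 hh highBox6 p1 p2 p3 p4 (by norm_num)
      (by norm_num) (by norm_num) (by norm_num) (by norm_num) (by norm_num) (by norm_num)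
  rcases le_total m (77/100) with b7 | b7
  · obtain ⟨p1, p2, p3, p4⟩ := highParams7 m ⟨by linarith, b7⟩ hm1
    exact high_core (r := (1/20)) h3 hd0 hd hh0 hh highBox7 p1 p2 p3 p4 (by norm_num)
      (by norm_num) (by norm_num) (by norm_num) (by norm_num) (by norm_num) (by norm_num)
  rcases le_total m (17/20) with b8 | b8
  · obtain ⟨p1, p2, p3, p4⟩ := highParams8 m ⟨by linarith, b8⟩ hm1
    exact high_core (r := 0) h3 hd0 hd hh0 hh highBox8 p1 p2 p3 p4 (by norm_num)
      (by norm_num) (by norm_num) (by norm_num) (by norm_num) (by norm_num) (by norm_num)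
  obtain ⟨p1, p2, p3, p4⟩ := highParams9 m ⟨by linarith, hm1.le⟩ hm1
  exact high_core (r := 0) h3 hd0 hd hh0 hh highBox9 p1 p2 p3 p4 (by norm_num)
    (by norm_num) (by norm_num) (by norm_num) (by norm_num) (by norm_num) (by norm_num)

end Vale.Agent.P322
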