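import Vale.Agent.P322.LowDefs
import Vale.Agent.P322.KLemma

/-!
The vertex inequalities of `LowDefs`.

In the variables `L` and `c`, where `q + x * (1 - q) = exp (-(1 - c) * L)` and `q = exp (-L)`, every
logarithm and exponential has a rational bound; what remains is a polynomial inequality on a box,
which after `L = L₁ a / (1 + a)` has only nonnegative coefficients.
-/

noncomputable section

namespace Vale.Agent.P322.Vertex

open Real Set

lemma tanh_le_of_artanh {R R' : ℝ → ℝ} {b x : ℝ} (h0 : R 0 = 0)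
    (hd : ∀ y ∈ Icc (0:ℝ) b, HasDerivAt R (R' y) y)
    (hR : ∀ y ∈ Icc (0:ℝ) b, R y ∈ Ioo (-1:ℝ) 1)
    (hp : ∀ y ∈ Icc (0:ℝ) b, 1 - R y ^ 2 ≤ R' y) (hx : x ∈ Icc (0:ℝ) b) :
    tanh x ≤ R x := by
  have hg : ∀ y ∈ Icc (0:ℝ) b,
      HasDerivAt (fun y => artanh (R y) - y) (1 / (1 - R y ^ 2) * R' y - 1) y := fun y hy =>
    ((hasDerivAt_artanh (hR y hy)).comp y (hd y hy)).sub (hasDerivAt_id' y)
  have hm := monotoneOn_of_hasDerivWithinAt_nonneg (convex_Icc (0:ℝ) b)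
    (fun y hy => (hg y hy).continuousAt.continuousWithinAt)
    (fun y hy => (hg y (interior_subset hy)).hasDerivWithinAt)
    (fun y hy => by
      have hy' := interior_subset hy
      have h2 : 0 < 1 - R y ^ 2 := by nlinarith [(hR y hy').1, (hR y hy').2]
      rw [sub_nonneg, one_div_mul_eq_div, one_le_div h2]
      exact hp y hy') (left_mem_Icc.mpr (le_trans hx.1 hx.2)) hx hx.1
  simp [h0] at hm
  refine (artanh_le_artanh_iff ⟨neg_one_lt_tanh x, tanh_lt_one x⟩ (hR x hx)).mp ?_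
  rw [artanh_tanh]
  exact hm

lemma le_tanh_of_artanh {R R' : ℝ → ℝ} {x : ℝ} (h0 : R 0 = 0)
    (hd : ∀ y : ℝ, 0 ≤ y → HasDerivAt R (R' y) y)
    (hR : ∀ y : ℝ, 0 ≤ y → R y ∈ Ioo (-1:ℝ) 1)
    (hp : ∀ y : ℝ, 0 ≤ y → R' y ≤ 1 - R y ^ 2) (hx : 0 ≤ x) :
    R x ≤ tanh x := by
  have hg : ∀ y : ℝ, 0 ≤ y →
      HasDerivAt (fun y => artanh (R y) - y) (1 / (1 - R y ^ 2) * R' y - 1) y := fun y hy =>
    ((hasDerivAt_artanh (hR y hy)).comp y (hd y hy)).sub (hasDerivAt_id' y)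
  have hm := antitoneOn_of_hasDerivWithinAt_nonpos (convex_Ici (0:ℝ))
    (fun y hy => (hg y hy).continuousAt.continuousWithinAt)
    (fun y hy => (hg y (interior_subset hy)).hasDerivWithinAt)
    (fun y hy => by
      have hy' : (0:ℝ) ≤ y := interior_subset hy
      have h2 : 0 < 1 - R y ^ 2 := by nlinarith [(hR y hy').1, (hR y hy').2]
      rw [sub_nonpos, one_div_mul_eq_div, div_le_one h2]
      exact hp y hy') self_mem_Ici (show x ∈ Ici (0:ℝ) from hx) hx
  simp [h0] at hm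
  refine (artanh_le_artanh_iff (hR x hx) ⟨neg_one_lt_tanh x, tanh_lt_one x⟩).mp ?_
  rw [artanh_tanh]
  exact hm

/-- Denominator of the upper Padé bound of `tanh`. -/
def padD (x : ℝ) : ℝ := 1 + x ^ 2 / 3 - x ^ 4 / 45

lemma padD_gt {x : ℝ} (h0 : 0 ≤ x) (h1 : x ≤ 13 / 8) : x < padD x := by
  unfold padD
  have hs : x ^ 2 ≤ (13 / 8) ^ 2 := pow_le_pow_left₀ h0 h1 2
  nlinarith [mul_nonneg (sq_nonneg x) (sub_nonneg.mpr hs), sq_nonneg (x - 3 / 2)]

lemma tanh_le_pad {x : ℝ} (h0 : 0 ≤ x) (h1 : x ≤ 13 / 8) : tanh x ≤ x / padD x := by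
  refine tanh_le_of_artanh (R := fun y => y / padD y)
    (R' := fun y => (padD y - y * (2 * y / 3 - 4 * y ^ 3 / 45)) / padD y ^ 2) (b := 13 / 8)
    (by simp) ?_ ?_ ?_ ⟨h0, h1⟩
  · intro y hy
    have hpos : 0 < padD y := lt_of_le_of_lt hy.1 (padD_gt hy.1 hy.2)
    have hD : HasDerivAt padD (2 * y / 3 - 4 * y ^ 3 / 45) y := by
      refine ((((hasDerivAt_pow 2 y).div_const 3).const_add 1).fun_sub
        ((hasDerivAt_pow 4 y).div_const 45)).congr_deriv ?_
      norm_num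
    refine ((hasDerivAt_id' y).fun_div hD hpos.ne').congr_deriv ?_
    ring
  · intro y hy
    have hgt := padD_gt hy.1 hy.2
    have hpos : 0 < padD y := lt_of_le_of_lt hy.1 hgt
    exact ⟨lt_of_lt_of_le (by norm_num : (-1:ℝ) < 0) (div_nonneg hy.1 hpos.le), (div_lt_one hpos).mpr hgt⟩
  · intro y hy
    have hpos : 0 < padD y := lt_of_le_of_lt hy.1 (padD_gt hy.1 hy.2)
    rw [div_pow, one_sub_div (by positivity), div_le_div_iff_of_pos_right (by positivity)]
    have h6 : 0 ≤ y ^ 6 * (30 - y ^ 2) :=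
      mul_nonneg (by positivity) (by nlinarith [hy.1, hy.2])
    unfold padD
    nlinarith [h6]

lemma low_le_tanh {x : ℝ} (h0 : 0 ≤ x) : 3 * x / (3 + x ^ 2) ≤ tanh x := by
  refine le_tanh_of_artanh (R := fun y => 3 * y / (3 + y ^ 2))
    (R' := fun y => (9 - 3 * y ^ 2) / (3 + y ^ 2) ^ 2) (by simp) ?_ ?_ ?_ h0
  · intro y _
    refine (((hasDerivAt_id' y).const_mul (3:ℝ)).fun_div ((hasDerivAt_pow 2 y).const_add 3)
      (by positivity)).congr_deriv ?_
    norm_num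
    ring
  · intro y hy
    refine ⟨lt_of_lt_of_le (by norm_num : (-1:ℝ) < 0) (by positivity), ?_⟩
    rw [div_lt_one (by positivity)]
    nlinarith [sq_nonneg (y - 3 / 2)]
  · intro y _
    rw [div_pow, one_sub_div (by positivity), div_le_div_iff_of_pos_right (by positivity)]
    nlinarith [sq_nonneg (y ^ 2)]

lemma one_sub_exp_neg (y : ℝ) : 1 - exp (-y) = 2 * tanh (y / 2) / (1 + tanh (y / 2)) := by
  have hb := exp_pos (y / 2)
  rw [tanh_eq_sinh_div_cosh, sinh_eq, cosh_eq, show exp (-y) = exp (-(y / 2)) * exp (-(y / 2)) by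
    rw [← exp_add]; ring_nf, exp_neg]
  field_simp
  ring

lemma one_sub_exp_le {y : ℝ} (h0 : 0 ≤ y) (h1 : y ≤ 13 / 4) :
    1 - exp (-y) ≤ y / (padD (y / 2) + y / 2) := by
  have hg := padD_gt (show 0 ≤ y / 2 by linarith) (by linarith : y / 2 ≤ 13 / 8)
  have hT := tanh_le_pad (show 0 ≤ y / 2 by linarith) (by linarith : y / 2 ≤ 13 / 8)
  have hpos : 0 < padD (y / 2) := by linarith
  have hT0 : 0 < 1 + tanh (y / 2) := by linarith [neg_one_lt_tanh (y / 2)]
  rw [le_div_iff₀ hpos] at hT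
  rw [one_sub_exp_neg, div_le_div_iff₀ hT0 (by linarith)]
  linarith

lemma le_one_sub_exp {y : ℝ} (h0 : 0 ≤ y) :
    y / (1 + y / 2 + y ^ 2 / 12) ≤ 1 - exp (-y) := by
  have hT := low_le_tanh (show 0 ≤ y / 2 by linarith)
  have hT0 : 0 < 1 + tanh (y / 2) := by linarith [neg_one_lt_tanh (y / 2)]
  rw [div_le_iff₀ (by positivity)] at hT
  rw [one_sub_exp_neg, div_le_div_iff₀ (by positivity) hT0]
  nlinarith [hT]

/-- `log ((1 - exp (-y)) / y) + y / 2 - y² / 24 + y⁴ / 2880`. -/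
def auxH (y : ℝ) : ℝ := log (1 - exp (-y)) - log y + y / 2 - y ^ 2 / 24 + y ^ 4 / 2880

lemma auxH_mono {a b : ℝ} (ha : 0 < a) (hab : a ≤ b) (hb : b ≤ 13 / 4) : auxH a ≤ auxH b := by
  have hd : ∀ y ∈ Icc a b, HasDerivAt auxH
      (exp (-y) / (1 - exp (-y)) - 1 / y + 1 / 2 - y / 12 + y ^ 3 / 720) y := by
    intro y hy
    have hy0 : 0 < y := lt_of_lt_of_le ha hy.1
    have h1 : 0 < 1 - exp (-y) := by linarith [exp_lt_one_iff.mpr (neg_lt_zero.mpr hy0)]
    refine ((((((hasDerivAt_id' y).fun_neg.exp.const_sub 1).log h1.ne').fun_sub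
      (hasDerivAt_log hy0.ne')).fun_add ((hasDerivAt_id' y).div_const 2)).fun_sub
      ((hasDerivAt_pow 2 y).div_const 24)).fun_add
      ((hasDerivAt_pow 4 y).div_const 2880) |>.congr_deriv ?_
    field_simp
    ring
  refine monotoneOn_of_hasDerivWithinAt_nonneg (convex_Icc a b)
    (fun y hy => (hd y hy).continuousAt.continuousWithinAt)
    (fun y hy => (hd y (interior_subset hy)).hasDerivWithinAt) ?_
    (left_mem_Icc.mpr hab) (right_mem_Icc.mpr hab) hab
  intro y hy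
  have hy' := interior_subset hy
  have hy0 : 0 < y := lt_of_lt_of_le ha hy'.1
  have hy1 : y ≤ 13 / 4 := le_trans hy'.2 hb
  have hpad := padD_gt (show 0 ≤ y / 2 by linarith) (by linarith : y / 2 ≤ 13 / 8)
  have hpos : 0 < padD (y / 2) + y / 2 := by linarith
  have hle := one_sub_exp_le hy0.le hy1
  have h1 : 0 < 1 - exp (-y) := by linarith [exp_lt_one_iff.mpr (neg_lt_zero.mpr hy0)]
  have h2 : (padD (y / 2) + y / 2) / y ≤ 1 / (1 - exp (-y)) := by
    rw [div_le_div_iff₀ hy0 h1]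
    rw [le_div_iff₀ hpos] at hle
    linarith
  have e : exp (-y) / (1 - exp (-y)) = 1 / (1 - exp (-y)) - 1 := by field_simp; ring
  have e2 : (padD (y / 2) + y / 2) / y = 1 / y + y / 12 - y ^ 3 / 720 + 1 / 2 := by
    unfold padD; field_simp; ring
  rw [e]
  linarith

lemma neg_log_ge {c : ℝ} (h0 : 0 < c) (h1 : c ≤ 1) :
    2 * ((1 - c) / (1 + c) + ((1 - c) / (1 + c)) ^ 3 / 3) ≤ -log c := by
  let g : ℝ → ℝ := fun y => -log y - 2 * ((1 - y) / (1 + y) + ((1 - y) / (1 + y)) ^ 3 / 3)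
  have hd : ∀ y ∈ Icc c 1, HasDerivAt g (-((1 - y) ^ 4 / (y * (1 + y) ^ 4))) y := by
    intro y hy
    have hy0 : 0 < y := lt_of_lt_of_le h0 hy.1
    have hz := ((hasDerivAt_id' y).const_sub 1).fun_div ((hasDerivAt_id' y).const_add 1)
      (show (1:ℝ) + y ≠ 0 by linarith)
    refine ((hasDerivAt_log hy0.ne').fun_neg.fun_sub
      ((hz.fun_add ((hz.fun_pow 3).div_const 3)).const_mul 2)).congr_deriv ?_
    norm_num
    field_simp
    ring
  have h : g 1 ≤ g c := antitoneOn_of_hasDerivWithinAt_nonpos (convex_Icc c 1)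
    (fun y hy => (hd y hy).continuousAt.continuousWithinAt)
    (fun y hy => (hd y (interior_subset hy)).hasDerivWithinAt)
    (fun y hy => by
      have hy0 : 0 < y := lt_of_lt_of_le h0 (interior_subset hy).1
      have : 0 ≤ (1 - y) ^ 4 / (y * (1 + y) ^ 4) :=
        div_nonneg (Even.pow_nonneg ⟨2, rfl⟩ _) (by positivity)
      linarith)
    (left_mem_Icc.mpr h1) (right_mem_Icc.mpr h1) h1
  simp [g] at h
  linarith

lemma log_one_add_le_rat {u : ℝ} (hu : 0 ≤ u) :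
    log (1 + u) ≤ u * (6 + u) / (6 + 4 * u) := by
  let g : ℝ → ℝ := fun y => y * (6 + y) / (6 + 4 * y) - log (1 + y)
  have hd : ∀ y ∈ Ici (0:ℝ), HasDerivAt g (4 * y ^ 3 / ((1 + y) * (6 + 4 * y) ^ 2)) y := by
    intro y hy
    have hy0 : (0:ℝ) ≤ y := hy
    refine ((((hasDerivAt_id' y).fun_mul ((hasDerivAt_id' y).const_add 6)).fun_div
      (((hasDerivAt_id' y).const_mul 4).const_add 6) (by positivity)).fun_sub
      (((hasDerivAt_id' y).const_add 1).log (by positivity))).congr_deriv ?_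
    field_simp
    ring
  have h : g 0 ≤ g u := monotoneOn_of_hasDerivWithinAt_nonneg (convex_Ici (0:ℝ))
    (fun y hy => (hd y hy).continuousAt.continuousWithinAt)
    (fun y hy => (hd y (interior_subset hy)).hasDerivWithinAt)
    (fun y hy => by
      have hy0 : (0:ℝ) ≤ y := interior_subset hy
      positivity) self_mem_Ici (show u ∈ Ici (0:ℝ) from hu) hu
  simp [g] at h
  linarith

/-- Lower bound of `(lowP t w L x) / L` in the variables `L, c`, with a switch `k` on the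
correlation term. -/
def ratBd (k t w L c : ℝ) : ℝ :=
  2 * 0.693147 * w
    + w / 2 * (2 * ((1 - c) / (1 + c) + ((1 - c) / (1 + c)) ^ 3 / 3) - (1 - c) * L / 2
        + (1 - c ^ 2) * L ^ 2 / 24 - (1 - c ^ 4) * L ^ 4 / 2880)
    + k * ((1 - t) / 2 * (2 / (1 + L + L ^ 2 / 3)
        - c / (1 + (c * L / 2) ^ 2 / 3 - (c * L / 2) ^ 4 / 45 + c * L / 2)
          * (1 + (2 - c) * (1 + L / 2 + L ^ 2 / 12))
          / (1 + (2 - c) * L + ((2 - c) * L) ^ 2 / 2 + ((2 - c) * L) ^ 3 / 6)))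
    - t / 2 * ((2 - c)
        + 5 / 17 * (2 - c) * (6 + 5 / 17 * ((2 - c) * L)) / (6 + 4 * (5 / 17 * ((2 - c) * L))))

/-- Rational lower bound of the correlation term over `L`. -/
def corLo (L c : ℝ) : ℝ :=
  2 / (1 + L + L ^ 2 / 3)
    - c / (1 + (c * L / 2) ^ 2 / 3 - (c * L / 2) ^ 4 / 45 + c * L / 2)
      * (1 + (2 - c) * (1 + L / 2 + L ^ 2 / 12))
      / (1 + (2 - c) * L + ((2 - c) * L) ^ 2 / 2 + ((2 - c) * L) ^ 3 / 6)

lemma cor_bound {L c : ℝ} (hL : 0 < L) (hc0 : 0 < c) (hc1 : c ≤ 1) (hcL : c * L ≤ 13 / 4) :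
    L * corLo L c ≤ (1 - exp (-L)) * (1 + exp (-L))
      - exp (-((2 - c) * L)) * (1 - exp (-(c * L))) * (1 + (2 - c) * L / (1 - exp (-L))) := by
  have hs : 0 < 1 - exp (-L) := by linarith [exp_lt_one_iff.mpr (neg_lt_zero.mpr hL)]
  have hQ1 : 0 ≤ 1 - exp (-(c * L)) := by
    linarith [exp_lt_one_iff.mpr (neg_lt_zero.mpr (mul_pos hc0 hL))]
  have h1 : 2 * L / (1 + L + L ^ 2 / 3) ≤ (1 - exp (-L)) * (1 + exp (-L)) := by
    have h := le_one_sub_exp (show (0:ℝ) ≤ 2 * L by linarith)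
    rw [show exp (-(2 * L)) = exp (-L) * exp (-L) by rw [← exp_add]; congr 1; ring] at h
    rw [show 1 + 2 * L / 2 + (2 * L) ^ 2 / 12 = 1 + L + L ^ 2 / 3 by ring] at h
    linarith
  have ha : 0 ≤ 2 - c := by linarith
  have hy : 0 ≤ (2 - c) * L := mul_nonneg ha hL.le
  have hS : exp (-((2 - c) * L))
      ≤ 1 / (1 + (2 - c) * L + ((2 - c) * L) ^ 2 / 2 + ((2 - c) * L) ^ 3 / 6) := by
    have h := sum_le_exp_of_nonneg hy 4
    simp [Finset.sum_range_succ, Nat.factorial] at h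
    rw [exp_neg, one_div]
    exact inv_anti₀ (by positivity) (by linarith)
  have hQb := one_sub_exp_le (mul_nonneg hc0.le hL.le) hcL
  have hLs : L / (1 - exp (-L)) ≤ 1 + L / 2 + L ^ 2 / 12 := by
    have h := le_one_sub_exp hL.le
    rw [div_le_iff₀ (by positivity)] at h
    rw [div_le_iff₀ hs]
    linarith
  have hS0 := le_trans (exp_pos _).le hS
  have h3 : exp (-((2 - c) * L)) * (1 - exp (-(c * L))) * (1 + (2 - c) * L / (1 - exp (-L)))
      ≤ 1 / (1 + (2 - c) * L + ((2 - c) * L) ^ 2 / 2 + ((2 - c) * L) ^ 3 / 6)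
        * (c * L / (padD (c * L / 2) + c * L / 2))
        * (1 + (2 - c) * (1 + L / 2 + L ^ 2 / 12)) := by
    refine mul_le_mul (mul_le_mul hS hQb hQ1 hS0) ?_ ?_ (mul_nonneg hS0 (le_trans hQ1 hQb))
    · rw [mul_div_assoc]
      linarith [mul_le_mul_of_nonneg_left hLs ha]
    · have := div_nonneg hy hs.le
      linarith
  refine le_trans (le_of_eq ?_) (sub_le_sub h1 h3)
  unfold corLo padD
  ring

lemma eBd_bound {L c : ℝ} (hL : 0 ≤ L) (hc1 : c ≤ 1) :
    eBd ((2 - c) * L) ≤ L * (1 / 2 * ((2 - c)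
      + 5 / 17 * (2 - c) * (6 + 5 / 17 * ((2 - c) * L)) / (6 + 4 * (5 / 17 * ((2 - c) * L))))) := by
  have ha : 0 ≤ 2 - c := by linarith
  have h := log_one_add_le_rat (show 0 ≤ 5 / 17 * ((2 - c) * L) by positivity)
  unfold eBd
  rw [show (2 - c) * L / (17 / 5) = 5 / 17 * ((2 - c) * L) by ring]
  refine le_trans (add_le_add le_rfl (div_le_div_of_nonneg_right h zero_le_two)) (le_of_eq ?_)
  ring

lemma corr_zero {L c x q v : ℝ} (hL : 0 < L) (hc0 : 0 < c) (hc1 : c ≤ 1) (hq : q = exp (-L))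
    (hx : 0 < x) (hve : v = exp ((c - 1) * L)) (hv : v = q + x * (1 - q)) :
    0 ≤ (1 - q) * (1 + q - q * x) - q * x * (L - log v) := by
  have hq0 : 0 < q := hq ▸ exp_pos _
  have hs : 0 < 1 - q := by rw [hq]; linarith [exp_lt_one_iff.mpr (neg_lt_zero.mpr hL)]
  have hxc : x ≤ c := by
    have h := convexOn_exp.2 (mem_univ (-L)) (mem_univ (0:ℝ)) (sub_nonneg.mpr hc1) hc0.le
      (by ring)
    simp only [smul_eq_mul, mul_zero, add_zero, exp_zero, mul_one] at h
    rw [show (1 - c) * -L = (c - 1) * L by ring, ← hve, ← hq, hv] at h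
    refine le_of_mul_le_mul_right ?_ hs
    linarith
  have hbound : q * (1 + L) ≤ 1 := by
    have e : q * exp L = 1 := by rw [hq, ← exp_add]; simp
    linarith [mul_le_mul_of_nonneg_left (add_one_le_exp L) hq0.le]
  have h1 : x * ((1 - q) + (2 - c) * L) ≤ (1 - q) + L := by
    have hpos : 0 ≤ (1 - q) + (2 - c) * L :=
      add_nonneg hs.le (mul_nonneg (by linarith) hL.le)
    linarith [mul_le_mul_of_nonneg_right hxc hpos, mul_nonneg hL.le (sq_nonneg (1 - c)),
      mul_nonneg hs.le (sub_nonneg.mpr hc1)]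
  have h2 := mul_le_mul_of_nonneg_left h1 hq0.le
  rw [show log v = (c - 1) * L by rw [hve, log_exp]]
  linarith

lemma vertexOK_of_rat {k t w L1 : ℝ} (hk : k = 0 ∨ k = 1) (ht0 : 0 ≤ t) (ht : t ≤ 1) (hw : 0 ≤ w)
    (hL1 : L1 ≤ 13 / 4)
    (hp : ∀ L c : ℝ, 0 ≤ L → L ≤ L1 → 0 ≤ c → c ≤ 1 → 0 ≤ ratBd k t w L c) :
    VertexOK t w L1 := by
  intro L x hL hLle hx hx1
  set q := exp (-L) with hq
  have hq0 : 0 < q := exp_pos _
  have hs : 0 < 1 - q := by linarith [exp_lt_one_iff.mpr (neg_lt_zero.mpr hL)]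
  set v := q + x * (1 - q) with hv
  have hvq : q < v := by nlinarith
  have hv1 : v ≤ 1 := by nlinarith
  have hv0 : 0 < v := lt_trans hq0 hvq
  obtain ⟨c, hcdef⟩ : ∃ c, c = 1 + log v / L := ⟨_, rfl⟩
  have hlv : log v = (c - 1) * L := by rw [hcdef]; field_simp; ring
  have hc0 : 0 < c := by
    have h := log_lt_log hq0 hvq
    rw [hq, log_exp, hlv] at h
    nlinarith
  have hc1 : c ≤ 1 := by
    have h := log_nonpos hv0.le hv1
    rw [hlv] at h
    nlinarith
  have hve : v = exp ((c - 1) * L) := by rw [← hlv, exp_log hv0]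
  have hcL : c * L ≤ 13 / 4 := by nlinarith
  set Q := exp (-(c * L)) with hQ
  have hqv : q = Q * v := by rw [hQ, hve, hq, ← exp_add]; congr 1; ring
  have hQ1 : 0 < 1 - Q := by
    linarith [exp_lt_one_iff.mpr (neg_lt_zero.mpr (mul_pos hc0 hL))]
  have hx' : x = v * (1 - Q) / (1 - q) := by
    rw [eq_div_iff hs.ne']; linear_combination (-1 : ℝ) * hv - hqv
  have hlog : log (v / x) = log (1 - q) - log (1 - Q) := by
    rw [hx', show v / (v * (1 - Q) / (1 - q)) = (1 - q) / (1 - Q) by field_simp,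
      log_div hs.ne' hQ1.ne']
  have hG : (2 * ((1 - c) / (1 + c) + ((1 - c) / (1 + c)) ^ 3 / 3) - (1 - c) * L / 2
      + (1 - c ^ 2) * L ^ 2 / 24 - (1 - c ^ 4) * L ^ 4 / 2880) ≤ log (v / x) := by
    have h1 := auxH_mono (mul_pos hc0 hL) (by nlinarith : c * L ≤ L) (le_trans hLle hL1)
    have h2 := neg_log_ge hc0 hc1
    unfold auxH at h1
    rw [← hq, ← hQ, log_mul hc0.ne' hL.ne'] at h1
    rw [hlog]
    linear_combination h1 + h2
  have hqx : q * x * (1 - q) = exp (-((2 - c) * L)) * (1 - Q) := by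
    rw [hx', show exp (-((2 - c) * L)) = q * v by rw [hq, hve, ← exp_add]; congr 1; ring]
    field_simp
  have hB : L * (k * corLo L c) ≤ (1 - q) * (1 + q - q * x) - q * x * (L - log v) := by
    rcases hk with rfl | rfl
    · rw [zero_mul, mul_zero]
      exact corr_zero hL hc0 hc1 hq hx hve hv
    · rw [one_mul]
      refine le_trans (cor_bound hL hc0 hc1 hcL) (le_of_eq ?_)
      rw [← hq, ← hQ, ← hqx, hlv]
      field_simp
      ring
  have hE := eBd_bound hL.le hc1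
  have hLv : L - log v = (2 - c) * L := by rw [hlv]; ring
  have hl2 : (0.693147 : ℝ) ≤ log 2 := by linarith [log_two_gt_d9]
  have hpL := mul_nonneg hL.le (hp L c hL.le hLle hc0.le hc1)
  have e1 := mul_le_mul_of_nonneg_left hE ht0
  have e2 := mul_le_mul_of_nonneg_left hB (show 0 ≤ (1 - t) / 2 by linarith)
  have e3 := mul_le_mul_of_nonneg_left hG (show 0 ≤ L * w / 2 by positivity)
  have e4 := mul_le_mul_of_nonneg_left hl2 (show 0 ≤ 2 * w * L by positivity)
  rw [hLv] at e2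
  unfold lowP
  rw [← hq, ← hv, hLv]
  unfold ratBd at hpL
  unfold corLo at e2
  linarith

lemma subst_box {lo hi y : ℝ} (h0 : lo ≤ y) (h1 : y < hi) :
    ∃ a : ℝ, 0 ≤ a ∧ y = (lo + hi * a) / (1 + a) := by
  refine ⟨(y - lo) / (hi - y), div_nonneg (by linarith) (by linarith), ?_⟩
  have h2 : hi - y ≠ 0 := by linarith
  have h3 : hi - lo ≠ 0 := by linarith
  rw [one_add_div h2, show hi - y + (y - lo) = hi - lo by ring, eq_div_iff (div_ne_zero h3 h2)]
  field_simp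
  ring

lemma rat0 {L c : ℝ} (hL : 0 ≤ L) (hL1 : L ≤ 3.25) (hc : 0 ≤ c) (hc1 : c ≤ 1) :
    0 ≤ ratBd 0 0.986 0.642 L c := by
  simp only [ratBd, zero_mul, add_zero, zero_add]
  rw [show 2 - c = 1 + (1 - c) by ring]
  obtain ⟨u, hu, hud⟩ : ∃ u, 0 ≤ u ∧ u = (1 + (1 - c)) * L :=
    ⟨_, mul_nonneg (by linarith) hL, rfl⟩
  rw [← hud]
  have hz : 0 < 1 + c := by linarith
  field_simp
  subst hud
  obtain ⟨a, ha, rfl⟩ := subst_box hL (show L < 3.251 by linarith)
  obtain ⟨b, hb, rfl⟩ := subst_box hc (show c < 1.001 by linarith)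
  have h1 : 0 < 1 + a := by linarith
  have h2 : 0 < 1 + b := by linarith
  field_simp
  ring_nf
  positivity

lemma rat1 {L c : ℝ} (hL : 0 ≤ L) (hL1 : L ≤ 3.25) (hc : 0 ≤ c) (hc1 : c ≤ 1) :
    0 ≤ ratBd 0 0.918 0.591 L c := by
  simp only [ratBd, zero_mul, add_zero, zero_add]
  rw [show 2 - c = 1 + (1 - c) by ring]
  obtain ⟨u, hu, hud⟩ : ∃ u, 0 ≤ u ∧ u = (1 + (1 - c)) * L :=
    ⟨_, mul_nonneg (by linarith) hL, rfl⟩
  rw [← hud]
  have hz : 0 < 1 + c := by linarith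
  field_simp
  subst hud
  obtain ⟨a, ha, rfl⟩ := subst_box hL (show L < 3.251 by linarith)
  have h1 : 0 < 1 + a := by linarith
  rcases lt_or_ge c 0.5 with h | h
  · obtain ⟨b, hb, rfl⟩ := subst_box hc h
    have h2 : 0 < 1 + b := by linarith
    field_simp
    ring_nf
    positivity
  · obtain ⟨b, hb, rfl⟩ := subst_box (show 0.499 ≤ c by linarith) (show c < 1.001 by linarith)
    have h2 : 0 < 1 + b := by linarith
    field_simp
    ring_nf
    positivity

/-- Polynomial lower bound of `corLo` for `L ≤ 1.06`. -/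
def betA (L c : ℝ) : ℝ :=
  2 - 0.03 - 3 * c + c ^ 2 + L * (-1.804 + 4.215 * c - 1.962 * c ^ 2)
    + L ^ 2 * (0.67 - 1.896 * c + 1.02 * c ^ 2)

/-- Polynomial lower bound of `corLo` for `L ≤ 1.85`. -/
def betB (L c : ℝ) : ℝ :=
  2 - 0.03 - 3 * c + c ^ 2 + L * (-1.873 + 4.436 * c - 2.091 * c ^ 2)
    + L ^ 2 * (0.908 - 2.662 * c + 1.474 * c ^ 2) + L ^ 3 * (-0.182 + 0.584 * c - 0.35 * c ^ 2)

lemma cor_den {L c : ℝ} (hL : 0 ≤ L) (hL1 : L ≤ 13 / 4) (hc : 0 ≤ c) (hc1 : c ≤ 1) :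
    0 < 1 + (c * L / 2) ^ 2 / 3 - (c * L / 2) ^ 4 / 45 + c * L / 2 := by
  have hx : 0 ≤ c * L / 2 := div_nonneg (mul_nonneg hc hL) zero_le_two
  have h := padD_gt hx (by linarith [mul_le_mul hc1 hL1 hL zero_le_one])
  unfold padD at h
  linarith

set_option maxRecDepth 4000 in
lemma betA_le {L c : ℝ} (hL : 0 ≤ L) (hL1 : L ≤ 1.06) (hc : 0 ≤ c) (hc1 : c ≤ 1) :
    betA L c ≤ corLo L c := by
  rw [← sub_nonneg]
  simp only [corLo, betA]
  rw [show 2 - c = 1 + (1 - c) by ring]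
  have hD := cor_den hL (by linarith) hc hc1
  obtain ⟨u, hu, hud⟩ : ∃ u, 0 ≤ u ∧ u = (1 + (1 - c)) * L :=
    ⟨_, mul_nonneg (by linarith) hL, rfl⟩
  rw [← hud]
  obtain ⟨x, hxd⟩ : ∃ x, x = c * L / 2 := ⟨_, rfl⟩
  rw [← hxd] at hD ⊢
  rw [show 1 + x ^ 2 / 3 - x ^ 4 / 45 + x = (45 + 15 * x ^ 2 - x ^ 4 + 45 * x) / 45 by ring]
    at hD ⊢
  obtain ⟨D, hDd⟩ : ∃ D, D = 45 + 15 * x ^ 2 - x ^ 4 + 45 * x := ⟨_, rfl⟩
  rw [← hDd] at hD ⊢
  have hD0 : 0 < D := by linarith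
  field_simp
  subst hud hxd hDd
  obtain ⟨b, hb, rfl⟩ := subst_box hc (show c < 1.001 by linarith)
  have h2 : 0 < 1 + b := by linarith
  field_simp
  obtain ⟨a, ha, rfl⟩ := subst_box hL (show L < 1.061 by linarith)
  have h1 : 0 < 1 + a := by linarith
  field_simp
  ring_nf
  positivity

set_option maxRecDepth 4000 in
lemma betB_le {L c : ℝ} (hL : 0 ≤ L) (hL1 : L ≤ 1.85) (hc : 0 ≤ c) (hc1 : c ≤ 1) :
    betB L c ≤ corLo L c := by
  rw [← sub_nonneg]
  simp only [corLo, betB]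
  rw [show 2 - c = 1 + (1 - c) by ring]
  have hD := cor_den hL (by linarith) hc hc1
  obtain ⟨u, hu, hud⟩ : ∃ u, 0 ≤ u ∧ u = (1 + (1 - c)) * L :=
    ⟨_, mul_nonneg (by linarith) hL, rfl⟩
  rw [← hud]
  obtain ⟨x, hxd⟩ : ∃ x, x = c * L / 2 := ⟨_, rfl⟩
  rw [← hxd] at hD ⊢
  rw [show 1 + x ^ 2 / 3 - x ^ 4 / 45 + x = (45 + 15 * x ^ 2 - x ^ 4 + 45 * x) / 45 by ring]
    at hD ⊢
  obtain ⟨D, hDd⟩ : ∃ D, D = 45 + 15 * x ^ 2 - x ^ 4 + 45 * x := ⟨_, rfl⟩
  rw [← hDd] at hD ⊢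
  have hD0 : 0 < D := by linarith
  field_simp
  subst hud hxd hDd
  obtain ⟨b, hb, rfl⟩ := subst_box hc (show c < 1.001 by linarith)
  have h2 : 0 < 1 + b := by linarith
  field_simp
  obtain ⟨a, ha, rfl⟩ := subst_box hL (show L < 1.851 by linarith)
  have h1 : 0 < 1 + a := by linarith
  field_simp
  ring_nf
  positivity

lemma rat2 {L c : ℝ} (hL : 0 ≤ L) (hL1 : L ≤ 1.85) (hc : 0 ≤ c) (hc1 : c ≤ 1) :
    0 ≤ ratBd 1 0.919 0.553 L c := by
  have key : 0 ≤ ratBd 0 0.919 0.553 L c + (1 - 0.919) / 2 * betB L c := by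
    simp only [ratBd, betB, zero_mul, add_zero]
    rw [show 2 - c = 1 + (1 - c) by ring]
    obtain ⟨u, hu, hud⟩ : ∃ u, 0 ≤ u ∧ u = (1 + (1 - c)) * L :=
      ⟨_, mul_nonneg (by linarith) hL, rfl⟩
    rw [← hud]
    have hz : 0 < 1 + c := by linarith
    field_simp
    subst hud
    obtain ⟨a, ha, rfl⟩ := subst_box hL (show L < 1.851 by linarith)
    have h1 : 0 < 1 + a := by linarith
    rcases lt_or_ge c 0.5 with h | h
    · obtain ⟨b, hb, rfl⟩ := subst_box hc h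
      have h2 : 0 < 1 + b := by linarith
      field_simp
      ring_nf
      positivity
    · obtain ⟨b, hb, rfl⟩ := subst_box (show 0.499 ≤ c by linarith) (show c < 1.001 by linarith)
      have h2 : 0 < 1 + b := by linarith
      field_simp
      ring_nf
      positivity
  have h := mul_le_mul_of_nonneg_left (betB_le hL hL1 hc hc1)
    (show (0:ℝ) ≤ (1 - 0.919) / 2 by norm_num)
  unfold ratBd corLo at *
  linarith

lemma rat3 {L c : ℝ} (hL : 0 ≤ L) (hL1 : L ≤ 1.85) (hc : 0 ≤ c) (hc1 : c ≤ 1) :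
    0 ≤ ratBd 1 0.769 0.4385 L c := by
  have key : 0 ≤ ratBd 0 0.769 0.4385 L c + (1 - 0.769) / 2 * betB L c := by
    simp only [ratBd, betB, zero_mul, add_zero]
    rw [show 2 - c = 1 + (1 - c) by ring]
    obtain ⟨u, hu, hud⟩ : ∃ u, 0 ≤ u ∧ u = (1 + (1 - c)) * L :=
      ⟨_, mul_nonneg (by linarith) hL, rfl⟩
    rw [← hud]
    have hz : 0 < 1 + c := by linarith
    field_simp
    subst hud
    obtain ⟨a, ha, rfl⟩ := subst_box hL (show L < 1.851 by linarith)
    have h1 : 0 < 1 + a := by linarith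
    rcases lt_or_ge c 0.5 with h | h
    · obtain ⟨b, hb, rfl⟩ := subst_box hc h
      have h2 : 0 < 1 + b := by linarith
      field_simp
      ring_nf
      positivity
    · obtain ⟨b, hb, rfl⟩ := subst_box (show 0.499 ≤ c by linarith) (show c < 1.001 by linarith)
      have h2 : 0 < 1 + b := by linarith
      field_simp
      ring_nf
      positivity
  have h := mul_le_mul_of_nonneg_left (betB_le hL hL1 hc hc1)
    (show (0:ℝ) ≤ (1 - 0.769) / 2 by norm_num)
  unfold ratBd corLo at *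
  linarith

lemma rat4 {L c : ℝ} (hL : 0 ≤ L) (hL1 : L ≤ 1.06) (hc : 0 ≤ c) (hc1 : c ≤ 1) :
    0 ≤ ratBd 1 0.770 0.4145 L c := by
  have key : 0 ≤ ratBd 0 0.770 0.4145 L c + (1 - 0.770) / 2 * betA L c := by
    simp only [ratBd, betA, zero_mul, add_zero]
    rw [show 2 - c = 1 + (1 - c) by ring]
    obtain ⟨u, hu, hud⟩ : ∃ u, 0 ≤ u ∧ u = (1 + (1 - c)) * L :=
      ⟨_, mul_nonneg (by linarith) hL, rfl⟩
    rw [← hud]
    have hz : 0 < 1 + c := by linarith
    field_simp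
    subst hud
    obtain ⟨a, ha, rfl⟩ := subst_box hL (show L < 1.061 by linarith)
    have h1 : 0 < 1 + a := by linarith
    rcases lt_or_ge c 0.5 with h | h
    · obtain ⟨b, hb, rfl⟩ := subst_box hc h
      have h2 : 0 < 1 + b := by linarith
      field_simp
      ring_nf
      positivity
    · obtain ⟨b, hb, rfl⟩ := subst_box (show 0.499 ≤ c by linarith) (show c < 1.001 by linarith)
      have h2 : 0 < 1 + b := by linarith
      field_simp
      ring_nf
      positivity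
  have h := mul_le_mul_of_nonneg_left (betA_le hL hL1 hc hc1)
    (show (0:ℝ) ≤ (1 - 0.770) / 2 by norm_num)
  unfold ratBd corLo at *
  linarith

lemma rat5 {L c : ℝ} (hL : 0 ≤ L) (hL1 : L ≤ 1.06) (hc : 0 ≤ c) (hc1 : c ≤ 1) :
    0 ≤ ratBd 1 0.603 0.2895 L c := by
  have key : 0 ≤ ratBd 0 0.603 0.2895 L c + (1 - 0.603) / 2 * betA L c := by
    simp only [ratBd, betA, zero_mul, add_zero]
    rw [show 2 - c = 1 + (1 - c) by ring]
    obtain ⟨u, hu, hud⟩ : ∃ u, 0 ≤ u ∧ u = (1 + (1 - c)) * L :=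
      ⟨_, mul_nonneg (by linarith) hL, rfl⟩
    rw [← hud]
    have hz : 0 < 1 + c := by linarith
    field_simp
    subst hud
    obtain ⟨a, ha, rfl⟩ := subst_box hL (show L < 1.061 by linarith)
    have h1 : 0 < 1 + a := by linarith
    rcases lt_or_ge c 0.5 with h | h
    · obtain ⟨b, hb, rfl⟩ := subst_box hc h
      have h2 : 0 < 1 + b := by linarith
      field_simp
      ring_nf
      positivity
    · obtain ⟨b, hb, rfl⟩ := subst_box (show 0.499 ≤ c by linarith) (show c < 1.001 by linarith)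
      have h2 : 0 < 1 + b := by linarith
      field_simp
      ring_nf
      positivity
  have h := mul_le_mul_of_nonneg_left (betA_le hL hL1 hc hc1)
    (show (0:ℝ) ≤ (1 - 0.603) / 2 by norm_num)
  unfold ratBd corLo at *
  linarith

end Vale.Agent.P322.Vertex

namespace Vale.Agent.P322

open Vertex in
/-- The six vertex inequalities. -/
theorem vertexAll_holds : VertexAll := by
  refine ⟨?_, ?_, ?_, ?_, ?_, ?_⟩
  · exact vertexOK_of_rat (Or.inl rfl) (by norm_num) (by norm_num) (by norm_num) (by norm_num)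
      fun L c => rat0
  · exact vertexOK_of_rat (Or.inl rfl) (by norm_num) (by norm_num) (by norm_num) (by norm_num)
      fun L c => rat1
  · exact vertexOK_of_rat (Or.inr rfl) (by norm_num) (by norm_num) (by norm_num) (by norm_num)
      fun L c => rat2
  · exact vertexOK_of_rat (Or.inr rfl) (by norm_num) (by norm_num) (by norm_num) (by norm_num)
      fun L c => rat3
  · exact vertexOK_of_rat (Or.inr rfl) (by norm_num) (by norm_num) (by norm_num) (by norm_num)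
      fun L c => rat4
  · exact vertexOK_of_rat (Or.inr rfl) (by norm_num) (by norm_num) (by norm_num) (by norm_num)
      fun L c => rat5

end Vale.Agent.P322
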