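import Mathlib
import Vale.Agent.P322.LowDefs

/-! The vertex inequality near mean zero. -/

noncomputable section

namespace Vale.Agent.P322

open Real

theorem vertexZero_key {L de : ℝ} (hL : 0 < L) (hd : 0 ≤ de) :
    log (1 + L / (17 / 10)) ≤
      L / (2 * log 2) * ((exp (-de) - exp (-L)) / (1 - exp (-L))) + de := by
  have hl := log_two_gt_d9
  have hl' := log_two_lt_d9
  set q := exp (-L) with hq
  set a := L / (2 * log 2) with ha
  set s := 1 - q with hs
  have hs0 : 0 < s := by
    have : q < 1 := exp_lt_one_iff.2 (by linarith)
    linarith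
  have ha0 : 0 < a := div_pos hL (by linarith)
  rcases le_or_gt a s with h | h
  · have h1 : L / (17 / 10) ≤ a := by
      rw [ha]
      exact div_le_div_of_nonneg_left hL.le (by linarith) (by linarith)
    have h2 : log (1 + L / (17 / 10)) ≤ L / (17 / 10) := by
      have := log_le_sub_one_of_pos (x := 1 + L / (17 / 10)) (by positivity)
      linarith
    have h3 : (1 - de - q) / s ≤ (exp (-de) - q) / s := by
      have := add_one_le_exp (-de)
      gcongr
      linarith
    have h4 := mul_le_mul_of_nonneg_left h3 ha0.le
    have h5 : a * ((1 - de - q) / s) + de = a + de * (1 - a / s) := by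
      rw [show 1 - de - q = s - de by rw [hs]; ring]
      field_simp
      ring
    have h6 : 0 ≤ de * (1 - a / s) := mul_nonneg hd (by
      rw [sub_nonneg, div_le_one hs0]; exact h)
    linarith
  · have hexp : 1 + L + L ^ 2 / 2 ≤ exp L := quadratic_le_exp_of_nonneg hL.le
    have hqe : q * exp L = 1 := by rw [hq, ← exp_add, neg_add_cancel, exp_zero]
    have hsL : s * (1 + L / 2) ≤ L := by
      rcases le_or_gt 2 L with h2 | h2
      · have : 0 < q := exp_pos _
        nlinarith
      · have h3 : exp L ≤ (2 + L) / (2 - L) := by
          have h4 := le_log_one_add_of_nonneg (x := 2 * L / (2 - L)) (by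
            apply div_nonneg <;> linarith)
          rw [← exp_log (show (0 : ℝ) < (2 + L) / (2 - L) by apply div_pos <;> linarith)]
          refine exp_le_exp.2 (le_of_eq_of_le ?_ (h4.trans_eq ?_))
          · field_simp; ring
          · congr 1; field_simp; ring
        rw [le_div_iff₀ (by linarith)] at h3
        have : 0 < q := exp_pos _
        nlinarith
    have hLs : L / (1 + L) ≤ s := by
      rw [div_le_iff₀ (by linarith)]
      have : 0 < q := exp_pos _
      nlinarith
    have hL2 : 19 / 50 ≤ L := by
      have h5 : L / (1 + L) < L / (2 * log 2) := lt_of_le_of_lt hLs h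
      rw [div_lt_div_iff_of_pos_left hL (by linarith) (by linarith)] at h5
      linarith
    -- optimise over `de`
    have h6 : 1 + log (a / s) ≤ a / s * exp (-de) + de := by
      have := add_one_le_exp (log (a / s) - de)
      rw [sub_eq_add_neg (log (a / s)) de, exp_add, exp_log (div_pos ha0 hs0)] at this
      linarith
    have h7 : a * ((exp (-de) - q) / s) = a / s * exp (-de) - a * q / s := by ring
    have h8 : a * q / s ≤ 3607 / 5000 / (1 + L / 2) := by
      rw [ha, div_le_div_iff₀ hs0 (by linarith)]
      rw [div_mul_eq_mul_div, div_mul_eq_mul_div, div_le_iff₀ (by linarith)]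
      have hqp : 0 < q := exp_pos _
      have h9 : L * q * (1 + L / 2) ≤ s := by nlinarith [mul_le_mul_of_nonneg_left hexp hqp.le]
      nlinarith [mul_le_mul_of_nonneg_left hl.le hs0.le]
    have h10 : (1 + L / 2) / (2 * log 2) ≤ a / s := by
      rw [ha, div_div, div_le_div_iff₀ (by linarith) (mul_pos (by linarith) hs0)]
      nlinarith
    have h11 : log ((1 + L / 2) / (2 * log 2)) ≤ log (a / s) :=
      log_le_log (div_pos (by linarith) (by linarith)) h10
    rw [log_div (by linarith) (by linarith)] at h11
    have h12 : log (2 * log 2) ≤ 3267 / 10000 := by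
      rw [log_le_iff_le_exp (by linarith)]
      refine le_trans ?_ (sum_le_exp_of_nonneg (by norm_num) 5)
      simp [Finset.sum_range_succ, Nat.factorial]
      linarith
    have h13 : log (1 + L / (17 / 10)) - log (1 + L / 2) ≤
        883 / 10000 * L / (1 + L / 2) := by
      have := log_le_sub_one_of_pos (x := (1 + L / (17 / 10)) / (1 + L / 2)) (by positivity)
      rw [log_div (by positivity) (by positivity)] at this
      refine this.trans ?_
      rw [div_sub_one (by positivity)]
      gcongr
      linarith
    have h14 : 3607 / 5000 / (1 + L / 2) + 883 / 10000 * L / (1 + L / 2) ≤ 6733 / 10000 := by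
      rw [← add_div, div_le_iff₀ (by linarith)]
      linarith
    linarith

theorem vertexZero_holds : VertexZero := by
  intro L x hL hx hx1
  have hl := log_two_gt_d9
  set q := exp (-L) with hq
  have hq0 : 0 < q := exp_pos _
  have hq1 : q < 1 := exp_lt_one_iff.2 (by linarith)
  set N := q + x * (1 - q) with hN
  have hNq : q < N := by nlinarith
  have hN1 : N ≤ 1 := by nlinarith
  have hN0 : 0 < N := hq0.trans hNq
  have hde : 0 ≤ L + log N := by
    have := log_le_log hq0 hNq.le
    rw [hq, log_exp] at this
    linarith
  have hlogN : log N ≤ 0 := log_nonpos hN0.le hN1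
  have key := vertexZero_key (de := L + log N) hL hde
  have e : (exp (-(L + log N)) - q) / (1 - q) = 1 - x / N := by
    rw [neg_add, exp_add, exp_neg (log N), exp_log hN0, ← hq]
    have : (1 : ℝ) - q ≠ 0 := by linarith
    field_simp
    rw [hN]; ring
  rw [e] at key
  have h1 : 1 - x / N ≤ log (N / x) := by
    have := one_sub_inv_le_log_of_pos (div_pos hN0 hx)
    rwa [inv_div] at this
  have h2 : log (1 + (L - log N) / (17 / 5)) ≤ log (1 + L / (17 / 10)) := by
    refine log_le_log ?_ ?_ <;> linarith
  have h3 := mul_le_mul_of_nonneg_left h1 (show 0 ≤ L / (2 * log 2) by positivity)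
  unfold eBd
  have h4 : L / (2 * log 2) * (2 * log 2 + log (N / x) / 2) =
      L + L / (2 * log 2) * log (N / x) / 2 := by field_simp
  rw [h4]
  linarith

end Vale.Agent.P322
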