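import Vale.Agent.P322.CKofParts
import Vale.Agent.P322.Chord
import Vale.Agent.P322.Vertex
import Vale.Agent.P322.VertexZero
import Vale.Agent.P322.OneHigh

/-! `ElemOne` holds. -/

noncomputable section

namespace Vale.Agent.P322

theorem elemOne_holds : ElemOne :=
  elemOne_of_parts chordAll_holds vertexAll_holds vertexZero_holds
    (fun _ _ _ hm hd0 hd h0 h => elemOne_high hm hd0 hd h0 h)

end Vale.Agent.P322
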