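import Mathlib

/-!
Lemma J for the Courtade-Kumar induction: `(a-b)(artanh a - artanh b)/4 + k (H a + H b)/2` lies
above its tangent plane at `(c, e)` when `k = (c-e)²/(4(1-ce))`.
-/

namespace Vale.Agent.P322.JLemma

open Real Filter Topology Set

/-- `log cosh`. -/
noncomputable def lc (x : ℝ) : ℝ := Real.log (Real.cosh x)

/-- `log 2 - h((1+a)/2)` in nats. -/
noncomputable def phiB (a : ℝ) : ℝ :=
  ((1 + a) * Real.log (1 + a) + (1 - a) * Real.log (1 - a)) / 2

/-- The cross coefficient `k`. -/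
noncomputable def kk (c e : ℝ) : ℝ := (c - e) ^ 2 / (4 * (1 - c * e))

/-- The gradient component of `J + k (H + H')/2` at `(c, e)`. -/
noncomputable def gJ (c e : ℝ) : ℝ :=
  ((1 - 2 * kk c e) * Real.artanh c - Real.artanh e + (c - e) / (1 - c ^ 2)) / 4

/-- The two-point Dirichlet form. -/
noncomputable def jJ (a b : ℝ) : ℝ := (a - b) * (Real.artanh a - Real.artanh b) / 4

/-- `J + k (H a + H b)/2` with `H = log 2 - φ`. -/
noncomputable def gG (k a b : ℝ) : ℝ :=
  jJ a b + k * ((Real.log 2 - phiB a) + (Real.log 2 - phiB b)) / 2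

lemma hasDerivAt_lc (x : ℝ) : HasDerivAt lc (Real.tanh x) x := by
  rw [Real.tanh_eq_sinh_div_cosh]
  exact (Real.hasDerivAt_cosh x).log (Real.cosh_pos x).ne'

lemma abs_tanh_lt (x : ℝ) : -1 < Real.tanh x ∧ Real.tanh x < 1 := by
  rw [Real.tanh_eq_sinh_div_cosh]
  have hc := Real.cosh_pos x
  have h1 := Real.exp_pos x
  have h2 := Real.exp_pos (-x)
  rw [div_lt_one hc, lt_div_iff₀ hc, Real.sinh_eq, Real.cosh_eq]
  constructor <;> linarith

lemma one_sub_tanh_sq (x : ℝ) : 1 - Real.tanh x ^ 2 = 1 / Real.cosh x ^ 2 := by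
  have hc := (Real.cosh_pos x).ne'
  rw [Real.tanh_eq_sinh_div_cosh, div_pow]
  field_simp
  linarith [Real.cosh_sq x]

lemma hasDerivAt_tanh' (x : ℝ) : HasDerivAt Real.tanh (1 - Real.tanh x ^ 2) x := by
  have h := (Real.hasDerivAt_sinh x).div (Real.hasDerivAt_cosh x) (Real.cosh_pos x).ne'
  have e : Real.tanh = fun y => Real.sinh y / Real.cosh y := funext Real.tanh_eq_sinh_div_cosh
  rw [e]
  refine h.congr_deriv ?_
  have hc := (Real.cosh_pos x).ne'
  field_simp

lemma log_one_add_tanh (x : ℝ) : Real.log (1 + Real.tanh x) = x - lc x := by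
  have hc := Real.cosh_pos x
  rw [Real.tanh_eq_sinh_div_cosh, show 1 + Real.sinh x / Real.cosh x = Real.exp x / Real.cosh x by
    rw [← Real.cosh_add_sinh]; field_simp, Real.log_div (Real.exp_pos x).ne' hc.ne', Real.log_exp,
    lc]

lemma log_one_sub_tanh (x : ℝ) : Real.log (1 - Real.tanh x) = -x - lc x := by
  have h := log_one_add_tanh (-x)
  rwa [Real.tanh_neg, ← sub_eq_add_neg, lc, Real.cosh_neg] at h

lemma phiB_tanh (x : ℝ) : phiB (Real.tanh x) = Real.tanh x * x - lc x := by
  rw [phiB, log_one_add_tanh, log_one_sub_tanh]; ring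

lemma phiB_neg (a : ℝ) : phiB (-a) = phiB a := by
  rw [phiB, phiB]; ring_nf

lemma lc_neg (x : ℝ) : lc (-x) = lc x := by rw [lc, lc, Real.cosh_neg]

lemma phiB_le (x : ℝ) : phiB (Real.tanh x) ≤ Real.log 2 := by
  have h := abs_tanh_lt x
  set a := Real.tanh x
  have h1 : Real.log (1 + a) ≤ Real.log 2 := Real.log_le_log (by linarith) (by linarith)
  have h2 : Real.log (1 - a) ≤ Real.log 2 := Real.log_le_log (by linarith) (by linarith)
  rw [phiB]
  nlinarith [mul_le_mul_of_nonneg_left h1 (show 0 ≤ 1 + a by linarith),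
    mul_le_mul_of_nonneg_left h2 (show 0 ≤ 1 - a by linarith)]

/-- `log cosh` lies above its tangents. -/
lemma lc_tangent (A X : ℝ) : lc A + Real.tanh A * (X - A) ≤ lc X := by
  have hA := Real.cosh_pos A
  have hp : 0 ≤ (1 + Real.tanh A) / 2 := by linarith [(abs_tanh_lt A).1]
  have hq : 0 ≤ (1 - Real.tanh A) / 2 := by linarith [(abs_tanh_lt A).2]
  have hc := convexOn_exp.2 (Set.mem_univ (X - A)) (Set.mem_univ (-(X - A))) hp hq (by ring)
  simp only [smul_eq_mul] at hc
  have e1 : (1 + Real.tanh A) / 2 * Real.exp (X - A) + (1 - Real.tanh A) / 2 * Real.exp (-(X - A))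
      = Real.cosh X / Real.cosh A := by
    rw [Real.tanh_eq_sinh_div_cosh, show X = A + (X - A) by ring, Real.cosh_add]
    simp only [add_sub_cancel_left]
    rw [Real.cosh_eq (X - A), Real.sinh_eq (X - A)]
    field_simp
    ring
  rw [e1, show (1 + Real.tanh A) / 2 * (X - A) + (1 - Real.tanh A) / 2 * -(X - A) =
    Real.tanh A * (X - A) by ring] at hc
  have h2 := Real.log_le_log (Real.exp_pos _) hc
  rw [Real.log_exp, Real.log_div (Real.cosh_pos X).ne' hA.ne'] at h2
  simp only [lc]
  linarith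

lemma phiB_gibbs (A X : ℝ) : Real.tanh A * X - lc X ≤ phiB (Real.tanh A) := by
  have := lc_tangent A X
  rw [phiB_tanh]
  linarith

section half

variable (C E k : ℝ)

/-- The minimiser in log-odds. -/
noncomputable def xf (B : ℝ) : ℝ := C + (B - E) / (1 - k)

/-- `-g₂`. -/
noncomputable def g2c : ℝ := k * E + (Real.tanh C - Real.tanh E) * Real.cosh E ^ 2

/-- The reduced one-variable function. -/
noncomputable def phF (B : ℝ) : ℝ :=
  (1 + k) * lc B - k * (Real.tanh B * B) - (1 - k) * lc (xf C E k B) + g2c C E k * Real.tanh B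

/-- Its derivative divided by `1 - tanh²`. -/
noncomputable def psi (B : ℝ) : ℝ :=
  Real.sinh (B - xf C E k B) * Real.cosh B / Real.cosh (xf C E k B) - k * B + g2c C E k

/-- Numerator of the derivative of `psi`. -/
noncomputable def num (B : ℝ) : ℝ :=
  (1 - k) * Real.sinh (xf C E k B - B) ^ 2 -
    k * (Real.cosh B ^ 2 + (1 - k) * Real.cosh (xf C E k B) ^ 2)

variable {C E k}

lemma hasDerivAt_xf (B : ℝ) : HasDerivAt (xf C E k) (1 / (1 - k)) B :=
  (((hasDerivAt_id B).sub_const E).div_const (1 - k)).const_add C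

lemma hasDerivAt_phF (hk1 : k < 1) (B : ℝ) :
    HasDerivAt (phF C E k) ((1 - Real.tanh B ^ 2) * psi C E k B) B := by
  have h1 := (hasDerivAt_lc B).const_mul (1 + k)
  have h2 := ((hasDerivAt_tanh' B).mul (hasDerivAt_id B)).const_mul k
  have h3 := ((hasDerivAt_lc (xf C E k B)).comp B (hasDerivAt_xf B)).const_mul (1 - k)
  have h4 := (hasDerivAt_tanh' B).const_mul (g2c C E k)
  refine (((h1.sub h2).sub h3).add h4).congr_deriv ?_
  simp only [id]
  have hm : (1 - k) ≠ 0 := by linarith
  have hX := (Real.cosh_pos (xf C E k B)).ne'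
  have hB := (Real.cosh_pos B).ne'
  rw [psi, Real.sinh_sub, one_sub_tanh_sq, Real.tanh_eq_sinh_div_cosh B,
    Real.tanh_eq_sinh_div_cosh (xf C E k B)]
  field_simp
  ring

lemma psi_self : psi C E k E = 0 := by
  have hx : xf C E k E = C := by simp [xf]
  have hC := (Real.cosh_pos C).ne'
  have hE := (Real.cosh_pos E).ne'
  rw [psi, hx, g2c, Real.sinh_sub, Real.tanh_eq_sinh_div_cosh, Real.tanh_eq_sinh_div_cosh]
  field_simp
  ring

lemma hasDerivAt_psi (hk1 : k < 1) (B : ℝ) :
    HasDerivAt (psi C E k) (num C E k B / ((1 - k) * Real.cosh (xf C E k B) ^ 2)) B := by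
  have hx := hasDerivAt_xf (C := C) (E := E) (k := k) B
  have h1 := ((hasDerivAt_id B).sub hx).sinh.mul (Real.hasDerivAt_cosh B)
  have h2 := h1.div hx.cosh (Real.cosh_pos _).ne'
  refine ((h2.sub ((hasDerivAt_id B).const_mul k)).add_const (g2c C E k)).congr_deriv ?_
  simp only [id, Pi.sub_apply, Pi.mul_apply]
  set X := xf C E k B
  have hm : (1 - k) ≠ 0 := by linarith
  have hX := (Real.cosh_pos X).ne'
  rw [num, show X - B = -(B - X) by ring, Real.sinh_neg, neg_sq, Real.sinh_sub, Real.cosh_sub]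
  field_simp
  have i1 := Real.cosh_sq B
  have i2 := Real.cosh_sq X
  grind

lemma num_self_nonneg (hk : 0 ≤ k) (hk2 : k ≤ 1 / 2)
    (hkv : k * (4 * Real.cosh (C - E) * Real.cosh C * Real.cosh E) = Real.sinh (C - E) ^ 2) :
    0 ≤ num C E k E := by
  have hx : xf C E k E = C := by simp [xf]
  rw [num, hx]
  have hle : Real.cosh E ^ 2 + Real.cosh C ^ 2 ≤
      2 * Real.cosh (C - E) * Real.cosh C * Real.cosh E + Real.sinh (C - E) ^ 2 * 0 := by
    have key : Real.cosh E ^ 2 + Real.cosh C ^ 2 -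
        2 * Real.cosh (C - E) * Real.cosh C * Real.cosh E = -(Real.sinh (C - E) ^ 2) := by
      rw [Real.sinh_sub, Real.cosh_sub]
      have i1 := Real.cosh_sq E
      have i2 := Real.cosh_sq C
      grind
    nlinarith [sq_nonneg (Real.sinh (C - E))]
  have hX : 0 ≤ k * Real.cosh C ^ 2 := mul_nonneg hk (sq_nonneg _)
  have h2 : k * (Real.cosh E ^ 2 + (1 - k) * Real.cosh C ^ 2) ≤
      k * (2 * Real.cosh (C - E) * Real.cosh C * Real.cosh E) := by
    refine mul_le_mul_of_nonneg_left ?_ hk
    nlinarith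
  have h3 := sq_nonneg (Real.sinh (C - E))
  nlinarith

/-- `{num ≥ 0}` is an interval on the ray where `B < X`. -/
lemma num_interval (hk : 0 ≤ k) (hk1 : k < 1) {B1 B B2 : ℝ} (h01 : B1 < xf C E k B1)
    (h1 : B1 ≤ B) (h2 : B ≤ B2) (n1 : 0 ≤ num C E k B1) (n2 : 0 ≤ num C E k B2) :
    0 ≤ num C E k B := by
  rcases hk.eq_or_lt with rfl | hk0
  · simp [num, sq_nonneg]
  set X := xf C E k with hX
  set m := 1 - k with hm
  have hm0 : 0 < m := by linarith
  set den : ℝ → ℝ := fun t => Real.cosh t ^ 2 + m * Real.cosh (X t) ^ 2 with hden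
  have hden0 : ∀ t, 0 < den t := fun t => by
    have := Real.cosh_pos t
    have := Real.cosh_pos (X t)
    simp only [hden]; positivity
  set I := Ici B1
  have hpos : ∀ t ∈ I, 0 < Real.sinh (X t - t) := by
    intro t (ht : B1 ≤ t)
    refine Real.sinh_pos_iff.mpr ?_
    have e : X t - t = (X B1 - B1) + (t - B1) * (k / m) := by
      simp only [hX, xf, ← hm]; field_simp; rw [hm]; ring
    rw [e]
    have : 0 ≤ (t - B1) * (k / m) := mul_nonneg (by linarith) (div_nonneg hk hm0.le)
    linarith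
  set T : ℝ → ℝ := fun t => 2 * Real.log (Real.sinh (X t - t)) - Real.log (den t) with hT
  set d : ℝ → ℝ := fun t => 2 * (Real.cosh (X t - t) * (1 / m - 1) / Real.sinh (X t - t)) -
    (2 * Real.cosh t * Real.sinh t + 2 * Real.cosh (X t) * Real.sinh (X t)) / den t with hd
  have hX' : ∀ t, HasDerivAt X (1 / m) t := fun t => hasDerivAt_xf t
  have hdT : ∀ t ∈ I, HasDerivAt T (d t) t := by
    intro t ht
    have a1 := (((hX' t).sub (hasDerivAt_id t)).sinh.log (hpos t ht).ne').const_mul 2
    have a2 : HasDerivAt den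
        (2 * Real.cosh t * Real.sinh t + 2 * Real.cosh (X t) * Real.sinh (X t)) t := by
      refine (((Real.hasDerivAt_cosh t).pow 2).add (((hX' t).cosh.pow 2).const_mul m)).congr_deriv ?_
      simp only [Nat.cast_ofNat]
      field_simp
      ring
    exact a1.sub (a2.log (hden0 t).ne')
  have hdd : ∀ t ∈ I, ∃ v, HasDerivAt d v t ∧ v ≤ 0 := by
    intro t ht
    have hs := hpos t ht
    have a1 := (((((hX' t).sub (hasDerivAt_id t)).cosh.mul_const (1 / m - 1)).div
      ((hX' t).sub (hasDerivAt_id t)).sinh hs.ne')).const_mul 2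
    have a2 : HasDerivAt den
        (2 * Real.cosh t * Real.sinh t + 2 * Real.cosh (X t) * Real.sinh (X t)) t := by
      refine (((Real.hasDerivAt_cosh t).pow 2).add (((hX' t).cosh.pow 2).const_mul m)).congr_deriv ?_
      simp only [Nat.cast_ofNat]
      field_simp
      ring
    have a3 := (((Real.hasDerivAt_cosh t).const_mul 2).mul (Real.hasDerivAt_sinh t)).add
      (((hX' t).cosh.const_mul 2).mul (hX' t).sinh)
    refine ⟨_, a1.sub (a3.div a2 (hden0 t).ne'), ?_⟩
    simp only [id, Pi.sub_apply, Pi.mul_apply, Pi.add_apply]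
    refine sub_nonpos.mpr ?_
    refine le_trans ?_ (div_nonneg ?_ (sq_nonneg _))
    · refine mul_nonpos_of_nonneg_of_nonpos (by norm_num) (div_nonpos_of_nonpos_of_nonneg ?_ (sq_nonneg _))
      have := Real.cosh_sq (X t - t)
      nlinarith [sq_nonneg (1 / m - 1)]
    · set c1 := Real.cosh t
      set s1 := Real.sinh t
      set c2 := Real.cosh (X t)
      set s2 := Real.sinh (X t)
      have i1 : c1 ^ 2 = s1 ^ 2 + 1 := Real.cosh_sq t
      have i2 : c2 ^ 2 = s2 ^ 2 + 1 := Real.cosh_sq (X t)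
      have k1 : 0 ≤ m * (s1 * c2 - s2 * c1 / m) ^ 2 := by positivity
      have k2 : 0 ≤ (m - 1) ^ 2 * (c1 * c2) ^ 2 / m := by positivity
      have k3 : c1 * c2 * (s1 * s2) ≤ (c1 * c2) ^ 2 := by
        have : |s1 * s2| ≤ c1 * c2 := by
          rw [abs_mul]
          refine mul_le_mul ?_ ?_ (abs_nonneg _) (Real.cosh_pos t).le
          · exact abs_le_of_sq_le_sq (by linarith) (Real.cosh_pos t).le
          · exact abs_le_of_sq_le_sq (by linarith) (Real.cosh_pos (X t)).le
        rw [sq]
        exact mul_le_mul_of_nonneg_left ((le_abs_self _).trans this)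
          (mul_pos (Real.cosh_pos t) (Real.cosh_pos (X t))).le
      simp only [hden]
      have k4 : c1 ^ 2 * (c1 ^ 2 - s1 ^ 2) + c2 ^ 2 * (c2 ^ 2 - s2 ^ 2) ≥ 0 := by
        rw [i1, i2]; ring_nf; positivity
      field_simp at k1 k2
      field_simp
      nlinarith [k1, k2, k3, k4, hm0, mul_le_mul_of_nonneg_left k3 hm0.le,
        mul_nonneg hm0.le k4]
  have hcont : ContinuousOn T I := fun t ht => (hdT t ht).continuousAt.continuousWithinAt
  have hint : ∀ t ∈ interior I, t ∈ I := fun t ht => interior_subset ht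
  have hanti : AntitoneOn d I := by
    refine antitoneOn_of_deriv_nonpos (convex_Ici _)
      (fun t ht => by obtain ⟨v, hv, _⟩ := hdd t ht; exact hv.continuousAt.continuousWithinAt)
      (fun t ht => by
        obtain ⟨v, hv, _⟩ := hdd t (hint t ht); exact hv.differentiableAt.differentiableWithinAt)
      fun t ht => ?_
    obtain ⟨v, hv, hv0⟩ := hdd t (hint t ht)
    rw [hv.deriv]; exact hv0
  have hconc : ConcaveOn ℝ I T := by
    refine AntitoneOn.concaveOn_of_deriv (convex_Ici _) hcont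
      (fun t ht => (hdT t (hint t ht)).differentiableAt.differentiableWithinAt) ?_
    intro a ha b hb hab
    rw [(hdT a (hint a ha)).deriv, (hdT b (hint b hb)).deriv]
    exact hanti (hint a ha) (hint b hb) hab
  have hiff : ∀ t ∈ I, (0 ≤ num C E k t ↔ Real.log (k / m) ≤ T t) := by
    intro t ht
    have hs := pow_pos (hpos t ht) 2
    have e : T t = Real.log (Real.sinh (X t - t) ^ 2 / den t) := by
      rw [Real.log_div hs.ne' (hden0 t).ne', Real.log_pow]; simp [hT]
    rw [e, Real.log_le_log_iff (div_pos hk0 hm0) (div_pos hs (hden0 t)),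
      div_le_div_iff₀ hm0 (hden0 t)]
    simp only [num, hden, ← hm, hX]
    constructor <;> intro h <;> linarith
  have hI1 : B1 ∈ I := Set.mem_Ici.mpr le_rfl
  have hI2 : B2 ∈ I := Set.mem_Ici.mpr (h1.trans h2)
  have hconv := hconc.convex_ge (Real.log (k / m))
  have hB : B ∈ {t ∈ I | Real.log (k / m) ≤ T t} :=
    hconv.ordConnected.out ⟨hI1, (hiff _ hI1).mp n1⟩ ⟨hI2, (hiff _ hI2).mp n2⟩ ⟨h1, h2⟩
  exact (hiff B hB.1).mpr hB.2

lemma one_sub_tanh_eq (x : ℝ) :
    1 - Real.tanh x = 2 * Real.exp (-x) / (Real.exp x + Real.exp (-x)) := by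
  have h1 := Real.exp_pos x
  have h2 := Real.exp_pos (-x)
  rw [Real.tanh_eq_sinh_div_cosh, Real.sinh_eq, Real.cosh_eq]
  field_simp
  ring

lemma tendsto_lc_sub : Tendsto (fun x => lc x - x + Real.log 2) atTop (𝓝 0) := by
  have e : ∀ x, lc x - x + Real.log 2 = Real.log (1 + Real.exp (-x) * Real.exp (-x)) := by
    intro x
    have h1 := Real.exp_pos x
    have h2 := Real.exp_pos (-x)
    rw [lc, Real.cosh_eq, Real.log_div (by positivity) two_ne_zero,
      show Real.exp x + Real.exp (-x) = Real.exp x * (1 + Real.exp (-x) * Real.exp (-x)) by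
        rw [mul_add, mul_one, ← mul_assoc, ← Real.exp_add]; simp,
      Real.log_mul h1.ne' (by positivity), Real.log_exp]
    ring
  simp only [e]
  have : Tendsto (fun x : ℝ => 1 + Real.exp (-x) * Real.exp (-x)) atTop (𝓝 1) := by
    simpa using (Real.tendsto_exp_neg_atTop_nhds_zero.mul
      Real.tendsto_exp_neg_atTop_nhds_zero).const_add 1
  simpa using this.log one_ne_zero

lemma tendsto_tanh_one : Tendsto Real.tanh atTop (𝓝 1) := by
  have h : Tendsto (fun x => 1 - Real.tanh x) atTop (𝓝 0) := by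
    refine squeeze_zero' (Eventually.of_forall fun x => by linarith [(abs_tanh_lt x).2])
      ((eventually_ge_atTop 0).mono fun x hx => ?_)
      (by simpa using Real.tendsto_exp_neg_atTop_nhds_zero.const_mul 2)
    rw [one_sub_tanh_eq, div_le_iff₀ (by positivity)]
    have := Real.one_le_exp hx
    have := Real.exp_pos (-x)
    nlinarith
  simpa using h.const_sub 1

lemma tendsto_mul_one_sub_tanh : Tendsto (fun x => x * (1 - Real.tanh x)) atTop (𝓝 0) := by
  refine squeeze_zero' ((eventually_ge_atTop 0).mono fun x hx =>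
      mul_nonneg hx (by linarith [(abs_tanh_lt x).2]))
    ((eventually_ge_atTop 0).mono fun x hx => ?_)
    (by simpa using (Real.tendsto_pow_mul_exp_neg_atTop_nhds_zero 1).const_mul 2)
  rw [one_sub_tanh_eq, mul_div_assoc', div_le_iff₀ (by positivity)]
  have := Real.one_le_exp hx
  have := Real.exp_pos (-x)
  have : 0 ≤ 2 * (x * Real.exp (-x)) := by positivity
  nlinarith

lemma tendsto_phF (hk1 : k < 1) : Tendsto (phF C E k) atTop
    (𝓝 (E - (1 - k) * C - 2 * k * Real.log 2 + g2c C E k)) := by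
  have hm : 0 < 1 - k := by linarith
  have hx : Tendsto (xf C E k) atTop atTop :=
    tendsto_atTop_add_const_left _ C
      ((tendsto_atTop_add_const_right _ (-E) tendsto_id).atTop_div_const hm)
  have h := ((((tendsto_lc_sub.const_mul (1 + k)).sub ((tendsto_lc_sub.comp hx).const_mul (1 - k))).add
    (tendsto_mul_one_sub_tanh.const_mul k)).add (tendsto_tanh_one.const_mul (g2c C E k))).add_const
    (E - (1 - k) * C - 2 * k * Real.log 2)
  simp only [mul_zero, sub_zero, zero_add, mul_one] at h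
  rw [add_comm (g2c C E k)] at h
  refine h.congr fun B => ?_
  simp only [Function.comp_apply, phF, xf]
  field_simp
  ring

lemma self_le_phF (hk : 0 < k) (hk2 : k ≤ 1 / 2) (hd : E < C)
    (hkv : k * (4 * Real.cosh (C - E) * Real.cosh C * Real.cosh E) = Real.sinh (C - E) ^ 2)
    (hL : phF C E k (E - (C - E) * (1 - k) / k) ≥ phF C E k E)
    (hR : E - (1 - k) * C - 2 * k * Real.log 2 + g2c C E k ≥ phF C E k E)
    {B : ℝ} (hB : B < xf C E k B) : phF C E k E ≤ phF C E k B := by
  have hk1 : k < 1 := by linarith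
  have hm : 0 < 1 - k := by linarith
  set B0 := E - (C - E) * (1 - k) / k with hB0
  have hray : ∀ t, B0 < t → t < xf C E k t := by
    intro t ht
    have e : xf C E k t - t = (t - B0) * (k / (1 - k)) := by
      rw [hB0, xf]; field_simp; ring
    have : 0 < (t - B0) * (k / (1 - k)) := mul_pos (sub_pos.mpr ht) (div_pos hk hm)
    linarith
  have hB0B : B0 < B := by
    have e : xf C E k B - B = (B - B0) * (k / (1 - k)) := by
      rw [hB0, xf]; field_simp; ring
    by_contra hc
    have : (B - B0) * (k / (1 - k)) ≤ 0 :=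
      mul_nonpos_of_nonpos_of_nonneg (by linarith) (div_pos hk hm).le
    linarith
  have hB0E : B0 < E := by
    have : 0 < (C - E) * (1 - k) / k := div_pos (mul_pos (sub_pos.mpr hd) hm) hk
    linarith
  have hnE := num_self_nonneg hk.le hk2 hkv
  have hsech : ∀ t, 0 ≤ 1 - Real.tanh t ^ 2 := fun t => by
    rw [one_sub_tanh_sq]; positivity
  have hpc : Continuous (phF C E k) :=
    continuous_iff_continuousAt.mpr fun t => (hasDerivAt_phF hk1 t).continuousAt
  have hsc : Continuous (psi C E k) :=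
    continuous_iff_continuousAt.mpr fun t => (hasDerivAt_psi hk1 t).continuousAt
  have hpd : ∀ t, deriv (phF C E k) t = (1 - Real.tanh t ^ 2) * psi C E k t := fun t =>
    (hasDerivAt_phF hk1 t).deriv
  have hpdiff : Differentiable ℝ (phF C E k) := fun t => (hasDerivAt_phF hk1 t).differentiableAt
  have hden : ∀ t, 0 < (1 - k) * Real.cosh (xf C E k t) ^ 2 := fun t =>
    mul_pos hm (pow_pos (Real.cosh_pos _) 2)
  rcases lt_trichotomy B E with hlt | rfl | hgt
  · by_cases hall : ∀ t ∈ Ioo B E, psi C E k t ≤ 0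
    · refine antitoneOn_of_deriv_nonpos (convex_Icc B E) hpc.continuousOn hpdiff.differentiableOn
        (fun t ht => ?_) (left_mem_Icc.mpr hlt.le) (right_mem_Icc.mpr hlt.le) hlt.le
      rw [interior_Icc] at ht
      rw [hpd]
      exact mul_nonpos_of_nonneg_of_nonpos (hsech t) (hall t ht)
    · push Not at hall
      obtain ⟨g, hg, hgpos⟩ := hall
      obtain ⟨η, hη, hslope⟩ := exists_hasDerivAt_eq_slope (psi C E k)
        (fun t => num C E k t / ((1 - k) * Real.cosh (xf C E k t) ^ 2)) hg.2 hsc.continuousOn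
        (fun t _ => hasDerivAt_psi hk1 t)
      have hneg : num C E k η < 0 := by
        by_contra hc
        have h1 : 0 ≤ num C E k η / ((1 - k) * Real.cosh (xf C E k η) ^ 2) :=
          div_nonneg (not_lt.mp hc) (hden η).le
        rw [hslope, psi_self] at h1
        have : (0 - psi C E k g) / (E - g) < 0 :=
          div_neg_of_neg_of_pos (by linarith) (by linarith [hg.2])
        linarith
      have hall2 : ∀ t ∈ Ioc B0 η, num C E k t < 0 := by
        intro t ht
        by_contra hc
        exact absurd (num_interval hk.le hk1 (hray t ht.1) ht.2 hη.2.le (not_lt.mp hc) hnE)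
          (not_le.mpr hneg)
      have hanti : AntitoneOn (psi C E k) (Icc B0 η) := by
        refine antitoneOn_of_deriv_nonpos (convex_Icc _ _) hsc.continuousOn
          (fun t _ => (hasDerivAt_psi hk1 t).differentiableAt.differentiableWithinAt) fun t ht => ?_
        rw [interior_Icc] at ht
        rw [(hasDerivAt_psi hk1 t).deriv]
        exact div_nonpos_of_nonpos_of_nonneg (hall2 t ⟨ht.1, ht.2.le⟩).le (hden t).le
      have hmono : MonotoneOn (phF C E k) (Icc B0 g) := by
        refine monotoneOn_of_deriv_nonneg (convex_Icc _ _) hpc.continuousOn hpdiff.differentiableOn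
          fun t ht => ?_
        rw [interior_Icc] at ht
        rw [hpd]
        refine mul_nonneg (hsech t) (hgpos.le.trans (hanti ⟨ht.1.le, ht.2.le.trans hη.1.le⟩
          ⟨(hB0B.trans hg.1).le, hη.1.le⟩ ht.2.le))
      exact hL.trans (hmono ⟨le_rfl, (hB0B.trans hg.1).le⟩ ⟨hB0B.le, hg.1.le⟩ hB0B.le)
  · exact le_rfl
  · by_cases hall : ∀ t ∈ Ioo E B, 0 ≤ psi C E k t
    · refine monotoneOn_of_deriv_nonneg (convex_Icc E B) hpc.continuousOn hpdiff.differentiableOn
        (fun t ht => ?_) (left_mem_Icc.mpr hgt.le) (right_mem_Icc.mpr hgt.le) hgt.le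
      rw [interior_Icc] at ht
      rw [hpd]
      exact mul_nonneg (hsech t) (hall t ht)
    · push Not at hall
      obtain ⟨g, hg, hgneg⟩ := hall
      obtain ⟨η, hη, hslope⟩ := exists_hasDerivAt_eq_slope (psi C E k)
        (fun t => num C E k t / ((1 - k) * Real.cosh (xf C E k t) ^ 2)) hg.1 hsc.continuousOn
        (fun t _ => hasDerivAt_psi hk1 t)
      have hneg : num C E k η < 0 := by
        by_contra hc
        have h1 : 0 ≤ num C E k η / ((1 - k) * Real.cosh (xf C E k η) ^ 2) :=
          div_nonneg (not_lt.mp hc) (hden η).le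
        rw [hslope, psi_self] at h1
        have : (psi C E k g - 0) / (g - E) < 0 :=
          div_neg_of_neg_of_pos (by linarith) (by linarith [hg.1])
        linarith
      have hanti : AntitoneOn (psi C E k) (Ici η) := by
        refine antitoneOn_of_deriv_nonpos (convex_Ici _) hsc.continuousOn
          (fun t _ => (hasDerivAt_psi hk1 t).differentiableAt.differentiableWithinAt) fun t ht => ?_
        rw [interior_Ici] at ht
        rw [(hasDerivAt_psi hk1 t).deriv]
        refine div_nonpos_of_nonpos_of_nonneg (le_of_lt ?_) (hden t).le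
        by_contra hc
        exact absurd (num_interval hk.le hk1 (hray E hB0E) hη.1.le (le_of_lt ht) hnE (not_lt.mp hc))
          (not_le.mpr hneg)
      have hdec : AntitoneOn (phF C E k) (Ici g) := by
        refine antitoneOn_of_deriv_nonpos (convex_Ici _) hpc.continuousOn hpdiff.differentiableOn
          fun t ht => ?_
        rw [interior_Ici] at ht
        rw [hpd]
        exact mul_nonpos_of_nonneg_of_nonpos (hsech t) ((hanti (Set.mem_Ici.mpr hη.2.le)
          (Set.mem_Ici.mpr (hη.2.le.trans (le_of_lt ht))) (le_of_lt ht)).trans hgneg.le)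
      have hBlim : E - (1 - k) * C - 2 * k * Real.log 2 + g2c C E k ≤ phF C E k B :=
        le_of_tendsto (tendsto_phF hk1) ((eventually_ge_atTop B).mono fun t ht =>
          hdec (Set.mem_Ici.mpr hg.2.le) (Set.mem_Ici.mpr (hg.2.le.trans ht)) ht)
      exact hR.trans hBlim

end half

lemma two_log_le (y : ℝ) (hy : 1 ≤ y) : 2 * (y - 1) / (y + 1) ≤ Real.log y := by
  have h1 : MonotoneOn (fun t : ℝ => Real.log t - 2 * (t - 1) / (t + 1)) (Ici 1) := by
    have hd : ∀ t : ℝ, 0 < t → HasDerivAt (fun t : ℝ => Real.log t - 2 * (t - 1) / (t + 1))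
        ((t - 1) ^ 2 / (t * (t + 1) ^ 2)) t := by
      intro t ht
      refine ((Real.hasDerivAt_log ht.ne').sub ((((hasDerivAt_id t).sub_const 1).const_mul 2).div
        ((hasDerivAt_id t).add_const 1) (by simp; linarith))).congr_deriv ?_
      simp only [id]
      have : t + 1 ≠ 0 := by linarith
      field_simp
      ring
    refine monotoneOn_of_deriv_nonneg (convex_Ici _)
      (fun t ht => (hd t (zero_lt_one.trans_le ht)).continuousAt.continuousWithinAt)
      (fun t ht => (hd t (zero_lt_one.trans_le (interior_subset ht :))).differentiableAt.differentiableWithinAt)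
      fun t ht => ?_
    rw [interior_Ici] at ht
    have h0 : (0 : ℝ) < t := zero_lt_one.trans ht
    rw [(hd t h0).deriv]
    positivity
  have := h1 (Set.mem_Ici.mpr le_rfl) (Set.mem_Ici.mpr hy) hy
  simp at this
  linarith

lemma sub_one_sub_log_ge (x : ℝ) (hx : 1 ≤ x) : (x - 1) ^ 2 / (2 * x) ≤ x - 1 - Real.log x := by
  have h1 : MonotoneOn (fun t : ℝ => t - 1 - Real.log t - (t - 1) ^ 2 / (2 * t)) (Ici 1) := by
    have hd : ∀ t : ℝ, 0 < t → HasDerivAt
        (fun t : ℝ => t - 1 - Real.log t - (t - 1) ^ 2 / (2 * t))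
        ((t - 1) ^ 2 / (2 * t ^ 2)) t := by
      intro t ht
      refine ((((hasDerivAt_id t).sub_const 1).sub (Real.hasDerivAt_log ht.ne')).sub
        ((((hasDerivAt_id t).sub_const 1).pow 2).div ((hasDerivAt_id t).const_mul 2)
          (by simp; linarith))).congr_deriv ?_
      simp only [id, Pi.pow_apply, Nat.cast_ofNat]
      field_simp
      ring
    refine monotoneOn_of_deriv_nonneg (convex_Ici _)
      (fun t ht => (hd t (zero_lt_one.trans_le ht)).continuousAt.continuousWithinAt)
      (fun t ht => (hd t (zero_lt_one.trans_le (interior_subset ht :))).differentiableAt.differentiableWithinAt)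
      fun t ht => ?_
    rw [interior_Ici] at ht
    have h0 : (0 : ℝ) < t := zero_lt_one.trans ht
    rw [(hd t h0).deriv]
    positivity
  have := h1 (Set.mem_Ici.mpr le_rfl) (Set.mem_Ici.mpr hx) hx
  simp at this
  linarith

/-- The two corner inequalities. -/
lemma corners {c e : ℝ} (hc : c < 1) (he : -1 < e) (hce : e < c) :
    (1 - kk c e) * Real.log (1 + c) - (1 + kk c e) * Real.log (1 + e) - (c - e) / (1 + e)
        + 2 * kk c e * Real.log 2 ≤ 0 ∧
    (1 - kk c e) * Real.log (1 - c) - (1 + kk c e) * Real.log (1 - e) + (c - e) / (1 - e)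
        + 2 * kk c e * Real.log 2 ≤ 0 := by
  have c1 : 0 < 1 + c := by linarith
  have c2 : 0 < 1 - c := by linarith
  have e1 : 0 < 1 + e := by linarith
  have e2 : 0 < 1 - e := by linarith
  have hQ : 0 < 1 - c * e := by nlinarith
  set k := kk c e with hk
  have hk0 : 0 ≤ k := by rw [hk, kk]; positivity
  constructor
  · have h := sub_one_sub_log_ge ((1 + c) / (1 + e)) (by rw [le_div_iff₀ e1]; linarith)
    rw [Real.log_div c1.ne' e1.ne'] at h
    have l1 := Real.log_le_sub_one_of_pos (show 0 < 2 / (1 + c) by positivity)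
    have l2 := Real.log_le_sub_one_of_pos (show 0 < 2 / (1 + e) by positivity)
    rw [Real.log_div two_ne_zero c1.ne'] at l1
    rw [Real.log_div two_ne_zero e1.ne'] at l2
    have l3 := mul_le_mul_of_nonneg_left (add_le_add l1 l2) hk0
    have e3 : k * (2 / (1 + c) - 1 + (2 / (1 + e) - 1)) =
        ((1 + c) / (1 + e) - 1) ^ 2 / (2 * ((1 + c) / (1 + e))) := by
      rw [hk, kk]; field_simp; ring
    have e4 : (1 + c) / (1 + e) - 1 = (c - e) / (1 + e) := by field_simp; ring
    rw [e3] at l3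
    rw [e4] at h l3
    linarith
  · have hk1 : k ≤ 1 := by
      rw [hk, kk, div_le_one (by linarith)]
      nlinarith [mul_pos c1 c2, mul_pos e1 e2]
    have h := two_log_le ((1 - e) / (1 - c)) (by rw [le_div_iff₀ c2]; linarith)
    rw [Real.log_div e2.ne' c2.ne'] at h
    have l2 := Real.log_le_sub_one_of_pos (show 0 < 2 / (1 - e) by positivity)
    rw [Real.log_div two_ne_zero e2.ne'] at l2
    have l3 := mul_le_mul_of_nonneg_left h (show 0 ≤ 1 - k by linarith)
    have l4 := mul_le_mul_of_nonneg_left l2 (show 0 ≤ 2 * k by linarith)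
    have e3 : (1 - k) * (2 * ((1 - e) / (1 - c) - 1) / ((1 - e) / (1 - c) + 1)) - (c - e) / (1 - e)
        = 2 * k * (2 / (1 - e) - 1) := by
      have : (1 - e) + (1 - c) ≠ 0 := by linarith
      rw [hk, kk]
      field_simp
      ring
    linarith

lemma kk_tanh (C E : ℝ) : kk (Real.tanh C) (Real.tanh E) *
    (4 * Real.cosh (C - E) * Real.cosh C * Real.cosh E) = Real.sinh (C - E) ^ 2 := by
  have hC := (Real.cosh_pos C).ne'
  have hE := (Real.cosh_pos E).ne'
  have hD := (Real.cosh_pos (C - E)).ne'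
  have e1 : Real.tanh C - Real.tanh E = Real.sinh (C - E) / (Real.cosh C * Real.cosh E) := by
    rw [Real.tanh_eq_sinh_div_cosh, Real.tanh_eq_sinh_div_cosh, Real.sinh_sub]
    field_simp
  have e2 : 1 - Real.tanh C * Real.tanh E = Real.cosh (C - E) / (Real.cosh C * Real.cosh E) := by
    rw [Real.tanh_eq_sinh_div_cosh, Real.tanh_eq_sinh_div_cosh, Real.cosh_sub]
    field_simp
  rw [kk, e1, e2]
  field_simp

lemma kk_bounds {c e : ℝ} (hc : c ^ 2 ≤ 1) (he : e ^ 2 ≤ 1) (h : c * e < 1) :
    0 ≤ kk c e ∧ kk c e ≤ 1 / 2 := by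
  rw [kk]
  refine ⟨div_nonneg (sq_nonneg _) (by linarith), ?_⟩
  rw [div_le_iff₀ (by linarith)]
  nlinarith

/-- Half of Lemma J, in log-odds: `KL(P|Q) + k (H a + H b)` on `a ≥ b`. -/
lemma half {A B C E : ℝ} (hAB : B ≤ A) (hCE : E < C) :
    let k := kk (Real.tanh C) (Real.tanh E)
    phiB (Real.tanh C) - Real.tanh C * E + lc E - k * (phiB (Real.tanh C) + phiB (Real.tanh E))
      + ((1 - k) * C - E) * (Real.tanh A - Real.tanh C)
      - g2c C E k * (Real.tanh B - Real.tanh E)
    ≤ phiB (Real.tanh A) - Real.tanh A * B + lc B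
      - k * (phiB (Real.tanh A) + phiB (Real.tanh B)) := by
  intro k
  have hce : Real.tanh E < Real.tanh C := by
    rw [Real.tanh_eq_sinh_div_cosh, Real.tanh_eq_sinh_div_cosh,
      div_lt_div_iff₀ (Real.cosh_pos E) (Real.cosh_pos C)]
    have : 0 < Real.sinh (C - E) := Real.sinh_pos_iff.mpr (by linarith)
    rw [Real.sinh_sub] at this
    linarith
  have hc := abs_tanh_lt C
  have he := abs_tanh_lt E
  have hkpos : 0 < k := by
    refine div_pos (pow_pos (sub_pos.mpr hce) 2) ?_
    nlinarith [hc.1, hc.2, he.1, he.2]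
  have hk2 : k ≤ 1 / 2 := (kk_bounds (by nlinarith) (by nlinarith) (by nlinarith)).2
  have hm : 0 < 1 - k := by linarith
  have hkv : k * (4 * Real.cosh (C - E) * Real.cosh C * Real.cosh E) = Real.sinh (C - E) ^ 2 :=
    kk_tanh C E
  obtain ⟨q1, q2⟩ := corners hc.2 he.1 hce
  have q3 : (Real.tanh C - Real.tanh E) * Real.cosh E ^ 2 =
      (Real.tanh C - Real.tanh E) / ((1 + Real.tanh E) * (1 - Real.tanh E)) := by
    rw [show (1 + Real.tanh E) * (1 - Real.tanh E) = 1 - Real.tanh E ^ 2 by ring, one_sub_tanh_sq]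
    field_simp
  rw [log_one_add_tanh, log_one_add_tanh] at q1
  rw [log_one_sub_tanh, log_one_sub_tanh] at q2
  have e1 : 1 + Real.tanh E ≠ 0 := by linarith
  have e2 : 1 - Real.tanh E ≠ 0 := by linarith
  set c := Real.tanh C
  set e := Real.tanh E
  have hxE : xf C E k E = C := by simp [xf]
  have hval : phiB c - c * E + lc E - k * (phiB c + phiB e)
      + ((1 - k) * C - E) * (Real.tanh A - c) - g2c C E k * (Real.tanh B - e) =
      phF C E k E + ((1 - k) * C - E) * Real.tanh A - g2c C E k * Real.tanh B := by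
    rw [phF, hxE, phiB_tanh, phiB_tanh]
    ring
  have p1 : (c - e) / ((1 + e) * (1 - e)) * (1 - e) = (c - e) / (1 + e) := by field_simp
  have p2 : (c - e) / ((1 + e) * (1 - e)) * (1 + e) = (c - e) / (1 - e) := by field_simp
  have hR : phF C E k E ≤ E - (1 - k) * C - 2 * k * Real.log 2 + g2c C E k := by
    rw [phF, hxE, g2c, q3]
    linarith [p1]
  have hR' : phF C E k E ≤ (1 - k) * C - E - 2 * k * Real.log 2 - g2c C E k := by
    rw [phF, hxE, g2c, q3]
    linarith [p2]
  have hdiag : ∀ t, phF C E k E ≤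
      -2 * k * phiB (Real.tanh t) - ((1 - k) * C - E - g2c C E k) * Real.tanh t := by
    intro t
    have h1 := phiB_le t
    have h2 := abs_tanh_lt t
    have h3 := mul_le_mul_of_nonneg_left h1 hkpos.le
    rcases le_total 0 ((1 - k) * C - E - g2c C E k) with hS | hS
    · have h4 := mul_nonneg hS (sub_nonneg.mpr h2.2.le)
      linarith
    · have h4 := mul_nonneg (neg_nonneg.mpr hS) (show 0 ≤ 1 + Real.tanh t by linarith)
      linarith
  rw [hval]
  set X := xf C E k B with hX
  have hmX : (1 - k) * X = (1 - k) * C + (B - E) := by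
    rw [hX, xf]; field_simp
  by_cases hcase : B < X
  · have hL : phF C E k E ≤ phF C E k (E - (C - E) * (1 - k) / k) := by
      set B0 := E - (C - E) * (1 - k) / k with hB0
      have hx0 : xf C E k B0 = B0 := by rw [hB0, xf]; field_simp; ring
      have h0 : (1 - k) * B0 = (1 - k) * C + (B0 - E) := by rw [hB0]; field_simp; ring
      refine (hdiag B0).trans (le_of_eq ?_)
      rw [phF, hx0, phiB_tanh]
      linear_combination (Real.tanh B0) * h0
    have h1 := self_le_phF hkpos hk2 hCE hkv hL hR hcase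
    have h2 := mul_le_mul_of_nonneg_left (phiB_gibbs A X) hm.le
    simp only [phF, ← hX] at h1 ⊢
    rw [phiB_tanh B]
    have h3 := congrArg (Real.tanh A * ·) hmX
    linarith
  · have hab : Real.tanh B ≤ Real.tanh A := by
      rw [Real.tanh_eq_sinh_div_cosh, Real.tanh_eq_sinh_div_cosh,
        div_le_div_iff₀ (Real.cosh_pos B) (Real.cosh_pos A)]
      have : 0 ≤ Real.sinh (A - B) := Real.sinh_nonneg_iff.mpr (by linarith)
      rw [Real.sinh_sub] at this
      linarith
    have h1 := hdiag B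
    have h2 := mul_le_mul_of_nonneg_left (phiB_gibbs A B) hm.le
    have h3 : 0 ≤ (Real.tanh A - Real.tanh B) * ((1 - k) * (B - X)) :=
      mul_nonneg (sub_nonneg.mpr hab) (mul_nonneg hm.le (by linarith [not_lt.mp hcase]))
    rw [phiB_tanh B] at h1 ⊢
    have h4 := congrArg ((Real.tanh A - Real.tanh B) * ·) hmX
    linarith

lemma gG_eq (k A B : ℝ) : gG k (Real.tanh A) (Real.tanh B) =
    ((phiB (Real.tanh A) - Real.tanh A * B + lc B) +
      (phiB (Real.tanh B) - Real.tanh B * A + lc A)) / 4 +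
      k * ((Real.log 2 - phiB (Real.tanh A)) + (Real.log 2 - phiB (Real.tanh B))) / 2 := by
  rw [gG, jJ, Real.artanh_tanh, Real.artanh_tanh, phiB_tanh, phiB_tanh]
  ring

lemma kk_comm (c e : ℝ) : kk e c = kk c e := by rw [kk, kk, mul_comm e c]; ring

lemma ordered {A B C E : ℝ} (hAB : B ≤ A) (hCE : E < C) :
    gG (kk (Real.tanh C) (Real.tanh E)) (Real.tanh C) (Real.tanh E)
      + gJ (Real.tanh C) (Real.tanh E) * (Real.tanh A - Real.tanh C)
      + gJ (Real.tanh E) (Real.tanh C) * (Real.tanh B - Real.tanh E)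
      ≤ gG (kk (Real.tanh C) (Real.tanh E)) (Real.tanh A) (Real.tanh B) := by
  have h1 := half hAB hCE
  have h2 := half (neg_le_neg hAB) (neg_lt_neg hCE)
  have hk : kk (Real.tanh (-E)) (Real.tanh (-C)) = kk (Real.tanh C) (Real.tanh E) := by
    rw [Real.tanh_neg, Real.tanh_neg, kk, kk]; ring_nf
  simp only [hk] at h1 h2
  simp only [g2c, Real.tanh_neg, phiB_neg, lc_neg, Real.cosh_neg] at h1 h2
  rw [gG_eq, gG_eq, gJ, gJ, kk_comm (Real.tanh C) (Real.tanh E), Real.artanh_tanh,
    Real.artanh_tanh, one_sub_tanh_sq, one_sub_tanh_sq, div_div_eq_mul_div, div_one,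
    div_div_eq_mul_div, div_one]
  nlinarith [h1, h2]

/-- **Lemma J.** -/
theorem lemmaJ {a b c e : ℝ} (ha : a ∈ Ioo (-1 : ℝ) 1) (hb : b ∈ Ioo (-1 : ℝ) 1)
    (hc : c ∈ Ioo (-1 : ℝ) 1) (he : e ∈ Ioo (-1 : ℝ) 1) :
    gG (kk c e) c e + gJ c e * (a - c) + gJ e c * (b - e) ≤ gG (kk c e) a b := by
  obtain ⟨A, rfl⟩ : ∃ A, Real.tanh A = a := ⟨_, Real.tanh_artanh ha⟩
  obtain ⟨B, rfl⟩ : ∃ B, Real.tanh B = b := ⟨_, Real.tanh_artanh hb⟩
  obtain ⟨C, rfl⟩ : ∃ C, Real.tanh C = c := ⟨_, Real.tanh_artanh hc⟩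
  obtain ⟨E, rfl⟩ : ∃ E, Real.tanh E = e := ⟨_, Real.tanh_artanh he⟩
  have hmono : ∀ x y : ℝ, x ≤ y → Real.tanh x ≤ Real.tanh y := by
    intro x y hxy
    rw [Real.tanh_eq_sinh_div_cosh, Real.tanh_eq_sinh_div_cosh,
      div_le_div_iff₀ (Real.cosh_pos x) (Real.cosh_pos y)]
    have : 0 ≤ Real.sinh (y - x) := Real.sinh_nonneg_iff.mpr (by linarith)
    rw [Real.sinh_sub] at this
    linarith
  have hdiff : ∀ x y : ℝ, y ≤ x →
      gJ (Real.tanh y) (Real.tanh x) ≤ gJ (Real.tanh x) (Real.tanh y) := by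
    intro x y hxy
    have hk := kk_bounds (c := Real.tanh x) (e := Real.tanh y)
      (by nlinarith [abs_tanh_lt x]) (by nlinarith [abs_tanh_lt y])
      (by nlinarith [abs_tanh_lt x, abs_tanh_lt y])
    rw [gJ, gJ, Real.artanh_tanh, Real.artanh_tanh, kk_comm (Real.tanh x) (Real.tanh y),
      one_sub_tanh_sq, one_sub_tanh_sq]
    have t := hmono y x hxy
    have p1 : 0 ≤ (Real.tanh x - Real.tanh y) * Real.cosh x ^ 2 :=
      mul_nonneg (by linarith) (sq_nonneg _)
    have p2 : 0 ≤ (Real.tanh x - Real.tanh y) * Real.cosh y ^ 2 :=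
      mul_nonneg (by linarith) (sq_nonneg _)
    have p3 : 0 ≤ (1 - kk (Real.tanh x) (Real.tanh y)) * (x - y) :=
      mul_nonneg (by linarith [hk.2]) (by linarith)
    simp only [div_div_eq_mul_div, div_one]
    nlinarith
  have hsymm : ∀ k u v, gG k u v = gG k v u := fun k u v => by rw [gG, gG, jJ, jJ]; ring
  rcases lt_trichotomy E C with hCE | rfl | hCE
  · rcases le_total B A with hAB | hAB
    · exact ordered hAB hCE
    · have h := ordered hAB hCE
      rw [hsymm _ (Real.tanh B)] at h
      have hd := mul_nonneg (sub_nonneg.mpr (hdiff C E hCE.le)) (sub_nonneg.mpr (hmono A B hAB))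
      nlinarith
  · have hJ : 0 ≤ jJ (Real.tanh A) (Real.tanh B) := by
      rw [jJ, Real.artanh_tanh, Real.artanh_tanh]
      rcases le_total A B with hAB | hAB
      · exact div_nonneg (mul_nonneg_of_nonpos_of_nonpos (by linarith [hmono A B hAB])
          (by linarith)) (by norm_num)
      · exact div_nonneg (mul_nonneg (by linarith [hmono B A hAB]) (by linarith)) (by norm_num)
    simp only [gG, gJ, kk, sub_self]
    simp [jJ] at hJ ⊢
    linarith
  · rw [← kk_comm]
    rcases le_total A B with hAB | hAB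
    · have h := ordered hAB hCE
      rw [hsymm _ (Real.tanh E), hsymm _ (Real.tanh B)] at h
      linarith
    · have h := ordered hAB hCE
      rw [hsymm _ (Real.tanh E)] at h
      have hd := mul_nonneg (sub_nonneg.mpr (hdiff E C hCE.le)) (sub_nonneg.mpr (hmono B A hAB))
      nlinarith

end Vale.Agent.P322.JLemma
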