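import Mathlib

/-! Box inequalities for `ElemOne` at means `m ≥ 3/8`: polynomials in
`e = ent m / log 2`, `t = 1 - entBar / ent m` and `w = (entBar - h) / ent m`. -/

noncomputable section

namespace Vale.Agent.P322

/-- Denominator of the rational bound. -/
def highDen (e t w : ℝ) : ℝ := 6 * (e * (1 - t) * w + (1 - t - w)) + 4 * (e * t * (1 + w))

/-- The bracket of the rational bound; `g` is the slope of the correction term. -/
def highBr (k0 k1 k2 be g e t w : ℝ) : ℝ :=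
  k0 * (e * (1 - t) * w + (1 - t - w)) + k1 * (e * (1 - t) * w) - k2 * (1 - t - w)
    + be * (1 + w) * (1 - t) * w - 129 / 200 * w ^ 2 * g

/-- The polynomial whose nonnegativity gives `ElemOne` on a box. -/
def highPoly (k0 k1 k2 be g e t w : ℝ) : ℝ :=
  highBr k0 k1 k2 be g e t w * highDen e t w + 3 * be * (1 + w) ^ 2 * (1 - t - w) * t
    - 6471 / 10000 * (1 + w) * (6 * (e * (1 - t) * w + (1 - t - w)) + e * t * (1 + w))

/-- The slope of `highPoly` in `e`. -/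
def highSlope (k0 k1 k2 be g e t w : ℝ) : ℝ :=
  (k0 + k1) * ((1 - t) * w) * highDen e t w
    + highBr k0 k1 k2 be g e t w * (6 * ((1 - t) * w) + 4 * (t * (1 + w)))
    - 6471 / 10000 * (1 + w) * (6 * ((1 - t) * w) + t * (1 + w))

/-- A box passes if the polynomial is nonnegative at every `e ≥ e1`, for both branches of the
correction term. -/
def HighBox (e1 t2 k0 k1 k2 be : ℝ) : Prop :=
  ∀ e t w : ℝ, e1 ≤ e → 0 ≤ t → t ≤ t2 → 0 ≤ w → w ≤ 1 - t →
    0 ≤ highPoly k0 k1 k2 be ((1 - t) * (2 * be + 1) - 1 - (1 - t)) e t w ∧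
      0 ≤ highPoly k0 k1 k2 be 0 e t w

lemma highPoly_expand (k0 k1 k2 be g e e1 t w : ℝ) :
    highPoly k0 k1 k2 be g e t w = highPoly k0 k1 k2 be g e1 t w
      + (e - e1) * highSlope k0 k1 k2 be g e1 t w
      + (e - e1) ^ 2 * ((k0 + k1) * ((1 - t) * w) * (6 * ((1 - t) * w) + 4 * (t * (1 + w)))) := by
  unfold highPoly highSlope highBr highDen
  ring

lemma highPoly_nonneg {k0 k1 k2 be g e e1 t w : ℝ} (hk : 0 ≤ k0 + k1) (he : e1 ≤ e) (ht : 0 ≤ t)
    (hw : 0 ≤ w) (hwt : w ≤ 1 - t) (h0 : 0 ≤ highPoly k0 k1 k2 be g e1 t w)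
    (h1 : 0 ≤ highSlope k0 k1 k2 be g e1 t w) : 0 ≤ highPoly k0 k1 k2 be g e t w := by
  rw [highPoly_expand k0 k1 k2 be g e e1 t w]
  have hb : 0 ≤ (1 - t) * w := mul_nonneg (by linarith) hw
  have hd : 0 ≤ e - e1 := sub_nonneg.2 he
  positivity

lemma highBox0 : HighBox (22/25) (117/250) (9953/10000) (354/625) (11/125) (41/125) := by
  intro e t w he ht0 ht hw0 hw
  have T1 := sub_nonneg.2 ht
  have W1 := sub_nonneg.2 hw
  refine ⟨highPoly_nonneg (by norm_num) he ht0 hw0 hw ?_ ?_,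
    highPoly_nonneg (by norm_num) he ht0 hw0 hw ?_ ?_⟩
  all_goals
    simp only [highPoly, highSlope, highBr, highDen]
    nlinarith [mul_nonneg ht0 hw0, mul_nonneg T1 hw0, mul_nonneg T1 W1, mul_nonneg W1 hw0,
      mul_nonneg ht0 W1, mul_nonneg ht0 T1, mul_nonneg (mul_nonneg ht0 hw0) W1,
      mul_nonneg (mul_nonneg T1 hw0) W1, sq_nonneg w, sq_nonneg (w - 2 / 5),
      mul_nonneg hw0 (sq_nonneg (w - 2 / 5)), mul_nonneg W1 (sq_nonneg (w - 2 / 5)),
      mul_nonneg T1 (sq_nonneg (w - 2 / 5)), mul_nonneg ht0 (sq_nonneg w)]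

lemma highBox1 : HighBox (173/200) (9/20) (9711/10000) (2763/5000) (859/10000) (89/250) := by
  intro e t w he ht0 ht hw0 hw
  have T1 := sub_nonneg.2 ht
  have W1 := sub_nonneg.2 hw
  refine ⟨highPoly_nonneg (by norm_num) he ht0 hw0 hw ?_ ?_,
    highPoly_nonneg (by norm_num) he ht0 hw0 hw ?_ ?_⟩
  all_goals
    simp only [highPoly, highSlope, highBr, highDen]
    nlinarith [mul_nonneg ht0 hw0, mul_nonneg T1 hw0, mul_nonneg T1 W1, mul_nonneg W1 hw0,
      mul_nonneg ht0 W1, mul_nonneg ht0 T1, mul_nonneg (mul_nonneg ht0 hw0) W1,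
      mul_nonneg (mul_nonneg T1 hw0) W1, sq_nonneg w, sq_nonneg (w - 2 / 5),
      mul_nonneg hw0 (sq_nonneg (w - 2 / 5)), mul_nonneg W1 (sq_nonneg (w - 2 / 5)),
      mul_nonneg T1 (sq_nonneg (w - 2 / 5)), mul_nonneg ht0 (sq_nonneg w)]

lemma highBox2 : HighBox (841/1000) (54/125) (1177/1250) (5129/10000) (153/2500) (48/125) := by
  intro e t w he ht0 ht hw0 hw
  have T1 := sub_nonneg.2 ht
  have W1 := sub_nonneg.2 hw
  refine ⟨highPoly_nonneg (by norm_num) he ht0 hw0 hw ?_ ?_,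
    highPoly_nonneg (by norm_num) he ht0 hw0 hw ?_ ?_⟩
  all_goals
    simp only [highPoly, highSlope, highBr, highDen]
    nlinarith [mul_nonneg ht0 hw0, mul_nonneg T1 hw0, mul_nonneg T1 W1, mul_nonneg W1 hw0,
      mul_nonneg ht0 W1, mul_nonneg ht0 T1, mul_nonneg (mul_nonneg ht0 hw0) W1,
      mul_nonneg (mul_nonneg T1 hw0) W1, sq_nonneg w, sq_nonneg (w - 2 / 5),
      mul_nonneg hw0 (sq_nonneg (w - 2 / 5)), mul_nonneg W1 (sq_nonneg (w - 2 / 5)),
      mul_nonneg T1 (sq_nonneg (w - 2 / 5)), mul_nonneg ht0 (sq_nonneg w)]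

lemma highBox3 : HighBox (81/100) (409/1000) (569/625) (4959/10000) (37/625) (213/500) := by
  intro e t w he ht0 ht hw0 hw
  have T1 := sub_nonneg.2 ht
  have W1 := sub_nonneg.2 hw
  refine ⟨highPoly_nonneg (by norm_num) he ht0 hw0 hw ?_ ?_,
    highPoly_nonneg (by norm_num) he ht0 hw0 hw ?_ ?_⟩
  all_goals
    simp only [highPoly, highSlope, highBr, highDen]
    nlinarith [mul_nonneg ht0 hw0, mul_nonneg T1 hw0, mul_nonneg T1 W1, mul_nonneg W1 hw0,
      mul_nonneg ht0 W1, mul_nonneg ht0 T1, mul_nonneg (mul_nonneg ht0 hw0) W1,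
      mul_nonneg (mul_nonneg T1 hw0) W1, sq_nonneg w, sq_nonneg (w - 2 / 5),
      mul_nonneg hw0 (sq_nonneg (w - 2 / 5)), mul_nonneg W1 (sq_nonneg (w - 2 / 5)),
      mul_nonneg T1 (sq_nonneg (w - 2 / 5)), mul_nonneg ht0 (sq_nonneg w)]

lemma highBox4 : HighBox (96/125) (48/125) (8763/10000) (284/625) (99/2500) (477/1000) := by
  intro e t w he ht0 ht hw0 hw
  have T1 := sub_nonneg.2 ht
  have W1 := sub_nonneg.2 hw
  refine ⟨highPoly_nonneg (by norm_num) he ht0 hw0 hw ?_ ?_,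
    highPoly_nonneg (by norm_num) he ht0 hw0 hw ?_ ?_⟩
  all_goals
    simp only [highPoly, highSlope, highBr, highDen]
    nlinarith [mul_nonneg ht0 hw0, mul_nonneg T1 hw0, mul_nonneg T1 W1, mul_nonneg W1 hw0,
      mul_nonneg ht0 W1, mul_nonneg ht0 T1, mul_nonneg (mul_nonneg ht0 hw0) W1,
      mul_nonneg (mul_nonneg T1 hw0) W1, sq_nonneg w, sq_nonneg (w - 2 / 5),
      mul_nonneg hw0 (sq_nonneg (w - 2 / 5)), mul_nonneg W1 (sq_nonneg (w - 2 / 5)),
      mul_nonneg T1 (sq_nonneg (w - 2 / 5)), mul_nonneg ht0 (sq_nonneg w)]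

lemma highBox5 : HighBox (701/1000) (71/200) (8359/10000) (963/2500) (17/1250) (109/200) := by
  intro e t w he ht0 ht hw0 hw
  have T1 := sub_nonneg.2 ht
  have W1 := sub_nonneg.2 hw
  refine ⟨highPoly_nonneg (by norm_num) he ht0 hw0 hw ?_ ?_,
    highPoly_nonneg (by norm_num) he ht0 hw0 hw ?_ ?_⟩
  all_goals
    simp only [highPoly, highSlope, highBr, highDen]
    nlinarith [mul_nonneg ht0 hw0, mul_nonneg T1 hw0, mul_nonneg T1 W1, mul_nonneg W1 hw0,
      mul_nonneg ht0 W1, mul_nonneg ht0 T1, mul_nonneg (mul_nonneg ht0 hw0) W1,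
      mul_nonneg (mul_nonneg T1 hw0) W1, sq_nonneg w, sq_nonneg (w - 2 / 5),
      mul_nonneg hw0 (sq_nonneg (w - 2 / 5)), mul_nonneg W1 (sq_nonneg (w - 2 / 5)),
      mul_nonneg T1 (sq_nonneg (w - 2 / 5)), mul_nonneg ht0 (sq_nonneg w)]

lemma highBox6 : HighBox (609/1000) (159/500) (1991/2500) (3419/10000) (29/5000) (653/1000) := by
  intro e t w he ht0 ht hw0 hw
  have T1 := sub_nonneg.2 ht
  have W1 := sub_nonneg.2 hw
  refine ⟨highPoly_nonneg (by norm_num) he ht0 hw0 hw ?_ ?_,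
    highPoly_nonneg (by norm_num) he ht0 hw0 hw ?_ ?_⟩
  all_goals
    simp only [highPoly, highSlope, highBr, highDen]
    nlinarith [mul_nonneg ht0 hw0, mul_nonneg T1 hw0, mul_nonneg T1 W1, mul_nonneg W1 hw0,
      mul_nonneg ht0 W1, mul_nonneg ht0 T1, mul_nonneg (mul_nonneg ht0 hw0) W1,
      mul_nonneg (mul_nonneg T1 hw0) W1, sq_nonneg w, sq_nonneg (w - 2 / 5),
      mul_nonneg hw0 (sq_nonneg (w - 2 / 5)), mul_nonneg W1 (sq_nonneg (w - 2 / 5)),
      mul_nonneg T1 (sq_nonneg (w - 2 / 5)), mul_nonneg ht0 (sq_nonneg w)]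

lemma highBox7 : HighBox (257/500) (139/500) (7671/10000) (3037/10000) (7/5000) (4/5) := by
  intro e t w he ht0 ht hw0 hw
  have T1 := sub_nonneg.2 ht
  have W1 := sub_nonneg.2 hw
  refine ⟨highPoly_nonneg (by norm_num) he ht0 hw0 hw ?_ ?_,
    highPoly_nonneg (by norm_num) he ht0 hw0 hw ?_ ?_⟩
  all_goals
    simp only [highPoly, highSlope, highBr, highDen]
    nlinarith [mul_nonneg ht0 hw0, mul_nonneg T1 hw0, mul_nonneg T1 W1, mul_nonneg W1 hw0,
      mul_nonneg ht0 W1, mul_nonneg ht0 T1, mul_nonneg (mul_nonneg ht0 hw0) W1,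
      mul_nonneg (mul_nonneg T1 hw0) W1, sq_nonneg w, sq_nonneg (w - 2 / 5),
      mul_nonneg hw0 (sq_nonneg (w - 2 / 5)), mul_nonneg W1 (sq_nonneg (w - 2 / 5)),
      mul_nonneg T1 (sq_nonneg (w - 2 / 5)), mul_nonneg ht0 (sq_nonneg w)]

lemma highBox8 : HighBox (48/125) (49/200) (7377/10000) (2661/10000) 0 (24/25) := by
  intro e t w he ht0 ht hw0 hw
  have T1 := sub_nonneg.2 ht
  have W1 := sub_nonneg.2 hw
  refine ⟨highPoly_nonneg (by norm_num) he ht0 hw0 hw ?_ ?_,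
    highPoly_nonneg (by norm_num) he ht0 hw0 hw ?_ ?_⟩
  all_goals
    simp only [highPoly, highSlope, highBr, highDen]
    nlinarith [mul_nonneg ht0 hw0, mul_nonneg T1 hw0, mul_nonneg T1 W1, mul_nonneg W1 hw0,
      mul_nonneg ht0 W1, mul_nonneg ht0 T1, mul_nonneg (mul_nonneg ht0 hw0) W1,
      mul_nonneg (mul_nonneg T1 hw0) W1, sq_nonneg w, sq_nonneg (w - 2 / 5),
      mul_nonneg hw0 (sq_nonneg (w - 2 / 5)), mul_nonneg W1 (sq_nonneg (w - 2 / 5)),
      mul_nonneg T1 (sq_nonneg (w - 2 / 5)), mul_nonneg ht0 (sq_nonneg w)]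

lemma highBox9 : HighBox 0 (207/1000) (433/625) (2499/10000) 0 (151/125) := by
  intro e t w he ht0 ht hw0 hw
  have T1 := sub_nonneg.2 ht
  have W1 := sub_nonneg.2 hw
  refine ⟨highPoly_nonneg (by norm_num) he ht0 hw0 hw ?_ ?_,
    highPoly_nonneg (by norm_num) he ht0 hw0 hw ?_ ?_⟩
  all_goals
    simp only [highPoly, highSlope, highBr, highDen]
    nlinarith [mul_nonneg ht0 hw0, mul_nonneg T1 hw0, mul_nonneg T1 W1, mul_nonneg W1 hw0,
      mul_nonneg ht0 W1, mul_nonneg ht0 T1, mul_nonneg (mul_nonneg ht0 hw0) W1,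
      mul_nonneg (mul_nonneg T1 hw0) W1, sq_nonneg w, sq_nonneg (w - 2 / 5),
      mul_nonneg hw0 (sq_nonneg (w - 2 / 5)), mul_nonneg W1 (sq_nonneg (w - 2 / 5)),
      mul_nonneg T1 (sq_nonneg (w - 2 / 5)), mul_nonneg ht0 (sq_nonneg w)]

end Vale.Agent.P322
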