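import Vale.Agent.P322.Low

/-! The slope of `ent m - entBar m d` against `ellGap m d` for `m ≥ 1/3`, and reduction of the
box parameters of `ElemOne` to their values at end points. -/

noncomputable section

namespace Vale.Agent.P322

open Real Set

/-- The drop `ent m - entBar m d` at the corner `d = 1 - m`. -/
def highDc (m : ℝ) : ℝ := log 2 + (m * log m - (1 + m) * log (1 + m)) / 2

/-- `ellGap m d` at the corner `d = 1 - m`. -/
def highGc (m : ℝ) : ℝ := log (1 + m) - log 2 - log m / 2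

lemma high_ent_eq {m : ℝ} (hm : m ∈ Ioo (-1:ℝ) 1) :
    ent m = log 2 - ((1 + m) * log (1 + m) + (1 - m) * log (1 - m)) / 2 := by
  have h1 : (0:ℝ) < 1 + m := by linarith [hm.1]
  have h2 : (0:ℝ) < 1 - m := by linarith [hm.2]
  unfold ent
  rw [binEntropy_eq_negMulLog_add_negMulLog_one_sub, show 1 - (1 + m) / 2 = (1 - m) / 2 by ring]
  simp only [negMulLog]
  rw [log_div h1.ne' (by norm_num), log_div h2.ne' (by norm_num)]
  ring

lemma high_corner_ent {m : ℝ} (h0 : 0 < m) (h1 : m < 1) :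
    ent m - entBar m (1 - m) = highDc m := by
  have hc : ent (m - (1 - m)) = -(m * log m) - (1 - m) * log (1 - m) := by
    unfold ent
    rw [show (1 + (m - (1 - m))) / 2 = m by ring, binEntropy_eq_negMulLog_add_negMulLog_one_sub]
    simp only [negMulLog]
    ring
  rw [entBar, show m + (1 - m) = 1 by ring, ent_one, hc,
    high_ent_eq ⟨by linarith, h1⟩]
  unfold highDc
  ring

lemma high_corner_gap {m : ℝ} (h0 : 0 < m) : ellGap m (1 - m) = highGc m := by
  unfold ellGap highGc
  rw [show m + (1 - m) = 1 by ring, ell_eq (show -1 < (1:ℝ) by norm_num),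
    ell_eq (show -1 < m - (1 - m) by linarith), ell_eq (show -1 < m by linarith),
    show (1:ℝ) + 1 = 2 by norm_num, show 1 + (m - (1 - m)) = 2 * m by ring,
    log_mul (by norm_num) h0.ne']
  ring

/-- Derivative of twice `ent m - entBar m d`. -/
def highS (m d : ℝ) : ℝ := artanh (m + d) - artanh (m - d)

/-- The ratio of the derivatives of `ent m - entBar m d` and of `ellGap m d`. -/
def highR (m d : ℝ) : ℝ := highS m d * ((1 + m) ^ 2 - d ^ 2) / (2 * d)

lemma high_memP {m d : ℝ} (hm : 0 ≤ m) (hd0 : 0 ≤ d) (hd : d < 1 - m) :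
    m + d ∈ Ioo (-1:ℝ) 1 ∧ m - d ∈ Ioo (-1:ℝ) 1 :=
  ⟨⟨by linarith, by linarith⟩, ⟨by linarith, by linarith⟩⟩

lemma high_hasDerivAt_drop {m d : ℝ} (hm : 0 ≤ m) (hd0 : 0 ≤ d) (hd : d < 1 - m) :
    HasDerivAt (fun x => ent m - entBar m x) (highS m d / 2) d := by
  obtain ⟨hp, hn⟩ := high_memP hm hd0 hd
  have a := (hasDerivAt_ent hp).comp d ((hasDerivAt_id d).const_add m)
  have b := (hasDerivAt_ent hn).comp d ((hasDerivAt_id d).const_sub m)
  refine (((a.add b).div_const 2).const_sub (ent m)).congr_deriv ?_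
  unfold highS; ring

lemma high_hasDerivAt_gap {m d : ℝ} (hm : 0 ≤ m) (hd0 : 0 ≤ d) (hd : d < 1 - m) :
    HasDerivAt (fun x => ellGap m x) (d / ((1 + m) ^ 2 - d ^ 2)) d := by
  have h1 : (1 + (m + d)) / 2 ≠ 0 := by linarith
  have h2 : (1 + (m - d)) / 2 ≠ 0 := by linarith
  have a := ((((hasDerivAt_id d).const_add m).const_add 1).div_const 2).log h1
  have b := ((((hasDerivAt_id d).const_sub m).const_add 1).div_const 2).log h2
  refine (((a.neg.add b.neg).div_const 2).sub_const (ell m)).congr_deriv ?_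
  have e1 : 1 + (m + d) ≠ 0 := by linarith
  have e2 : 1 + (m - d) ≠ 0 := by linarith
  have e3 : (1 + m) ^ 2 - d ^ 2 ≠ 0 := by
    rw [show (1 + m) ^ 2 - d ^ 2 = (1 + (m + d)) * (1 + (m - d)) by ring]
    exact mul_ne_zero e1 e2
  simp only [id]
  field_simp
  ring

/-- First derivative of `highS`. -/
def highS1 (m d : ℝ) : ℝ := 1 / (1 - (m + d) ^ 2) + 1 / (1 - (m - d) ^ 2)

/-- Second derivative of `highS`. -/
def highS2 (m d : ℝ) : ℝ :=
  2 * (m + d) / (1 - (m + d) ^ 2) ^ 2 - 2 * (m - d) / (1 - (m - d) ^ 2) ^ 2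

lemma high_hasDerivAt_S {m d : ℝ} (hm : 0 ≤ m) (hd0 : 0 ≤ d) (hd : d < 1 - m) :
    HasDerivAt (fun x => highS m x) (highS1 m d) d := by
  obtain ⟨hp, hn⟩ := high_memP hm hd0 hd
  have a := (hasDerivAt_artanh hp).comp d ((hasDerivAt_id d).const_add m)
  have b := (hasDerivAt_artanh hn).comp d ((hasDerivAt_id d).const_sub m)
  refine (a.sub b).congr_deriv ?_
  unfold highS1; ring

lemma high_hasDerivAt_S1 {m d : ℝ} (hm : 0 ≤ m) (hd0 : 0 ≤ d) (hd : d < 1 - m) :
    HasDerivAt (fun x => highS1 m x) (highS2 m d) d := by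
  obtain ⟨hp, hn⟩ := high_memP hm hd0 hd
  have e1 : 1 - (m + d) ^ 2 ≠ 0 := by nlinarith [hp.1, hp.2]
  have e2 : 1 - (m - d) ^ 2 ≠ 0 := by nlinarith [hn.1, hn.2]
  have qa : HasDerivAt (fun x => 1 - (m + x) ^ 2) (-(2 * (m + d))) d := by
    have h := (((hasDerivAt_id' d).const_add m).fun_pow 2).const_sub 1
    refine h.congr_deriv ?_
    push_cast; ring
  have qb : HasDerivAt (fun x => 1 - (m - x) ^ 2) (2 * (m - d)) d := by
    have h := (((hasDerivAt_id' d).const_sub m).fun_pow 2).const_sub 1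
    refine h.congr_deriv ?_
    push_cast; ring
  have a := qa.fun_inv e1
  have b := qb.fun_inv e2
  have hf : (fun x => highS1 m x) = fun x => (1 - (m + x) ^ 2)⁻¹ + (1 - (m - x) ^ 2)⁻¹ := by
    funext x; simp [highS1]
  rw [hf]
  refine (a.add b).congr_deriv ?_
  unfold highS2
  field_simp
  ring

lemma high_S2_bound {m d : ℝ} (hm : 1 / 3 ≤ m) (hd0 : 0 ≤ d) (hd : d < 1 - m) :
    0 ≤ highS2 m d ∧ 6 * d * highS1 m d ≤ highS2 m d * ((1 + m) ^ 2 - d ^ 2) := by
  obtain ⟨hp, hn⟩ := high_memP (show (0:ℝ) ≤ m by linarith) hd0 hd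
  obtain ⟨A, hA⟩ : ∃ A, A = 1 - (m + d) ^ 2 := ⟨_, rfl⟩
  obtain ⟨B, hB⟩ : ∃ B, B = 1 - (m - d) ^ 2 := ⟨_, rfl⟩
  have A0 : 0 < A := by rw [hA]; nlinarith [hp.1, hp.2]
  have B0 : 0 < B := by rw [hB]; nlinarith [hn.1, hn.2]
  have e2 : highS2 m d
      = 2 * d * (4 * m ^ 2 * (A + B) + A ^ 2 + B ^ 2) / (A ^ 2 * B ^ 2) := by
    unfold highS2
    rw [← hA, ← hB]
    field_simp
    rw [hA, hB]; ring
  have e1 : highS1 m d = (A + B) / (A * B) := by
    unfold highS1; rw [← hA, ← hB]; field_simp; ring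
  rw [e2, e1]
  refine ⟨by positivity, ?_⟩
  have q : (1 - m) ^ 2 - d ^ 2 ≥ 0 := by nlinarith
  have key : 3 * (A + B) * ((1 - m) ^ 2 - d ^ 2) ≤ 4 * m ^ 2 * (A + B) + A ^ 2 + B ^ 2 := by
    have h1 : (A + B) * (3 * ((1 - m) ^ 2 - d ^ 2)) ≤ (A + B) * (4 * m ^ 2 + (A + B) / 2) := by
      refine mul_le_mul_of_nonneg_left ?_ (by linarith)
      rw [hA, hB]; nlinarith
    nlinarith [sq_nonneg (A - B)]
  have hAB : A * B = ((1 + m) ^ 2 - d ^ 2) * ((1 - m) ^ 2 - d ^ 2) := by rw [hA, hB]; ring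
  have h2 := mul_le_mul_of_nonneg_left key
    (show 0 ≤ 2 * d * ((1 + m) ^ 2 - d ^ 2) / (A ^ 2 * B ^ 2) from
      div_nonneg (mul_nonneg (by linarith) (by nlinarith)) (by positivity))
  calc 6 * d * ((A + B) / (A * B)) = 2 * d * ((1 + m) ^ 2 - d ^ 2) / (A ^ 2 * B ^ 2)
        * (3 * (A + B) * ((1 - m) ^ 2 - d ^ 2)) := by
          field_simp; linear_combination (6 * d) * hAB
    _ ≤ _ := h2
    _ = _ := by ring

lemma high_S_le {m d : ℝ} (hm : 1 / 3 ≤ m) (hd0 : 0 ≤ d) (hd : d < 1 - m) :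
    highS m d ≤ d * highS1 m d := by
  have hm0 : (0:ℝ) ≤ m := by linarith
  have hder : ∀ x ∈ Icc 0 d,
      HasDerivAt (fun x => x * highS1 m x - highS m x) (x * highS2 m x) x := fun x hx => by
    refine (((hasDerivAt_id x).mul (high_hasDerivAt_S1 hm0 hx.1 (by linarith [hx.2]))).sub
      (high_hasDerivAt_S hm0 hx.1 (by linarith [hx.2]))).congr_deriv ?_
    simp
  have h := monotoneOn_of_hasDerivWithinAt_nonneg (convex_Icc 0 d)
    (fun x hx => (hder x hx).continuousAt.continuousWithinAt)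
    (fun x hx => (hder x (interior_subset hx)).hasDerivWithinAt)
    (fun x hx => mul_nonneg (interior_subset hx).1
      (high_S2_bound hm (interior_subset hx).1 (by linarith [(interior_subset hx).2])).1)
    (left_mem_Icc.2 hd0) (right_mem_Icc.2 hd0) hd0
  simp [highS] at h ⊢
  exact h

lemma high_R_mono {m a b : ℝ} (hm : 1 / 3 ≤ m) (ha : 0 < a) (hab : a ≤ b) (hb : b < 1 - m) :
    highR m a ≤ highR m b := by
  have hm0 : (0:ℝ) ≤ m := by linarith
  let V : ℝ → ℝ := fun x =>
    highS1 m x * (((1 + m) ^ 2 - x ^ 2) * x) - highS m x * ((1 + m) ^ 2 + x ^ 2)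
  have hV : ∀ x ∈ Icc 0 b, HasDerivAt V
      (x * (highS2 m x * ((1 + m) ^ 2 - x ^ 2) - 4 * x * highS1 m x - 2 * highS m x)) x := by
    intro x hx
    refine (((high_hasDerivAt_S1 hm0 hx.1 (by linarith [hx.2])).mul
      ((((hasDerivAt_id' x).fun_pow 2).const_sub ((1 + m) ^ 2)).fun_mul (hasDerivAt_id' x))).sub
      ((high_hasDerivAt_S hm0 hx.1 (by linarith [hx.2])).mul
        (((hasDerivAt_id' x).fun_pow 2).const_add ((1 + m) ^ 2)))).congr_deriv ?_
    simp; ring
  have hV0 : ∀ x ∈ Icc 0 b, 0 ≤ V x := by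
    intro x hx
    have h := monotoneOn_of_hasDerivWithinAt_nonneg (convex_Icc 0 b)
      (fun y hy => (hV y hy).continuousAt.continuousWithinAt)
      (fun y hy => (hV y (interior_subset hy)).hasDerivWithinAt)
      (fun y hy => ?_) (left_mem_Icc.2 (by linarith)) hx hx.1
    · simpa [V, highS] using h
    · obtain ⟨y0, y1⟩ := interior_subset hy
      refine mul_nonneg y0 ?_
      linarith [(high_S2_bound hm y0 (by linarith)).2, high_S_le hm y0 (by linarith)]
  have hR : ∀ x ∈ Icc a b, HasDerivAt (fun x => highR m x) (V x / (2 * x ^ 2)) x := by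
    intro x hx
    have hx0 : 0 < x := by linarith [hx.1]
    refine (((high_hasDerivAt_S hm0 hx0.le (by linarith [hx.2])).mul
      (((hasDerivAt_id' x).fun_pow 2).const_sub ((1 + m) ^ 2))).fun_div
      ((hasDerivAt_id' x).const_mul 2) (by simp; linarith)).congr_deriv ?_
    simp [V]; field_simp; ring
  exact monotoneOn_of_hasDerivWithinAt_nonneg (convex_Icc a b)
    (fun x hx => (hR x hx).continuousAt.continuousWithinAt)
    (fun x hx => (hR x (interior_subset hx)).hasDerivWithinAt)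
    (fun x hx => div_nonneg (hV0 x ⟨by linarith [(interior_subset hx).1], (interior_subset hx).2⟩)
      (by positivity)) (left_mem_Icc.2 hab) (right_mem_Icc.2 hab) hab

lemma high_drop_eq {m x : ℝ} (hm : 0 ≤ m) (hx0 : 0 < x) (hx : x < 1 - m) :
    highS m x / 2 = highR m x * (x / ((1 + m) ^ 2 - x ^ 2)) := by
  have e : (1 + m) ^ 2 - x ^ 2 ≠ 0 := by nlinarith
  unfold highR
  field_simp

lemma high_drop_le_R {m c : ℝ} (hm : 1 / 3 ≤ m) (hc0 : 0 < c) (hc : c < 1 - m) :
    ent m - entBar m c ≤ highR m c * ellGap m c := by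
  have hm0 : (0:ℝ) ≤ m := by linarith
  have hder : ∀ x ∈ Icc 0 c, HasDerivAt (fun x => highR m c * ellGap m x - (ent m - entBar m x))
      (highR m c * (x / ((1 + m) ^ 2 - x ^ 2)) - highS m x / 2) x := fun x hx =>
    ((high_hasDerivAt_gap hm0 hx.1 (by linarith [hx.2])).const_mul _).sub
      (high_hasDerivAt_drop hm0 hx.1 (by linarith [hx.2]))
  have h := monotoneOn_of_hasDerivWithinAt_nonneg (convex_Icc 0 c)
    (fun x hx => (hder x hx).continuousAt.continuousWithinAt)
    (fun x hx => (hder x (interior_subset hx)).hasDerivWithinAt)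
    (fun x hx => ?_) (left_mem_Icc.2 hc0.le) (right_mem_Icc.2 hc0.le) hc0.le
  · simp [ellGap, entBar] at h ⊢
    linarith
  · rw [interior_Icc] at hx
    rw [high_drop_eq hm0 hx.1 (by linarith [hx.2]), sub_nonneg]
    exact mul_le_mul_of_nonneg_right (high_R_mono hm hx.1 hx.2.le hc)
      (div_nonneg hx.1.le (by nlinarith [hx.1, hx.2]))

lemma high_gap_pos {m d : ℝ} (hd0 : 0 < d) (h : d < 1 + m) :
    0 < ellGap m d := by
  unfold ellGap
  rw [ell_eq (show -1 < m + d by linarith), ell_eq (show -1 < m - d by linarith),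
    ell_eq (show -1 < m by linarith)]
  have h1 : (1 + (m + d)) * (1 + (m - d)) < (1 + m) * (1 + m) := by nlinarith
  have := log_lt_log (mul_pos (by linarith) (by linarith)) h1
  rw [log_mul (by linarith) (by linarith), log_mul (by linarith) (by linarith)] at this
  linarith

/-- Against `ellGap`, the drop of the entropy is largest at the corner. -/
lemma high_slope {m d : ℝ} (hm : 1 / 3 ≤ m) (hd0 : 0 < d) (hd : d < 1 - m) :
    (ent m - entBar m d) * highGc m ≤ highDc m * ellGap m d := by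
  have hm0 : (0:ℝ) ≤ m := by linarith
  have hG : ∀ x ∈ Icc d (1 - m), 0 < ellGap m x := fun x hx =>
    high_gap_pos (by linarith [hx.1]) (by linarith [hx.2])
  have hcg : ContinuousOn (fun x => ellGap m x) (Icc d (1 - m)) := by
    unfold ellGap ell
    refine ContinuousOn.sub (ContinuousOn.div_const (ContinuousOn.add ?_ ?_) 2) continuousOn_const
    · refine (ContinuousOn.log (by fun_prop) fun x hx => ?_).neg
      linarith [hx.1]
    · refine (ContinuousOn.log (by fun_prop) fun x hx => ?_).neg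
      linarith [hx.2]
  have hcd : ContinuousOn (fun x => ent m - entBar m x) (Icc d (1 - m)) := by
    unfold entBar
    have := ent_continuous
    fun_prop
  have h := monotoneOn_of_hasDerivWithinAt_nonneg (convex_Icc d (1 - m))
    (f := fun x => (ent m - entBar m x) / ellGap m x)
    (f' := fun x => (highS m x / 2 * ellGap m x
      - (ent m - entBar m x) * (x / ((1 + m) ^ 2 - x ^ 2))) / ellGap m x ^ 2)
    (hcd.div hcg fun x hx => (hG x hx).ne')
    (fun x hx => ?_) (fun x hx => ?_) (left_mem_Icc.2 hd.le) (right_mem_Icc.2 hd.le) hd.le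
  · simp only [] at h
    rw [high_corner_ent (by linarith) (by linarith), high_corner_gap (by linarith)] at h
    have g1 := hG d (left_mem_Icc.2 hd.le)
    have g2 := hG _ (right_mem_Icc.2 hd.le)
    rw [high_corner_gap (show 0 < m by linarith)] at g2
    exact (div_le_div_iff₀ g1 g2).1 h
  · rw [interior_Icc] at hx
    exact (((high_hasDerivAt_drop hm0 (by linarith [hx.1]) hx.2).div
      (high_hasDerivAt_gap hm0 (by linarith [hx.1]) hx.2)
      (hG x ⟨hx.1.le, hx.2.le⟩).ne')).hasDerivWithinAt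
  · rw [interior_Icc] at hx
    have hx0 : 0 < x := by linarith [hx.1]
    refine div_nonneg ?_ (sq_nonneg _)
    rw [high_drop_eq hm0 hx0 hx.2]
    have := mul_le_mul_of_nonneg_right (high_drop_le_R hm hx0 hx.2)
      (div_nonneg hx0.le (show 0 ≤ (1 + m) ^ 2 - x ^ 2 by nlinarith [hx.2]))
    linarith

lemma high_drop_le_corner {m d : ℝ} (hm : 1 / 3 ≤ m) (hd0 : 0 < d) (hd : d < 1 - m) :
    ent m - entBar m d ≤ highDc m := by
  have hm0 : (0:ℝ) ≤ m := by linarith
  have hcd : ContinuousOn (fun x => ent m - entBar m x) (Icc d (1 - m)) := by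
    unfold entBar
    have := ent_continuous
    fun_prop
  have h := monotoneOn_of_hasDerivWithinAt_nonneg (convex_Icc d (1 - m)) hcd
    (fun x hx => (high_hasDerivAt_drop hm0 (by linarith [(interior_subset hx).1])
      (by rw [interior_Icc] at hx; exact hx.2)).hasDerivWithinAt)
    (fun x hx => ?_) (left_mem_Icc.2 hd.le) (right_mem_Icc.2 hd.le) hd.le
  · simp only [] at h
    rwa [high_corner_ent (by linarith) (by linarith)] at h
  · rw [interior_Icc] at hx
    obtain ⟨hp, hn⟩ := high_memP hm0 (show 0 ≤ x by linarith [hx.1]) hx.2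
    have : artanh (m - x) ≤ artanh (m + x) := by
      rw [artanh_eq_half_log_sub hp, artanh_eq_half_log_sub hn]
      have a1 := log_le_log (show 0 < 1 + (m - x) by linarith [hn.1])
        (show 1 + (m - x) ≤ 1 + (m + x) by linarith [hx.1])
      have a2 := log_le_log (show 0 < 1 - (m + x) by linarith [hp.2])
        (show 1 - (m + x) ≤ 1 - (m - x) by linarith [hx.1])
      linarith
    unfold highS; linarith

end Vale.Agent.P322
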