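import Vale.Agent.P322.Assembly
import Vale.Agent.P322.Curv

/-! The radial inequality from `ElemM` (corner mean `m`) and `ElemOne` (corner mean `1`). -/

noncomputable section

namespace Vale.Agent.P322

open Real Set

lemma ellGap_nonneg_of {m d : ℝ} (h1 : -1 < m - d) (h2 : -1 < m + d) : 0 ≤ ellGap m d := by
  have ha : 0 < (1 + (m + d)) / 2 := by linarith
  have hb : 0 < (1 + (m - d)) / 2 := by linarith
  have hc : 0 < (1 + m) / 2 := by linarith
  have h := log_le_log (mul_pos ha hb) (show (1 + (m + d)) / 2 * ((1 + (m - d)) / 2)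
      ≤ (1 + m) / 2 * ((1 + m) / 2) by nlinarith [sq_nonneg d])
  rw [log_mul ha.ne' hb.ne', log_mul hc.ne' hc.ne'] at h
  unfold ellGap ell
  linarith

lemma eBd_monotone {a b : ℝ} (ha : 0 ≤ a) (hab : a ≤ b) : eBd a ≤ eBd b := by
  have := log_le_log (show 0 < 1 + a / (17 / 5) by positivity)
    (show 1 + a / (17 / 5) ≤ 1 + b / (17 / 5) by linarith)
  unfold eBd
  linarith

lemma zInv_pos {G h : ℝ} (hh : 0 < h) (hle : h ≤ G) : 0 < zInv G h := by
  have hl := log_two_pos'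
  have : 0 ≤ G * (G - h) := mul_nonneg (by linarith) (by linarith)
  unfold zInv
  positivity

lemma zInv_eq {G h : ℝ} (hh : 0 < h) (hlt : h < G) :
    log 2 / ent (tR G h) = zInv G h := by
  obtain ⟨hz, -⟩ := tR_mem hh hlt
  have hl := log_two_pos'
  have hG : 0 < G := lt_trans hh hlt
  rw [show ent (tR G h) = log 2 * tZ G h from ent_rEnt_Icc (Ioo_subset_Icc_self hz)]
  unfold tZ zInv tC
  field_simp
  try ring

lemma zInv_mono {G₀ G h : ℝ} (hh : 0 < h) (hlt : h < G₀) (hle : G₀ ≤ G) :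
    zInv G₀ h ≤ zInv G h := by
  have hl := log_two_pos'
  unfold zInv
  gcongr
  nlinarith

lemma log_mul_tLam {G l h : ℝ} (hG : 0 < G) :
    log 2 * tLam G l h
      = h * log 2 * psiChi (tR G h) * corA G l - l * psiIcpt (tR G h) := by
  have hl := log_two_pos'
  unfold tLam corA
  field_simp
  try ring

/-- The facts about the two evaluation points. -/
lemma pair_facts {G₀ G h : ℝ} (hh : 0 < h) (hlt : h < G₀) (hle : G₀ ≤ G) :
    psiIcpt (tR G h) - psiIcpt (tR G₀ h) ≤ eBd (log (zInv G h / zInv G₀ h)) ∧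
    2 * log 2 + log (zInv G₀ h) / 2 ≤ psiIcpt (tR G₀ h) ∧
    (zInv G h - zInv G₀ h - log (zInv G h / zInv G₀ h)) / 2
      ≤ psiChi (tR G h) - psiChi (tR G₀ h) ∧
    0 ≤ psiChi (tR G₀ h) ∧
    psiChi (tR G₀ h) ≤ 0.645 * (zInv G₀ h - 1 - log (zInv G₀ h)) ∧
    0 ≤ log (zInv G h / zInv G₀ h) := by
  have hlt' : h < G := lt_of_lt_of_le hlt hle
  obtain ⟨hz₀, hr₀⟩ := tR_mem hh hlt
  obtain ⟨hz, hr⟩ := tR_mem hh hlt'
  have e₀ := zInv_eq hh hlt
  have e := zInv_eq hh hlt'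
  have hp₀ := zInv_pos hh hlt.le
  have hm := zInv_mono hh hlt hle
  have h21 : tR G₀ h ≤ tR G h := by
    have h0 : 0 < ent (tR G₀ h) := ent_pos ⟨by linarith [hr₀.1], hr₀.2⟩
    have h1 : 0 < ent (tR G h) := ent_pos ⟨by linarith [hr.1], hr.2⟩
    rw [← e₀, ← e, div_le_div_iff_of_pos_left log_two_pos' h0 h1] at hm
    by_contra hc
    push Not at hc
    exact absurd (ent_strictAntiOn ⟨hr.1.le, hr.2.le⟩ ⟨hr₀.1.le, hr₀.2.le⟩ hc) (not_lt.mpr hm)
  have f1 := psiIcpt_sub_le hr₀.1 h21 hr.2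
  have f2 := psiIcpt_ge hr₀
  have f3 := psiChi_sub_ge hr₀.1 h21 hr.2
  obtain ⟨f4, f5⟩ := psiChi_bounds hr₀
  rw [e₀, e] at f1 f3
  rw [e₀] at f2 f5
  exact ⟨f1, f2, f3, f4, f5, log_nonneg (by rw [le_div_iff₀ hp₀]; linarith)⟩

lemma entBar_mem {m d : ℝ} (hm : 0 ≤ m) (hd0 : 0 < d) (hd1 : d < 1 - m) :
    0 < entBar m d ∧ entBar m d ≤ ent m := by
  have hc : m + d ∈ Ioo (-1:ℝ) 1 := ⟨by linarith, by linarith⟩
  have he : m - d ∈ Ioo (-1:ℝ) 1 := ⟨by linarith, by linarith⟩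
  have h := ent_concaveOn.2 (Ioo_subset_Icc_self hc) (Ioo_subset_Icc_self he)
    (show (0:ℝ) ≤ 1 / 2 by norm_num) (show (0:ℝ) ≤ 1 / 2 by norm_num) (by norm_num)
  simp only [smul_eq_mul] at h
  rw [show 1 / 2 * (m + d) + 1 / 2 * (m - d) = m by ring] at h
  refine ⟨?_, ?_⟩
  · unfold entBar; linarith [ent_pos hc, ent_pos he]
  · unfold entBar; linarith

theorem q4_one (e1 : ElemOne) {m d h : ℝ} (hm : 0 ≤ m) (hd0 : 0 < d) (hd1 : d < 1 - m)
    (hh : 0 < h) (hlt : h < entBar m d) :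
    tLam (entBar m d) ((ell (m + d) + ell (m - d)) / 2) h ≤ tLam (ent m) (ell m) h := by
  obtain ⟨hG₀, hle⟩ := entBar_mem hm hd0 hd1
  have hG : 0 < ent m := lt_of_lt_of_le hG₀ hle
  obtain ⟨f1, f2, f3, f4, f5, -⟩ := pair_facts hh hlt hle
  have hgap : 0 ≤ ellGap m d := ellGap_nonneg_of (by linarith) (by linarith)
  have elb : (ell (m + d) + ell (m - d)) / 2 = ell m + ellGap m d := by unfold ellGap; ring
  have hmI : m ∈ Ioo (-1:ℝ) 1 := ⟨by linarith, by linarith⟩
  have hl0 : 0 ≤ ell m := by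
    unfold ell
    linarith [log_nonpos (show 0 ≤ (1 + m) / 2 by linarith) (show (1 + m) / 2 ≤ 1 by linarith)]
  have hA : 0 ≤ corA (ent m) (ell m) := by
    have h1 := ellK_eq hmI 1
    rw [show ellK 1 m = ell m by unfold ellK; ring] at h1
    have hA0 : 0 ≤ artanh m := by
      rcases hm.eq_or_lt with h | h
      · simp [← h]
      · exact (artanh_pos ⟨h, hmI.2⟩).le
    refine div_nonneg ?_ (sq_nonneg _)
    linarith [mul_nonneg (show 0 ≤ 1 - m by linarith) hA0]
  have hE := e1 m d h hm hd0 hd1 hh hlt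
  rw [elb]
  refine le_of_mul_le_mul_left ?_ log_two_pos'
  rw [log_mul_tLam hG₀, log_mul_tLam hG]
  set Am := corA (ent m) (ell m) with hAm
  set Ab := corA (entBar m d) (ell m + ellGap m d) with hAb
  have hhl : 0 ≤ h * log 2 := mul_nonneg hh.le log_two_pos'.le
  have t1 := mul_le_mul_of_nonneg_left f1 hl0
  have t2 := mul_le_mul_of_nonneg_left f2 hgap
  have t3 := mul_le_mul_of_nonneg_left f3 (mul_nonneg hhl hA)
  have t4 : h * log 2 * (0.645 * (zInv (entBar m d) h - 1 - log (zInv (entBar m d) h)))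
      * min (Am - Ab) 0 ≤ h * log 2 * psiChi (tR (entBar m d) h) * (Am - Ab) := by
    refine le_trans (mul_le_mul_of_nonpos_right (mul_le_mul_of_nonneg_left f5 hhl)
      (min_le_right _ _)) ?_
    exact mul_le_mul_of_nonneg_left (min_le_left _ _) (mul_nonneg hhl f4)
  linarith

theorem q4_mean (em : ElemM) {m d h : ℝ} (hm : 0 ≤ m) (hd0 : 0 < d) (hd1 : d < 1 - m)
    (hh : 0 < h) (hlt : h < entBar m d) :
    tLam (entBar m d) ((ellK m (m + d) + ellK m (m - d)) / 2) h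
      ≤ tLam (ent m) (ellK m m) h := by
  obtain ⟨hG₀, hle⟩ := entBar_mem hm hd0 hd1
  have hG : 0 < ent m := lt_of_lt_of_le hG₀ hle
  obtain ⟨f1, f2, -, f4, -, f6⟩ := pair_facts hh hlt hle
  have hl := log_two_pos'
  have hmI : m ∈ Ioo (-1:ℝ) 1 := ⟨by linarith, by linarith⟩
  have ep : ellK m m = ent m := by rw [ellK_eq hmI]; ring
  set del := ((1 + m) * ellGap m d + (1 - m) * ellGap (-m) d) / 2 with hdel
  have hdel0 : 0 ≤ del := by
    have h1 := mul_nonneg (show 0 ≤ 1 + m by linarith) (ellGap_nonneg_of (m := m) (d := d) (by linarith) (by linarith))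
    have h2 := mul_nonneg (show 0 ≤ 1 - m by linarith) (ellGap_nonneg_of (m := -m) (d := d) (by linarith) (by linarith))
    rw [hdel]; linarith
  have elb : (ellK m (m + d) + ellK m (m - d)) / 2 = ent m + del := by
    rw [← ep, hdel]
    unfold ellK ellGap
    rw [show -(m + d) = -m - d by ring, show -(m - d) = -m + d by ring]
    ring
  rw [elb, ep]
  refine le_of_mul_le_mul_left ?_ hl
  rw [log_mul_tLam hG₀, log_mul_tLam hG, show corA (ent m) (ent m) = 0 by simp [corA], mul_zero,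
    zero_sub]
  have hb : zInv (ent m) h / zInv (entBar m d) h ≤ (ent m / entBar m d) ^ 2 := by
    have hp₀ := zInv_pos hh hlt.le
    rw [div_le_iff₀ hp₀, div_pow, div_mul_eq_mul_div, le_div_iff₀ (by positivity)]
    unfold zInv
    rw [div_mul_eq_mul_div, mul_div_assoc', div_le_div_iff_of_pos_right (by positivity)]
    have h1 : ent m * entBar m d ≤ log 2 * (ent m + entBar m d) := by
      nlinarith [mul_le_mul_of_nonneg_right (ent_le m) hG₀.le, mul_nonneg hl.le hG.le]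
    nlinarith [mul_le_mul_of_nonneg_left h1 (mul_nonneg hh.le (sub_nonneg.mpr hle))]
  have hp : 0 < zInv (ent m) h / zInv (entBar m d) h :=
    div_pos (zInv_pos hh (lt_of_lt_of_le hlt hle).le) (zInv_pos hh hlt.le)
  have hlog := log_le_log hp hb
  rw [log_pow] at hlog
  push_cast at hlog
  have t1 := mul_le_mul_of_nonneg_left (le_trans f1 (eBd_monotone f6 hlog)) hG.le
  have t2 : 2 * log 2 * del ≤ psiIcpt (tR (entBar m d) h) * del := by
    refine mul_le_mul_of_nonneg_right ?_ hdel0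
    have : 0 ≤ log (zInv (entBar m d) h) := by
      refine log_nonneg ?_
      unfold zInv
      rw [le_div_iff₀ (by positivity)]
      nlinarith
    linarith
  have t3 : h * log 2 * psiChi (tR (entBar m d) h) * corA (entBar m d) (ent m + del) ≤ 0 :=
    mul_nonpos_of_nonneg_of_nonpos (mul_nonneg (mul_nonneg hh.le hl.le) f4)
      (div_nonpos_of_nonpos_of_nonneg (by linarith) (sq_nonneg _))
  have hE := em m d hm hd0 hd1
  rw [← hdel] at hE
  linarith

/-- The radial inequality for every corner mean in `[m, 1]`. -/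
theorem q4K_of_elem (em : ElemM) (e1 : ElemOne) : Q4KStmt := by
  intro m d h k hm hd0 hd1 hk hk1 hh hlt
  obtain ⟨θ, hθ⟩ : ∃ θ, θ = (k - m) / (1 - m) := ⟨_, rfl⟩
  have h1m : 0 < 1 - m := by linarith
  have hθ0 : 0 ≤ θ := hθ ▸ div_nonneg (by linarith) h1m.le
  have hθ1 : θ ≤ 1 := by rw [hθ, div_le_one h1m]; linarith
  have hkθ : k = (1 - θ) * m + θ * 1 := by rw [hθ]; field_simp; ring
  have ea : ∀ x, ellK k x = (1 - θ) * ellK m x + θ * ell x := fun x => by
    rw [hkθ]; unfold ellK; ring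
  have el : ∀ Hv a b : ℝ, tLam Hv ((1 - θ) * a + θ * b) h
      = (1 - θ) * tLam Hv a h + θ * tLam Hv b h := fun Hv a b => by unfold tLam; ring
  rw [ea, ea, ea, el, show ((1 - θ) * ellK m (m + d) + θ * ell (m + d)
      + ((1 - θ) * ellK m (m - d) + θ * ell (m - d))) / 2
      = (1 - θ) * ((ellK m (m + d) + ellK m (m - d)) / 2)
        + θ * ((ell (m + d) + ell (m - d)) / 2) by ring, el]
  exact add_le_add (mul_le_mul_of_nonneg_left (q4_mean em hm hd0 hd1 hh hlt) (by linarith))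
    (mul_le_mul_of_nonneg_left (q4_one e1 hm hd0 hd1 hh hlt) hθ0)

end Vale.Agent.P322
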