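import Vale.Agent.P322.RegimeOneCore
import Mathlib.Analysis.Calculus.Deriv.Inverse
import Mathlib.Topology.Order.MonotoneContinuity

/-!
Regime one of the parent `Ψ` branch: for the law `w δ_{(a,b)} + (1-w) δ_{(1,1)}` the parent
increment `psiD(parent) - psiD(children)` is at most `w * edgeJ a b`.
-/

noncomputable section

namespace Vale.Agent.P322

open Real Set Filter Topology

lemma rEnt_mem_Ioo {z : ℝ} (h0 : 0 < z) (h1 : z < log 2) : rEnt z ∈ Ioo (0:ℝ) 1 := by
  refine ⟨?_, rEnt_lt_one h0⟩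
  rcases eq_or_lt_of_le (rEnt_spec z).1.1 with h | h
  · have h2 := (rEnt_spec z).2
    rw [← h, ent_zero, max_eq_left h0.le, min_eq_left h1.le] at h2
    linarith
  · exact h

lemma ent_rEnt {z : ℝ} (h0 : 0 ≤ z) (h1 : z ≤ log 2) : ent (rEnt z) = z := by
  rw [(rEnt_spec z).2, max_eq_left h0, min_eq_left h1]

lemma rEnt_continuous : Continuous rEnt := by
  have hmon : Monotone (fun z => rEnt (-z)) := fun a b h => rEnt_antitone (by linarith)
  have hc : ∀ z : ℝ, ContinuousAt rEnt z := by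
    intro z
    rw [Metric.continuousAt_iff]
    intro ε hε
    have hr := (rEnt_spec z).1
    set c := min (max z 0) (log 2) with hcdef
    -- pick values of `ent` on either side
    have hlo : ∃ η > 0, ∀ y, y < z + η → rEnt z - ε < rEnt y := by
      rcases lt_or_ge (rEnt z - ε / 2) 0 with h | h
      · exact ⟨1, one_pos, fun y _ => by linarith [(rEnt_spec y).1.1]⟩
      · have hlt : c < ent (rEnt z - ε / 2) := by
          rw [hcdef, ← (rEnt_spec z).2]
          exact ent_strictAntiOn ⟨h, by linarith [hr.2]⟩ hr (by linarith)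
        refine ⟨ent (rEnt z - ε / 2) - c, by linarith, fun y hy => ?_⟩
        by_contra hcon
        push Not at hcon
        have h2 : ent (rEnt z - ε / 2) ≤ ent (rEnt y) :=
          ent_strictAntiOn.antitoneOn (rEnt_spec y).1 ⟨h, by linarith [hr.2]⟩ (by linarith)
        rw [(rEnt_spec y).2] at h2
        rcases le_total (log 2) (max z 0) with hz | hz
        · rw [hcdef, min_eq_right hz] at hlt
          linarith [ent_le (rEnt z - ε / 2)]
        · rw [hcdef, min_eq_left hz] at hlt hy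
          rcases le_total y 0 with hy0 | hy0
          · rw [max_eq_right hy0] at h2
            linarith [min_le_left (0:ℝ) (log 2), le_max_right z 0]
          · rw [max_eq_left hy0] at h2
            linarith [min_le_left y (log 2), le_max_left z 0]
    have hhi : ∃ η > 0, ∀ y, z - η < y → rEnt y < rEnt z + ε := by
      rcases lt_or_ge 1 (rEnt z + ε / 2) with h | h
      · exact ⟨1, one_pos, fun y _ => by linarith [(rEnt_spec y).1.2]⟩
      · have hlt : ent (rEnt z + ε / 2) < c := by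
          rw [hcdef, ← (rEnt_spec z).2]
          exact ent_strictAntiOn hr ⟨by linarith [hr.1], h⟩ (by linarith)
        refine ⟨c - ent (rEnt z + ε / 2), by linarith, fun y hy => ?_⟩
        by_contra hcon
        push Not at hcon
        have h2 : ent (rEnt y) ≤ ent (rEnt z + ε / 2) :=
          ent_strictAntiOn.antitoneOn ⟨by linarith [hr.1], h⟩ (rEnt_spec y).1 (by linarith)
        rw [(rEnt_spec y).2] at h2
        have he0 : 0 ≤ ent (rEnt z + ε / 2) := ent_nonneg ⟨by linarith [hr.1], h⟩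
        have hc2 : c ≤ log 2 := min_le_right _ _
        rcases le_total z 0 with hz | hz
        · rw [hcdef, max_eq_right hz] at hlt
          linarith [min_le_left (0:ℝ) (log 2)]
        · have hcz : c ≤ z := by rw [hcdef, max_eq_left hz]; exact min_le_left _ _
          rcases le_total (max y 0) (log 2) with hm | hm
          · rw [min_eq_left hm] at h2
            linarith [le_max_left y 0]
          · rw [min_eq_right hm] at h2
            linarith
    obtain ⟨η1, he1, h1'⟩ := hlo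
    obtain ⟨η2, he2, h2'⟩ := hhi
    refine ⟨min η1 η2, lt_min he1 he2, fun y hy => ?_⟩
    rw [Real.dist_eq, abs_lt] at hy
    rw [Real.dist_eq, abs_lt]
    constructor
    · linarith [h1' y (by linarith [min_le_left η1 η2])]
    · linarith [h2' y (by linarith [min_le_right η1 η2])]
  exact continuous_iff_continuousAt.mpr hc

lemma hasDerivAt_psiD {z : ℝ} (h0 : 0 < z) (h1 : z < log 2) :
    HasDerivAt psiD (-psiSlope (rEnt z)) z := by
  have hr := rEnt_mem_Ioo h0 h1
  have hA := artanh_pos hr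
  have hinv : HasDerivAt rEnt (-artanh (rEnt z))⁻¹ z := by
    refine HasDerivAt.of_local_left_inverse rEnt_continuous.continuousAt
      (hasDerivAt_ent ⟨by linarith [hr.1], hr.2⟩) (neg_ne_zero.mpr hA.ne') ?_
    filter_upwards [Ioo_mem_nhds h0 h1] with y hy
    exact ent_rEnt hy.1.le hy.2.le
  have h := hinv.fun_mul
    ((hasDerivAt_artanh (show rEnt z ∈ Ioo (-1:ℝ) 1 from ⟨by linarith [hr.1], hr.2⟩)).comp z hinv)
  refine h.congr_deriv ?_
  have hne : (1:ℝ) - rEnt z ^ 2 ≠ 0 := by nlinarith [hr.1, hr.2]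
  have := hA.ne'
  simp only [Function.comp, psiSlope]
  field_simp
  ring

/-- The tangent of `Ψ` at `phi r`, evaluated at `l`. -/
def qTan (r l : ℝ) : ℝ := r * artanh r + psiSlope r * (l - phi r)

lemma hasDerivAt_qTan {r l : ℝ} (hr : r ∈ Ioo (0:ℝ) 1) :
    HasDerivAt (fun x => qTan x l) (psiSlope' r * (l - phi r)) r := by
  have hr' : r ∈ Ioo (-1:ℝ) 1 := ⟨by linarith [hr.1], hr.2⟩
  refine (((hasDerivAt_id r).fun_mul (hasDerivAt_artanh hr')).fun_add
    ((hasDerivAt_psiSlope hr).fun_mul ((hasDerivAt_phi hr').const_sub l))).congr_deriv ?_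
  have hne : (1:ℝ) - r ^ 2 ≠ 0 := by nlinarith [hr.1, hr.2]
  have := (artanh_pos hr).ne'
  simp only [id, psiSlope]
  field_simp
  ring

lemma qTan_anti {r1 r2 v : ℝ} (h0 : 0 < r1) (h12 : r1 ≤ r2) (h2 : r2 < 1) (hv : ent r1 ≤ v) :
    qTan r2 (log 2 - v) ≤ qTan r1 (log 2 - v) := by
  have hd : ∀ x ∈ Icc r1 r2, HasDerivAt (fun x => qTan x (log 2 - v))
      (psiSlope' x * (log 2 - v - phi x)) x := fun x hx =>
    hasDerivAt_qTan ⟨lt_of_lt_of_le h0 hx.1, lt_of_le_of_lt hx.2 h2⟩
  exact antitoneOn_of_hasDerivWithinAt_nonpos (convex_Icc r1 r2)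
    (fun x hx => (hd x hx).continuousAt.continuousWithinAt)
    (fun x hx => (hd x (interior_subset hx)).hasDerivWithinAt)
    (fun x hx => by
      have hx' := interior_subset hx
      refine mul_nonpos_of_nonneg_of_nonpos
        (psiSlope'_nonneg ⟨lt_of_lt_of_le h0 hx'.1, lt_of_le_of_lt hx'.2 h2⟩) ?_
      have : ent x ≤ ent r1 := ent_strictAntiOn.antitoneOn ⟨h0.le, by linarith⟩
        ⟨by linarith [hx'.1], by linarith [hx'.2]⟩ hx'.1
      simp only [phi]; linarith)
    ⟨le_rfl, h12⟩ ⟨h12, le_rfl⟩ h12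

lemma qTan_sub_le_potP {r1 r2 v : ℝ} (h0 : 0 < r1) (h12 : r1 ≤ r2) (h2 : r2 < 1)
    (hv : v ≤ ent r2) :
    qTan r2 (log 2 - v) - qTan r1 (log 2 - v) ≤ 0.645 * (potP v (ent r1) - potP v (ent r2)) := by
  have hd : ∀ x ∈ Icc r1 r2,
      HasDerivAt (fun x => qTan x (log 2 - v) + 0.645 * potP v (ent x))
        ((ent x - v) * (psiSlope' x - 0.645 * artanh x / ent x ^ 2)) x := by
    intro x hx
    have hx' : x ∈ Ioo (0:ℝ) 1 := ⟨lt_of_lt_of_le h0 hx.1, lt_of_le_of_lt hx.2 h2⟩
    have hx'' : x ∈ Ioo (-1:ℝ) 1 := ⟨by linarith [hx'.1], hx'.2⟩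
    refine ((hasDerivAt_qTan hx').fun_add (((hasDerivAt_potP (ent_pos hx'')).comp x
      (hasDerivAt_ent hx'')).const_mul 0.645)).congr_deriv ?_
    simp only [phi]
    have := (ent_pos hx'').ne'
    field_simp
    ring
  have := antitoneOn_of_hasDerivWithinAt_nonpos (convex_Icc r1 r2)
    (fun x hx => (hd x hx).continuousAt.continuousWithinAt)
    (fun x hx => (hd x (interior_subset hx)).hasDerivWithinAt)
    (fun x hx => by
      have hx' := interior_subset hx
      have hxm : x ∈ Ioo (0:ℝ) 1 := ⟨lt_of_lt_of_le h0 hx'.1, lt_of_le_of_lt hx'.2 h2⟩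
      refine mul_nonpos_of_nonneg_of_nonpos ?_ ?_
      · have : ent r2 ≤ ent x := ent_strictAntiOn.antitoneOn ⟨hxm.1.le, hxm.2.le⟩
          ⟨by linarith, h2.le⟩ hx'.2
        linarith
      · rw [sub_nonpos, le_div_iff₀ (pow_pos (ent_pos ⟨by linarith [hxm.1], hxm.2⟩) 2)]
        exact psiSlope'_mul_ent_sq_le hxm)
    ⟨le_rfl, h12⟩ ⟨h12, le_rfl⟩ h12
  simp only at this
  linarith

lemma gapG_nonneg {m δ : ℝ} (hm : 0 ≤ m) (h0 : 0 < δ) (h1 : δ < 1 - m) : 0 ≤ gapG m δ := by
  rw [gapG_eq hm h0 h1]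
  have e : ∀ x, 0 ≤ phi x := fun x => sub_nonneg.mpr (ent_le x)
  have := e (δ / (1 + m))
  have := e (δ / (1 - m))
  have : 0 ≤ 1 - m := by linarith
  positivity

/-- `Q ≥ 0`: the tangent at the children dominates the tangent at the parent. -/
theorem qTan_parent_le_child {m δ h : ℝ} (hm : 0 ≤ m) (h0 : 0 < δ) (h1 : δ < 1 - m)
    (hh1 : (1 - m) * ent (δ / (1 - m)) ≤ h) (hh2 : h < (ent (m + δ) + ent (m - δ)) / 2) :
    qTan (rEnt (h + log 2 - ent m)) (log 2 - log (1 + m)) ≤
      qTan (rEnt (h + log 2 - (ent (m + δ) + ent (m - δ)) / 2))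
        (log 2 - (log (1 + (m + δ)) + log (1 + (m - δ))) / 2) := by
  have a1 : (0:ℝ) < 1 + m := by linarith
  have a2 : (0:ℝ) < 1 - m := by linarith
  obtain ⟨z1, hz1⟩ : ∃ z, z = h + log 2 - (ent (m + δ) + ent (m - δ)) / 2 := ⟨_, rfl⟩
  obtain ⟨z2, hz2⟩ : ∃ z, z = h + log 2 - ent m := ⟨_, rfl⟩
  rw [← hz1, ← hz2]
  have hG : z1 - z2 = gapG m δ := by rw [hz1, hz2, gapG, phi, phi, phi]; ring
  have hG0 := gapG_nonneg hm h0 h1
  have hU0 : (1 - m) * ent (δ / (1 - m)) + phi m ≤ z2 := by rw [hz2, phi]; linarith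
  have hz2pos : 0 < z2 := by
    refine lt_of_lt_of_le ?_ hU0
    have := mul_pos a2 (ent_pos (x := δ / (1 - m))
      ⟨by linarith [div_pos h0 a2], (div_lt_one a2).mpr h1⟩)
    linarith [show 0 ≤ phi m from sub_nonneg.mpr (ent_le m)]
  have hz1lt : z1 < log 2 := by rw [hz1]; linarith
  have hr1 := rEnt_mem_Ioo (show 0 < z1 by linarith) hz1lt
  have hr2 := rEnt_mem_Ioo hz2pos (show z2 < log 2 by linarith)
  have h12 : rEnt z1 ≤ rEnt z2 := rEnt_antitone (by linarith)
  have he1 : ent (rEnt z1) = z1 := ent_rEnt (by linarith) hz1lt.le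
  have he2 : ent (rEnt z2) = z2 := ent_rEnt hz2pos.le (by linarith)
  -- the child side
  have hlogs : log (1 + (m + δ)) + log (1 + (m - δ))
      = 2 * log (1 + m) + log (1 - (δ / (1 + m)) ^ 2) := by
    rw [← log_mul (by linarith) (by linarith),
      show (1 + (m + δ)) * (1 + (m - δ)) = (1 + m) ^ 2 * (1 - (δ / (1 + m)) ^ 2) by
        field_simp; ring,
      log_mul (by positivity) ?_, log_pow]
    · push_cast; ring
    · have h := (div_lt_one a1).mpr (show δ < 1 + m by linarith)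
      have := div_pos h0 a1
      nlinarith
  have hp1 : (δ / (1 + m)) ^ 2 < 1 := by
    have h := (div_lt_one a1).mpr (show δ < 1 + m by linarith)
    have := div_pos h0 a1
    nlinarith
  have hneg : 0 ≤ -log (1 - (δ / (1 + m)) ^ 2) := by
    have := log_le_sub_one_of_pos (show (0:ℝ) < 1 - (δ / (1 + m)) ^ 2 by linarith)
    linarith [sq_nonneg (δ / (1 + m))]
  set v := log (1 + m) with hv
  have hchild : qTan (rEnt z1) (log 2 - v) + -log (1 - (δ / (1 + m)) ^ 2) ≤
      qTan (rEnt z1) (log 2 - (log (1 + (m + δ)) + log (1 + (m - δ))) / 2) := by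
    rw [hlogs]
    have := mul_le_mul_of_nonneg_right (two_le_psiSlope hr1) hneg
    unfold qTan
    linarith
  refine le_trans ?_ hchild
  rcases le_or_gt z1 v with hz | hz
  · have := qTan_anti (v := v) hr1.1 h12 hr2.2 (by rw [he1]; exact hz)
    linarith
  -- split at `max z2 v`
  have hu0 : 0 < max z2 v := lt_of_lt_of_le hz2pos (le_max_left _ _)
  have huz : max z2 v ≤ z1 := max_le (by linarith) hz.le
  have hu1 : max z2 v < log 2 := lt_of_le_of_lt huz hz1lt
  have hru := rEnt_mem_Ioo hu0 hu1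
  have heu : ent (rEnt (max z2 v)) = max z2 v := ent_rEnt hu0.le hu1.le
  have s1 : qTan (rEnt z2) (log 2 - v) ≤ qTan (rEnt (max z2 v)) (log 2 - v) := by
    rcases le_or_gt v z2 with h' | h'
    · rw [max_eq_left h']
    · refine qTan_anti (v := v) hru.1 (rEnt_antitone (le_max_left _ _)) hr2.2 ?_
      rw [heu, max_eq_right h'.le]
  have s2 := qTan_sub_le_potP hr1.1 (rEnt_antitone huz) hru.2 (v := v)
    (by rw [heu]; exact le_max_right _ _)
  rw [he1, heu] at s2
  have s3 := core_potP hm h0 h1 (le_max_right z2 v) (le_trans hU0 (le_max_left _ _)) huz hz1lt.le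
    (by linarith [le_max_left z2 v])
  linarith

/-- The base case `Ψ(gap) ≤ J`. -/
lemma psiD_gap_le_edgeJ {a b : ℝ} (ha : a ∈ Ioo (-1:ℝ) 1) (hb : b ∈ Ioo (-1:ℝ) 1) :
    psiD ((ent a + ent b) / 2 + log 2 - ent ((a + b) / 2)) ≤ edgeJ a b := by
  obtain ⟨m, hm⟩ : ∃ m, m = (a + b) / 2 := ⟨_, rfl⟩
  obtain ⟨d, hd⟩ : ∃ d, d = (a - b) / 2 := ⟨_, rfl⟩
  have a1 : 0 < 1 + m := by rw [hm]; linarith [ha.1, hb.1]
  have a2 : 0 < 1 - m := by rw [hm]; linarith [ha.2, hb.2]
  have r1 : d / (1 + m) ∈ Ioo (-1:ℝ) 1 := by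
    rw [mem_Ioo, lt_div_iff₀ a1, div_lt_one a1, hm, hd]; constructor <;> linarith [ha.1, hb.1]
  have r2 : d / (1 - m) ∈ Ioo (-1:ℝ) 1 := by
    rw [mem_Ioo, lt_div_iff₀ a2, div_lt_one a2, hm, hd]; constructor <;> linarith [ha.2, hb.2]
  obtain ⟨p, hp⟩ : ∃ p, p = d / (1 + m) := ⟨_, rfl⟩
  obtain ⟨q, hq⟩ : ∃ q, q = d / (1 - m) := ⟨_, rfl⟩
  rw [← hp] at r1
  rw [← hq] at r2
  have hm' : m ∈ Ioo (-1:ℝ) 1 := ⟨by linarith, by linarith⟩
  have ea : a = m + d := by rw [hm, hd]; ring
  have eb : b = m - d := by rw [hm, hd]; ring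
  have l1 : log (1 + p) = log (1 + a) - log (1 + m) := by
    rw [← log_div (by linarith [ha.1]) a1.ne', hp, ea]; congr 1; field_simp; ring
  have l2 : log (1 - p) = log (1 + b) - log (1 + m) := by
    rw [← log_div (by linarith [hb.1]) a1.ne', hp, eb]; congr 1; field_simp; ring
  have l3 : log (1 + q) = log (1 - b) - log (1 - m) := by
    rw [← log_div (by linarith [hb.2]) a2.ne', hq, eb]; congr 1; field_simp; ring
  have l4 : log (1 - q) = log (1 - a) - log (1 - m) := by
    rw [← log_div (by linarith [ha.2]) a2.ne', hq, ea]; congr 1; field_simp; ring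
  have hz : (ent a + ent b) / 2 + log 2 - ent ((a + b) / 2)
      = (1 + m) / 2 * ent p + (1 - m) / 2 * ent q := by
    rw [← hm]
    have f : ∀ x ∈ Ioo (-1:ℝ) 1,
        ent x = log 2 - ((1 + x) * log (1 + x) + (1 - x) * log (1 - x)) / 2 := fun x hx => by
      rw [← phi_eq hx, phi]; ring
    rw [f a ha, f b hb, f m hm', f p r1, f q r2, l1, l2, l3, l4, hp, hq, ea, eb]
    field_simp
    ring
  have hJ : edgeJ a b = (1 + m) / 2 * (p * artanh p) + (1 - m) / 2 * (q * artanh q) := by
    rw [edgeJ, artanh_eq_half_log_sub ha, artanh_eq_half_log_sub hb, artanh_eq_half_log_sub r1,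
      artanh_eq_half_log_sub r2, l1, l2, l3, l4, hp, hq, ea, eb]
    field_simp
    ring
  obtain ⟨z, hzd⟩ : ∃ z, z = (1 + m) / 2 * ent p + (1 - m) / 2 * ent q := ⟨_, rfl⟩
  rw [hz, ← hzd]
  have hz0 : 0 < z := by
    rw [hzd]
    have := ent_pos r1
    have := ent_pos r2
    positivity
  rcases le_or_gt (log 2) z with hzl | hzl
  · rw [psiD_of_log_two_le hzl]; exact edgeJ_nonneg ha hb
  have hr := rEnt_mem_Ioo hz0 hzl
  have t1 := psiD_tangent hr (ent_pos r1)
  have t2 := psiD_tangent hr (ent_pos r2)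
  rw [psiD_ent_abs r1, ent_rEnt hz0.le hzl.le] at t1
  rw [psiD_ent_abs r2, ent_rEnt hz0.le hzl.le] at t2
  have u1 := mul_le_mul_of_nonneg_left t1 (show 0 ≤ (1 + m) / 2 by linarith)
  have u2 := mul_le_mul_of_nonneg_left t2 (show 0 ≤ (1 - m) / 2 by linarith)
  have hps : psiD z = rEnt z * artanh (rEnt z) := rfl
  have e : psiSlope (rEnt z) * ((1 + m) / 2 * (ent p - z) + (1 - m) / 2 * (ent q - z)) = 0 := by
    rw [show (1 + m) / 2 * (ent p - z) + (1 - m) / 2 * (ent q - z) = 0 by rw [hzd]; ring, mul_zero]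
  rw [hJ, hps]
  linarith

/-- Regime one, parent `Ψ` branch. -/
theorem regimeOne_psi {a b w : ℝ} (ha : a ∈ Ioo (-1:ℝ) 1) (hb : b ∈ Ioo (-1:ℝ) 1)
    (hab : 0 ≤ a + b) (hw0 : 0 < w) (hw1 : w ≤ 1) :
    psiD (w * ((ent a + ent b) / 2) + log 2 - ent (1 - w + w * ((a + b) / 2)))
      ≤ psiD (w * ((ent a + ent b) / 2) + log 2
          - (ent (1 - w + w * a) + ent (1 - w + w * b)) / 2) + w * edgeJ a b := by
  wlog hlt : b ≤ a generalizing a b
  · have := this hb ha (by linarith) (le_of_not_ge hlt)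
    rw [edgeJ_comm b a, add_comm b a, add_comm (ent b), add_comm (ent (1 - w + w * b))] at this
    exact this
  rcases eq_or_lt_of_le hlt with heq | hlt
  · subst heq
    rw [show (b + b) / 2 = b by ring, show (ent b + ent b) / 2 = ent b by ring,
      show (ent (1 - w + w * b) + ent (1 - w + w * b)) / 2 = ent (1 - w + w * b) by ring]
    have := edgeJ_nonneg ha hb
    nlinarith
  obtain ⟨h0, hh0⟩ : ∃ x, x = (ent a + ent b) / 2 := ⟨_, rfl⟩
  obtain ⟨m0, hm0⟩ : ∃ x, x = (a + b) / 2 := ⟨_, rfl⟩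
  rw [← hh0, ← hm0]
  have hm01 : m0 < 1 := by rw [hm0]; linarith [ha.2, hb.2]
  have hh0pos : 0 < h0 := by rw [hh0]; linarith [ent_pos ha, ent_pos hb]
  let zm : ℝ → ℝ := fun t => t * h0 + log 2 - ent (1 - t + t * m0)
  let zc : ℝ → ℝ := fun t => t * h0 + log 2 - (ent (1 - t + t * a) + ent (1 - t + t * b)) / 2
  let D : ℝ → ℝ := fun t => (psiD (zm t) - psiD (zc t)) / t
  have hmem : ∀ x ∈ Ioo (-1:ℝ) 1, ∀ t ∈ Ioc (0:ℝ) 1, 1 - t + t * x ∈ Ioo (-1:ℝ) 1 := by
    intro x hx t ht
    constructor <;> nlinarith [hx.1, hx.2, ht.1, ht.2]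
  have hm0' : m0 ∈ Ioo (-1:ℝ) 1 := ⟨by rw [hm0]; linarith [ha.1, hb.1], hm01⟩
  -- concavity of `ent` along segments to `1`
  have hconc : ∀ x ∈ Ioo (-1:ℝ) 1, ∀ t ∈ Ioo (0:ℝ) 1, t * ent x < ent (1 - t + t * x) := by
    intro x hx t ht
    have h := strictConcave_binEntropy.2 (x := (1 + x) / 2) (y := 1)
      ⟨by linarith [hx.1], by linarith [hx.2]⟩ ⟨zero_le_one, le_rfl⟩ (by linarith [hx.2])
      ht.1 (show 0 < 1 - t by linarith [ht.2]) (by ring)
    simp only [smul_eq_mul, binEntropy_one, mul_zero, add_zero] at h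
    unfold ent
    rw [show (1 + (1 - t + t * x)) / 2 = t * ((1 + x) / 2) + (1 - t) * 1 by ring]
    exact h
  have hstrict : ∀ t ∈ Ioo (0:ℝ) 1, zc t < log 2 := by
    intro t ht
    have := hconc a ha t ht
    have := hconc b hb t ht
    simp only [zc, hh0]
    linarith
  have hpos : ∀ t ∈ Ioc (0:ℝ) 1, 0 < zm t ∧ 0 < zc t := by
    intro t ht
    have := ent_le (1 - t + t * m0)
    have := ent_le (1 - t + t * a)
    have := ent_le (1 - t + t * b)
    have := mul_pos ht.1 hh0pos
    simp only [zm, zc]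
    constructor <;> linarith
  have hderiv : ∀ t ∈ Ioo (0:ℝ) 1, HasDerivAt D
      ((qTan (rEnt (zc t)) (log 2 - (log (1 + (1 - t + t * a)) + log (1 + (1 - t + t * b))) / 2)
        - qTan (rEnt (zm t)) (log 2 - log (1 + (1 - t + t * m0)))) / t ^ 2) t ∧
      0 ≤ qTan (rEnt (zc t)) (log 2 - (log (1 + (1 - t + t * a)) + log (1 + (1 - t + t * b))) / 2)
        - qTan (rEnt (zm t)) (log 2 - log (1 + (1 - t + t * m0))) := by
    intro t ht
    have ht' : t ∈ Ioc (0:ℝ) 1 := ⟨ht.1, ht.2.le⟩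
    set mt := 1 - t + t * m0 with hmt
    set dt := t * ((a - b) / 2) with hdt
    have e1 : mt + dt = 1 - t + t * a := by rw [hmt, hdt, hm0]; ring
    have e2 : mt - dt = 1 - t + t * b := by rw [hmt, hdt, hm0]; ring
    have hd0 : 0 < dt := mul_pos ht.1 (by linarith)
    have hm0nn : 0 ≤ m0 := by rw [hm0]; linarith
    have hmt0 : 0 ≤ mt := by
      rw [hmt]
      linarith [mul_nonneg ht.1.le hm0nn, ht.2]
    have hd1 : dt < 1 - mt := by
      rw [hmt, hdt, hm0]
      nlinarith [mul_pos ht.1 (show 0 < 1 - a by linarith [ha.2])]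
    have hlow : (1 - mt) * ent (dt / (1 - mt)) ≤ t * h0 := by
      have hbase : (1 - m0) * ent ((a - b) / 2 / (1 - m0)) ≤ h0 := by
        have hk : 0 < 1 - m0 := by linarith
        set r := (a - b) / 2 / (1 - m0) with hr
        have hr1 : r < 1 := by rw [hr, div_lt_one hk, hm0]; linarith [ha.2]
        have hr0 : 0 < r := div_pos (by linarith) hk
        have h := fun (x : ℝ) (hx : x ∈ Icc (-1:ℝ) 1) =>
          strictConcave_binEntropy.concaveOn.2 (x := (1 + x) / 2) (y := 1)
            ⟨by linarith [hx.1], by linarith [hx.2]⟩ ⟨zero_le_one, le_rfl⟩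
            hk.le (show 0 ≤ m0 from hm0nn) (by ring)
        have hA := h r ⟨by linarith, hr1.le⟩
        have hB := h (-r) ⟨by linarith, by linarith⟩
        simp only [smul_eq_mul, binEntropy_one, mul_zero, add_zero] at hA hB
        have hrk : (1 - m0) * r = (a - b) / 2 := by rw [hr]; field_simp
        have ea : (1 - m0) * ((1 + r) / 2) + m0 * 1 = (1 + a) / 2 := by linarith only [hrk, hm0]
        have eb : (1 - m0) * ((1 + -r) / 2) + m0 * 1 = (1 + b) / 2 := by linarith only [hrk, hm0]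
        rw [ea] at hA
        rw [eb] at hB
        have hn := ent_neg r
        unfold ent at hn hh0 ⊢
        rw [hn] at hB
        rw [hh0]
        linarith
      have e3 : dt / (1 - mt) = (a - b) / 2 / (1 - m0) := by
        rw [hdt, hmt, show 1 - (1 - t + t * m0) = t * (1 - m0) by ring,
          mul_div_mul_left _ _ ht.1.ne']
      rw [e3, hmt, show 1 - (1 - t + t * m0) = t * (1 - m0) by ring, mul_assoc]
      exact mul_le_mul_of_nonneg_left hbase ht.1.le
    have hhigh : t * h0 < (ent (mt + dt) + ent (mt - dt)) / 2 := by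
      have := hstrict t ht
      simp only [zc] at this
      rw [e1, e2]
      linarith
    have hQ := qTan_parent_le_child hmt0 hd0 hd1 hlow hhigh
    rw [e1, e2] at hQ
    refine ⟨?_, by simp only [zc, zm]; linarith⟩
    have hzm1 : zm t < log 2 := by
      refine lt_of_le_of_lt ?_ (hstrict t ht)
      have := gapG_nonneg hmt0 hd0 hd1
      rw [gapG, e1, e2] at this
      simp only [phi] at this
      simp only [zm, zc, ← hmt]
      linarith
    have hlin : ∀ x : ℝ, HasDerivAt (fun s : ℝ => 1 - s + s * x) (x - 1) t := fun x =>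
      (((hasDerivAt_id' t).const_sub 1).fun_add ((hasDerivAt_id' t).mul_const x)).congr_deriv
        (by ring)
    have hE : ∀ x ∈ Ioo (-1:ℝ) 1, HasDerivAt (fun s : ℝ => ent (1 - s + s * x))
        (-artanh (1 - t + t * x) * (x - 1)) t := fun x hx =>
      HasDerivAt.comp (h₂ := ent) t (hasDerivAt_ent (hmem x hx t ht')) (hlin x)
    have hzm : HasDerivAt zm (h0 - -artanh (1 - t + t * m0) * (m0 - 1)) t :=
      ((((hasDerivAt_id' t).mul_const h0).add_const (log 2)).sub (hE m0 hm0')).congr_deriv (by ring)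
    have hzc : HasDerivAt zc (h0 - (-artanh (1 - t + t * a) * (a - 1)
        + -artanh (1 - t + t * b) * (b - 1)) / 2) t :=
      ((((hasDerivAt_id' t).mul_const h0).add_const (log 2)).sub
        (((hE a ha).add (hE b hb)).div_const 2)).congr_deriv (by ring)
    have hP := ((hasDerivAt_psiD (hpos t ht').1 hzm1).comp t hzm).fun_sub
      ((hasDerivAt_psiD (hpos t ht').2 (hstrict t ht)).comp t hzc)
    refine (hP.fun_div (hasDerivAt_id' t) ht.1.ne').congr_deriv ?_
    -- `ent x + (1 - x) * (- artanh x) = log 2 - log (1 + x)`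
    have key : ∀ x ∈ Ioo (-1:ℝ) 1,
        t * (-artanh (1 - t + t * x) * (x - 1)) = ent (1 - t + t * x)
          - (log 2 - log (1 + (1 - t + t * x))) := by
      intro x hx
      have hy := hmem x hx t ht'
      have := phi_eq hy
      unfold phi at this
      rw [artanh_eq_half_log_sub hy]
      linarith
    have pm : psiD (zm t) = rEnt (zm t) * artanh (rEnt (zm t)) := rfl
    have pc : psiD (zc t) = rEnt (zc t) * artanh (rEnt (zc t)) := rfl
    have fm : phi (rEnt (zm t)) = log 2 - zm t := by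
      rw [phi, ent_rEnt (hpos t ht').1.le hzm1.le]
    have fc : phi (rEnt (zc t)) = log 2 - zc t := by
      rw [phi, ent_rEnt (hpos t ht').2.le (hstrict t ht).le]
    have dm : (h0 - -artanh (1 - t + t * m0) * (m0 - 1)) * t
        = zm t - log (1 + (1 - t + t * m0)) := by
      have := key m0 hm0'
      simp only [zm]
      linarith
    have dc : (h0 - (-artanh (1 - t + t * a) * (a - 1)
        + -artanh (1 - t + t * b) * (b - 1)) / 2) * t
        = zc t - (log (1 + (1 - t + t * a)) + log (1 + (1 - t + t * b))) / 2 := by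
      have := key a ha
      have := key b hb
      simp only [zc]
      linarith
    simp only [qTan, Function.comp, pm, pc, fm, fc]
    rw [mul_one]
    congr 1
    linear_combination (-psiSlope (rEnt (zm t))) * dm + psiSlope (rEnt (zc t)) * dc
  have hcont : ContinuousOn D (Icc w 1) := by
    have hp : ContinuousOn psiD (Ioi 0) := by
      intro z hz
      refine ((rEnt_continuous.continuousAt).mul
        ((artanh_continuousAt (rEnt_mem hz)).comp rEnt_continuous.continuousAt)).continuousWithinAt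
    have hzmc : ContinuousOn zm (Icc w 1) :=
      ((continuous_id.mul continuous_const).add continuous_const |>.sub
        (ent_continuous.comp (by fun_prop))).continuousOn
    have hzcc : ContinuousOn zc (Icc w 1) :=
      ((continuous_id.mul continuous_const).add continuous_const |>.sub
        (((ent_continuous.comp (by fun_prop)).add (ent_continuous.comp (by fun_prop))).div_const 2)).continuousOn
    exact ((hp.comp hzmc fun t ht => (hpos t ⟨lt_of_lt_of_le hw0 ht.1, ht.2⟩).1).sub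
      (hp.comp hzcc fun t ht => (hpos t ⟨lt_of_lt_of_le hw0 ht.1, ht.2⟩).2)).div continuousOn_id
      fun t ht => (lt_of_lt_of_le hw0 ht.1).ne'
  have hmono : MonotoneOn D (Icc w 1) := by
    refine monotoneOn_of_hasDerivWithinAt_nonneg (convex_Icc _ _) hcont
      (fun t ht => ?_) (fun t ht => ?_)
      (f' := fun t =>
        (qTan (rEnt (zc t)) (log 2 - (log (1 + (1 - t + t * a)) + log (1 + (1 - t + t * b))) / 2)
        - qTan (rEnt (zm t)) (log 2 - log (1 + (1 - t + t * m0)))) / t ^ 2)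
    · rw [interior_Icc] at ht
      exact (hderiv t ⟨lt_trans hw0 ht.1, ht.2⟩).1.hasDerivWithinAt
    · rw [interior_Icc] at ht
      exact div_nonneg (hderiv t ⟨lt_trans hw0 ht.1, ht.2⟩).2 (sq_nonneg t)
  have hfin := hmono ⟨le_rfl, hw1⟩ ⟨hw1, le_rfl⟩ hw1
  have hbase := psiD_gap_le_edgeJ ha hb
  rw [← hh0, ← hm0] at hbase
  simp only [D, div_one, zm, zc, one_mul, sub_self, zero_add] at hfin
  rw [show h0 + log 2 - (ent a + ent b) / 2 = log 2 by rw [hh0]; ring,
    psiD_of_log_two_le le_rfl, sub_zero, div_le_iff₀ hw0] at hfin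
  nlinarith [hfin, mul_le_mul_of_nonneg_left hbase hw0.le]

end Vale.Agent.P322
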