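import Vale.Agent.P322.Tbasic
import Vale.Agent.P322.PsiCurv
import Mathlib.Analysis.Calculus.Deriv.Inverse
import Mathlib.Topology.Order.MonotoneContinuity
import Mathlib.Analysis.Complex.ExponentialBounds

/-! Derivatives of `psiD` and joint convexity of `tT`. -/

noncomputable section

namespace Vale.Agent.P322

open Real Set Topology

lemma rEnt_mem_Ioo_set {d : ℝ} (hd : d ∈ Ioo 0 (log 2)) : rEnt d ∈ Ioo (0:ℝ) 1 := by
  refine ⟨lt_of_le_of_ne (rEnt_spec d).1.1 ?_, rEnt_lt_one hd.1⟩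
  intro h
  have h2 := (rEnt_spec d).2
  rw [← h, ent_zero, max_eq_left hd.1.le, min_eq_left hd.2.le] at h2
  linarith [hd.2]

lemma ent_rEnt_Icc {d : ℝ} (hd : d ∈ Icc 0 (log 2)) : ent (rEnt d) = d := by
  rw [(rEnt_spec d).2, max_eq_left hd.1, min_eq_left hd.2]

lemma ent_mem {r : ℝ} (hr : r ∈ Ioo (0:ℝ) 1) : ent r ∈ Ioo 0 (log 2) := by
  refine ⟨ent_pos ⟨by linarith [hr.1], hr.2⟩, ?_⟩
  rw [← ent_zero]
  exact ent_strictAntiOn ⟨le_rfl, zero_le_one⟩ (Ioo_subset_Icc_self hr) hr.1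

lemma rEnt_continuousAt {d : ℝ} (hd : d ∈ Ioo 0 (log 2)) : ContinuousAt rEnt d := by
  have h : ContinuousAt (fun x => -rEnt x) d := by
    refine continuousAt_of_monotoneOn_of_image_mem_nhds
      (fun x _ y _ hxy => neg_le_neg (rEnt_antitone hxy)) (Ioo_mem_nhds hd.1 hd.2) ?_
    refine Filter.mem_of_superset (Ioo_mem_nhds (a := (-1:ℝ)) (b := 0) ?_ ?_) ?_
    · linarith [(rEnt_mem_Ioo_set hd).2]
    · linarith [(rEnt_mem_Ioo_set hd).1]
    · intro y hy
      have hy' : -y ∈ Ioo (0:ℝ) 1 := ⟨by linarith [hy.2], by linarith [hy.1]⟩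
      exact ⟨ent (-y), ent_mem hy', by simp [rEnt_ent (Ioo_subset_Icc_self hy')]⟩
  simpa using h.fun_neg

lemma hasDerivAt_rEnt {d : ℝ} (hd : d ∈ Ioo 0 (log 2)) :
    HasDerivAt rEnt (-artanh (rEnt d))⁻¹ d := by
  have hr := rEnt_mem_Ioo_set hd
  refine HasDerivAt.of_local_left_inverse (rEnt_continuousAt hd)
    (hasDerivAt_ent ⟨by linarith [hr.1], hr.2⟩) (neg_ne_zero.mpr (artanh_pos hr).ne') ?_
  filter_upwards [Ioo_mem_nhds hd.1 hd.2] with y hy
  exact ent_rEnt_Icc (Ioo_subset_Icc_self hy)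

lemma hasDerivAt_psiD_Ioo {d : ℝ} (hd : d ∈ Ioo 0 (log 2)) :
    HasDerivAt psiD (-psiSlope (rEnt d)) d := by
  have hr := rEnt_mem_Ioo_set hd
  have hi := hasDerivAt_rEnt hd
  have hA := (artanh_pos hr).ne'
  refine (hi.fun_mul ((hasDerivAt_artanh ⟨by linarith [hr.1], hr.2⟩).comp d hi)).congr_deriv ?_
  simp only [Function.comp, psiSlope]
  field_simp
  ring

lemma hasDerivAt_psiD' {d : ℝ} (hd : d ∈ Ioo 0 (log 2)) :
    HasDerivAt (fun x => -psiSlope (rEnt x)) (psiSlope' (rEnt d) / artanh (rEnt d)) d := by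
  have hr := rEnt_mem_Ioo_set hd
  refine (((hasDerivAt_psiSlope hr).comp d (hasDerivAt_rEnt hd)).neg).congr_deriv ?_
  have hA := (artanh_pos hr).ne'
  field_simp

/-- A function with nonnegative derivative on `[0, 1)` vanishing at `0` is nonnegative. -/
lemma nonneg_of_deriv {f f' : ℝ → ℝ} {r : ℝ} (hr : r ∈ Ico (0:ℝ) 1) (h0 : 0 ≤ f 0)
    (hd : ∀ x ∈ Icc 0 r, HasDerivAt f (f' x) x) (hp : ∀ x ∈ Icc 0 r, 0 ≤ f' x) : 0 ≤ f r := by
  have := monotoneOn_of_hasDerivWithinAt_nonneg (convex_Icc (0:ℝ) r)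
    (fun x hx => (hd x hx).continuousAt.continuousWithinAt)
    (fun x hx => (hd x (interior_subset hx)).hasDerivWithinAt)
    (fun x hx => hp x (interior_subset hx)) ⟨le_rfl, hr.1⟩ ⟨hr.1, le_rfl⟩ hr.1
  linarith

lemma artanh_series {r : ℝ} (hr : r ∈ Ico (0:ℝ) 1) :
    r + r ^ 3 / 3 + r ^ 5 / 5 ≤ artanh r := by
  have := nonneg_of_deriv (f := fun x => artanh x - (x + x ^ 3 / 3 + x ^ 5 / 5))
    (f' := fun x => 1 / (1 - x ^ 2) - (1 + x ^ 2 + x ^ 4)) hr (by simp)
    (fun x hx => ((hasDerivAt_artanh ⟨by linarith [hx.1], lt_of_le_of_lt hx.2 hr.2⟩).sub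
      (((hasDerivAt_id' x).add ((hasDerivAt_pow 3 x).div_const 3)).add
        ((hasDerivAt_pow 5 x).div_const 5))).congr_deriv (by norm_num; try ring))
    (fun x hx => by
      have hq : 0 < 1 - x ^ 2 := by nlinarith [hx.1, hx.2, hr.2]
      rw [sub_nonneg, le_div_iff₀ hq]
      nlinarith [sq_nonneg (x ^ 3)])
  linarith

lemma phi_series {r : ℝ} (hr : r ∈ Ico (0:ℝ) 1) :
    r ^ 2 / 2 + r ^ 4 / 12 + r ^ 6 / 30 ≤ phi r := by
  have := nonneg_of_deriv (f := fun x => phi x - (x ^ 2 / 2 + x ^ 4 / 12 + x ^ 6 / 30))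
    (f' := fun x => artanh x - (x + x ^ 3 / 3 + x ^ 5 / 5)) hr (by simp [phi, ent_zero])
    (fun x hx => (((hasDerivAt_ent ⟨by linarith [hx.1], lt_of_le_of_lt hx.2 hr.2⟩).const_sub
      (log 2)).sub ((((hasDerivAt_pow 2 x).div_const 2).add ((hasDerivAt_pow 4 x).div_const 12)).add
        ((hasDerivAt_pow 6 x).div_const 30))).congr_deriv (by norm_num; try ring))
    (fun x hx => sub_nonneg.mpr (artanh_series ⟨hx.1, lt_of_le_of_lt hx.2 hr.2⟩))
  linarith

lemma three_mul_le {r : ℝ} (hr : r ∈ Ico (0:ℝ) 1) : 3 * r ≤ artanh r * (3 - r ^ 2) := by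
  have := nonneg_of_deriv (f := fun x => artanh x * (3 - x ^ 2) - 3 * x)
    (f' := fun x => 2 * x * (x / (1 - x ^ 2) - artanh x)) hr (by simp)
    (fun x hx => by
      have hq : (1:ℝ) - x ^ 2 ≠ 0 := by nlinarith [hx.1, hx.2, hr.2]
      refine (((hasDerivAt_artanh ⟨by linarith [hx.1], lt_of_le_of_lt hx.2 hr.2⟩).fun_mul
        ((hasDerivAt_pow 2 x).const_sub 3)).sub ((hasDerivAt_id' x).const_mul 3)).congr_deriv ?_
      norm_num
      field_simp
      ring)
    (fun x hx => mul_nonneg (by linarith [hx.1])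
      (sub_nonneg.mpr (artanh_le_div ⟨hx.1, lt_of_le_of_lt hx.2 hr.2⟩)))
  linarith

/-- `artanh r / r` is monotone. -/
lemma artanh_le_ratio {r s : ℝ} (hr : 0 < r) (hrs : r ≤ s) (hs : s < 1) :
    artanh r ≤ artanh s / s * r := by
  have hd : ∀ x ∈ Icc r s, HasDerivAt (fun x => artanh x / x)
      ((x / (1 - x ^ 2) - artanh x) / x ^ 2) x := by
    intro x hx
    have hx0 : 0 < x := lt_of_lt_of_le hr hx.1
    refine ((hasDerivAt_artanh ⟨by linarith, lt_of_le_of_lt hx.2 hs⟩).fun_div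
      (hasDerivAt_id' x) hx0.ne').congr_deriv ?_
    ring
  have := monotoneOn_of_hasDerivWithinAt_nonneg (convex_Icc r s)
    (fun x hx => (hd x hx).continuousAt.continuousWithinAt)
    (fun x hx => (hd x (interior_subset hx)).hasDerivWithinAt)
    (fun x hx => div_nonneg (sub_nonneg.mpr (artanh_le_div
      ⟨le_trans hr.le (interior_subset hx).1, lt_of_le_of_lt (interior_subset hx).2 hs⟩))
      (sq_nonneg x)) ⟨le_rfl, hrs⟩ ⟨hrs, le_rfl⟩ hrs
  simp only at this
  rwa [div_le_iff₀ hr] at this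

lemma artanh_num {s : ℝ} (h0 : 0 ≤ s) (h1 : s < 1) (k : ℝ) (hk : 0 < k) :
    artanh s ≤ (log k + ((1 + s) / (1 - s) / k - 1)) / 2 := by
  rw [artanh_eq_half_log ⟨by linarith, h1.le⟩]
  have hp : 0 < (1 + s) / (1 - s) := div_pos (by linarith) (by linarith)
  have := log_le_sub_one_of_pos (div_pos hp hk)
  rw [log_div hp.ne' hk.ne'] at this
  linarith

lemma ent_lower {r : ℝ} (hr : r ∈ Ico (0:ℝ) 1) : (1 - r) * (artanh r + 1 / 2) ≤ ent r := by
  have h1 : 0 < 1 + r := by linarith [hr.1]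
  have h2 : 0 < 1 - r := by linarith [hr.2]
  have h3 := le_log_one_add_of_nonneg (show 0 ≤ (1 - r) / (1 + r) by positivity)
  have e1 : 1 + (1 - r) / (1 + r) = 2 / (1 + r) := by field_simp; ring
  rw [e1, log_div (by norm_num) h1.ne'] at h3
  have e2 : 2 * ((1 - r) / (1 + r)) / ((1 - r) / (1 + r) + 2) = 2 * (1 - r) / (3 + r) := by
    rw [show (1 - r) / (1 + r) + 2 = (3 + r) / (1 + r) by field_simp; ring]
    field_simp
  rw [e2] at h3
  have e3 : ent r = log 2 - log (1 + r) + (1 - r) * artanh r := by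
    unfold ent
    rw [binEntropy_eq_negMulLog_add_negMulLog_one_sub,
      show 1 - (1 + r) / 2 = (1 - r) / 2 by ring, artanh_eq_half_log_sub ⟨by linarith, hr.2⟩]
    simp only [negMulLog]
    rw [log_div h1.ne' (by norm_num), log_div h2.ne' (by norm_num)]
    ring
  have h4 : (1 - r) * (1 / 2) ≤ 2 * (1 - r) / (3 + r) := by
    rw [le_div_iff₀ (by linarith [hr.1])]; nlinarith [hr.1]
  rw [e3]
  linarith

lemma key_small {r : ℝ} (hr : r ∈ Ioo (0:ℝ) (9 / 10 + 1 / 1000000)) (h : r ≤ 9 / 10) :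
    log 2 * (1 + r) * artanh r ^ 2 ≤ 4 * phi r * (artanh r + 1 / 2) := by
  have hr1 : r < 1 := by linarith
  have hA := artanh_series ⟨hr.1.le, hr1⟩
  have hA0 : r ≤ artanh r := by nlinarith [pow_pos hr.1 3, pow_pos hr.1 5]
  have hphi : r ^ 2 / 2 ≤ phi r := by
    linarith [phi_series ⟨hr.1.le, hr1⟩, pow_pos hr.1 4, pow_pos hr.1 6]
  have hl := log_two_lt_d9
  have hl0 := log_two_gt_d9
  have l4 : log 4 = 2 * log 2 := by
    rw [show (4:ℝ) = 2 ^ 2 by norm_num, log_pow]; norm_num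
  have l16 : log 16 = 4 * log 2 := by
    rw [show (16:ℝ) = 2 ^ 4 by norm_num, log_pow]; norm_num
  obtain ⟨a, ha, ha1, hpoly⟩ : ∃ a : ℝ, artanh r ≤ a * r ∧ 1 ≤ a ∧
      0.6932 * (1 + r) * a ^ 2 ≤ 2 * r * a + 1 ∧ 0.6932 * (1 + r) ≤ 2 * r + 1 := by
    rcases le_or_gt r (1 / 2) with h5 | h5
    · refine ⟨1.137, ?_, by norm_num, by nlinarith [hr.1], by linarith [hr.1]⟩
      refine le_trans (artanh_le_ratio hr.1 h5 (by norm_num)) (mul_le_mul_of_nonneg_right ?_ hr.1.le)
      have := artanh_num (s := 1 / 2) (by norm_num) (by norm_num) 4 (by norm_num)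
      rw [div_le_iff₀ (by norm_num)]
      norm_num at this ⊢
      linarith
    · rcases le_or_gt r (7 / 10) with h7 | h7
      · refine ⟨1.29, ?_, by norm_num, by nlinarith, by linarith⟩
        refine le_trans (artanh_le_ratio hr.1 h7 (by norm_num)) (mul_le_mul_of_nonneg_right ?_ hr.1.le)
        have := artanh_num (s := 7 / 10) (by norm_num) (by norm_num) 4 (by norm_num)
        rw [div_le_iff₀ (by norm_num)]
        norm_num at this ⊢
        linarith
      · refine ⟨1.65, ?_, by norm_num, by nlinarith, by linarith⟩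
        refine le_trans (artanh_le_ratio hr.1 h (by norm_num)) (mul_le_mul_of_nonneg_right ?_ hr.1.le)
        have := artanh_num (s := 9 / 10) (by norm_num) (by norm_num) 16 (by norm_num)
        rw [div_le_iff₀ (by norm_num)]
        norm_num at this ⊢
        linarith
  obtain ⟨p1, p2⟩ := hpoly
  set A := artanh r with hAdef
  have hApos : 0 ≤ A := le_trans hr.1.le hA0
  have step : log 2 * (1 + r) * A ^ 2 ≤ 2 * r ^ 2 * (A + 1 / 2) := by
    set b := A / r with hb
    have hb1 : 1 ≤ b := by rw [hb, le_div_iff₀ hr.1]; linarith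
    have hb2 : b ≤ a := by rw [hb, div_le_iff₀ hr.1]; exact ha
    have hAb : A = b * r := by rw [hb]; field_simp [hr.1.ne']
    have q : 0.6932 * (1 + r) * b ^ 2 ≤ 2 * r * b + 1 := by
      nlinarith [mul_nonneg (mul_nonneg (show 0 ≤ b - 1 by linarith) (show 0 ≤ a - b by linarith))
        (show 0 ≤ 0.6932 * (1 + r) by linarith [hr.1]),
        mul_nonneg (show 0 ≤ b - 1 by linarith) (sub_nonneg.mpr p1),
        mul_nonneg (show 0 ≤ a - b by linarith) (sub_nonneg.mpr p2)]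
    have q2 : log 2 * (1 + r) * b ^ 2 ≤ 2 * r * b + 1 := by
      refine le_trans ?_ q
      gcongr
      · linarith [hr.1]
      · linarith
    rw [hAb]
    nlinarith [mul_le_mul_of_nonneg_left q2 (sq_nonneg r)]
  refine le_trans step ?_
  nlinarith

lemma key_large {r : ℝ} (h : 9 / 10 ≤ r) (hr : r < 1) :
    log 2 * (1 + r) * artanh r ^ 2 * (r - (1 - r ^ 2) * artanh r)
      ≤ 2 * phi r * ((1 + r ^ 2) * artanh r - r) * (artanh r + 1 / 2) := by
  have hr0 : 0 ≤ r := by linarith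
  have hl := log_two_lt_d9
  have hl0 := log_two_gt_d9
  have hphi : (0.477:ℝ) ≤ phi r := by
    refine le_trans ?_ (phi_series ⟨hr0, hr⟩)
    have h2 : (81 / 100 : ℝ) ≤ r ^ 2 := by nlinarith
    nlinarith [pow_le_pow_left₀ (by norm_num : (0:ℝ) ≤ 81 / 100) h2 2,
      pow_le_pow_left₀ (by norm_num : (0:ℝ) ≤ 81 / 100) h2 3]
  have hA : 1.38 ≤ artanh r := by
    rw [artanh_eq_half_log ⟨by linarith, hr.le⟩]
    have h16 : (16:ℝ) ≤ (1 + r) / (1 - r) := by rw [le_div_iff₀ (by linarith)]; linarith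
    have := log_le_log (by norm_num) h16
    rw [show (16:ℝ) = 2 ^ 4 by norm_num, log_pow] at this
    norm_num at this ⊢
    linarith
  set A := artanh r
  have h1 : r - (1 - r ^ 2) * A ≤ r := by
    have : 0 ≤ (1 - r ^ 2) * A := mul_nonneg (by nlinarith) (by linarith)
    linarith
  have h2 : log 2 * (1 + r) * A ^ 2 * (r - (1 - r ^ 2) * A) ≤ 1.3864 * A ^ 2 := by
    refine le_trans (mul_le_mul_of_nonneg_left h1 (by positivity)) ?_
    have : log 2 * ((1 + r) * r) ≤ 1.3864 := by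
      have := mul_le_mul hl.le (show (1 + r) * r ≤ 2 by nlinarith) (by positivity) (by norm_num)
      norm_num at this ⊢
      linarith
    nlinarith [mul_le_mul_of_nonneg_right this (sq_nonneg A)]
  refine le_trans h2 ?_
  have h3 : (0:ℝ) ≤ 1.81 * A - 1 := by linarith
  have h4 : 1.81 * A - 1 ≤ (1 + r ^ 2) * A - r := by
    nlinarith [mul_le_mul_of_nonneg_right (show (0.81:ℝ) ≤ r ^ 2 by nlinarith) (show 0 ≤ A by linarith)]
  calc 1.3864 * A ^ 2 ≤ 2 * 0.477 * (1.81 * A - 1) * (A + 1 / 2) := by nlinarith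
    _ ≤ 2 * phi r * ((1 + r ^ 2) * A - r) * (A + 1 / 2) := by
      have := le_trans (by norm_num : (0:ℝ) ≤ 0.477) hphi
      gcongr


/-- The third-order bound behind joint convexity. -/
lemma psiChi_le {r : ℝ} (hr : r ∈ Ioo (0:ℝ) 1) :
    psiChi r ≤ 2 * (psiSlope' r / artanh r) * ent r * phi r ^ 2 / log 2 := by
  have hA : 0 < artanh r := artanh_pos hr
  have hq : 0 < 1 - r ^ 2 := by nlinarith [hr.1, hr.2]
  have hphi2 := two_mul_phi_le ⟨hr.1.le, hr.2⟩
  have hphi0 := phi_nonneg' r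
  have hdiv := artanh_le_div ⟨hr.1.le, hr.2⟩
  rw [le_div_iff₀ hq] at hdiv
  have hM0 : 0 ≤ r - (1 - r ^ 2) * artanh r := by nlinarith
  have h3 := three_mul_le ⟨hr.1.le, hr.2⟩
  have hN : 2 * (r - (1 - r ^ 2) * artanh r) ≤ (1 + r ^ 2) * artanh r - r := by nlinarith
  have key : log 2 * (1 + r) * artanh r ^ 2 * (r - (1 - r ^ 2) * artanh r)
      ≤ 2 * phi r * ((1 + r ^ 2) * artanh r - r) * (artanh r + 1 / 2) := by
    rcases le_or_gt r (9 / 10) with h | h
    · have k := key_small ⟨hr.1, by linarith⟩ h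
      calc _ ≤ 4 * phi r * (artanh r + 1 / 2) * (r - (1 - r ^ 2) * artanh r) :=
            mul_le_mul_of_nonneg_right k hM0
        _ = 2 * phi r * (artanh r + 1 / 2) * (2 * (r - (1 - r ^ 2) * artanh r)) := by ring
        _ ≤ 2 * phi r * (artanh r + 1 / 2) * ((1 + r ^ 2) * artanh r - r) :=
            mul_le_mul_of_nonneg_left hN (by positivity)
        _ = _ := by ring
    · exact key_large h.le hr.2
  have hchi : psiChi r
      ≤ phi r * (r - (1 - r ^ 2) * artanh r) / ((1 - r ^ 2) * artanh r) := by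
    have e : phi r * (r - (1 - r ^ 2) * artanh r) / ((1 - r ^ 2) * artanh r)
        = phi r * (psiSlope r - 2) := by
      unfold psiSlope; field_simp; ring
    rw [e]
    unfold psiChi psiIcpt
    have : ent r = log 2 - phi r := by unfold phi; ring
    rw [this]
    linarith
  refine le_trans hchi ?_
  have hH := ent_lower ⟨hr.1.le, hr.2⟩
  have hNN : 0 ≤ (1 + r ^ 2) * artanh r - r := by linarith
  have k2 : log 2 * (1 - r ^ 2) * artanh r ^ 2 * (r - (1 - r ^ 2) * artanh r)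
      ≤ 2 * phi r * ((1 + r ^ 2) * artanh r - r) * ent r := by
    have a1 := mul_le_mul_of_nonneg_left key (show 0 ≤ 1 - r by linarith [hr.2])
    have a2 := mul_le_mul_of_nonneg_left hH (mul_nonneg (by linarith : 0 ≤ 2 * phi r) hNN)
    nlinarith
  unfold psiSlope'
  rw [div_le_iff₀ (mul_pos hq hA)]
  have e : 2 * (((1 + r ^ 2) * artanh r - r) / ((1 - r ^ 2) * artanh r) ^ 2 / artanh r)
      * ent r * phi r ^ 2 / log 2 * ((1 - r ^ 2) * artanh r)
      = phi r * (2 * phi r * ((1 + r ^ 2) * artanh r - r) * ent r)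
        / (log 2 * (1 - r ^ 2) * artanh r ^ 2) := by
    field_simp
  rw [e, le_div_iff₀ (by positivity)]
  have := mul_le_mul_of_nonneg_left k2 hphi0
  linarith
where
  phi_nonneg' (x : ℝ) : 0 ≤ phi x := sub_nonneg.mpr (ent_le x)

lemma tZ_lt_one {Hv h : ℝ} (hh : 0 < h) (hlt : h < Hv) : tZ Hv h < 1 := by
  have hc := tC_pos hh hlt.le
  have := div_pos (sub_pos.mpr hlt) log_two_pos'
  rw [tZ, div_lt_one hc]
  unfold tC; linarith

lemma tZ_pos {Hv h : ℝ} (hh : 0 < h) (hle : h ≤ Hv) : 0 < tZ Hv h :=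
  div_pos (div_pos hh (lt_of_lt_of_le hh hle)) (tC_pos hh hle)

lemma tT_eq (Hv h : ℝ) : tT Hv h = tC Hv h * psiD (log 2 * tZ Hv h) := by
  unfold tT tZ; ring_nf

lemma tR_mem {Hv h : ℝ} (hh : 0 < h) (hlt : h < Hv) :
    log 2 * tZ Hv h ∈ Ioo 0 (log 2) ∧ tR Hv h ∈ Ioo (0:ℝ) 1 := by
  have h1 : log 2 * tZ Hv h ∈ Ioo 0 (log 2) :=
    ⟨mul_pos log_two_pos' (tZ_pos hh hlt.le),
      mul_lt_of_lt_one_right log_two_pos' (tZ_lt_one hh hlt)⟩
  exact ⟨h1, rEnt_mem_Ioo_set h1⟩

lemma continuousOn_tT_comp {α : Type} [TopologicalSpace α] {s : Set α} {f g : α → ℝ}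
    (hf : ContinuousOn f s) (hg : ContinuousOn g s) (h : ∀ x ∈ s, 0 < g x ∧ g x ≤ f x) :
    ContinuousOn (fun x => tT (f x) (g x)) s := by
  have hfne : ∀ x ∈ s, f x ≠ 0 := fun x hx => (lt_of_lt_of_le (h x hx).1 (h x hx).2).ne'
  have hu := hg.div hf hfne
  have hc : ContinuousOn (fun x => tC (f x) (g x)) s := ((hf.sub hg).div_const _).add hu
  refine hc.mul (psiD_continuousOn.comp ((continuousOn_const.mul hu).div hc
    fun x hx => (tC_pos (h x hx).1 (h x hx).2).ne') fun x hx => ?_)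
  exact div_pos (mul_pos log_two_pos' (div_pos (h x hx).1 (lt_of_lt_of_le (h x hx).1 (h x hx).2)))
    (tC_pos (h x hx).1 (h x hx).2)

lemma second_deriv_nonneg {l Hv h u c z K χ a cd td B E : ℝ} (hl : 0 < l) (hHl : Hv ≤ l)
    (hh : 0 < h) (hlt : h < Hv) (hu : u = h / Hv) (hc : c = (Hv - h) / l + h / Hv)
    (hz : z = h / Hv / c) (hK : 0 ≤ K) (hχ0 : 0 ≤ χ)
    (hχ : χ ≤ 2 * K * (l * z) * (l * (1 - z)) ^ 2 / l)
    (ha : a = (E * Hv - h * B) / Hv ^ 2) (hcd : cd = (B - E) / l + a)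
    (htd : td = (l * a * c - l * (h / Hv) * cd) / c ^ 2) :
    0 ≤ K * c * td ^ 2 + 2 * χ * (a * B / Hv) := by
  have hHv : 0 < Hv := lt_trans hh hlt
  obtain ⟨η, hη⟩ : ∃ η, η = Hv / l := ⟨_, rfl⟩
  have hη0 : 0 < η := by rw [hη]; positivity
  have hη1 : η ≤ 1 := by rw [hη]; exact (div_le_one hl).mpr hHl
  have hu0 : 0 < u := by rw [hu]; positivity
  have hu1 : u < 1 := by rw [hu]; exact (div_lt_one hHv).mpr hlt
  have hhu : h = u * Hv := by rw [hu]; field_simp
  have hHv' : Hv = η * l := by rw [hη]; field_simp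
  have hcu : c = η * (1 - u) + u := by
    rw [hc, ← hu, hη, hhu]; field_simp
  have hc0 : 0 < c := by
    rw [hcu]; have := mul_pos hη0 (sub_pos.mpr hu1); linarith
  have hzc : z = u / c := by rw [hz, hu]
  have hz0 : 0 < z := by rw [hzc]; positivity
  have hz1 : z < 1 := by
    rw [hzc, div_lt_one hc0, hcu]; linarith [mul_pos hη0 (sub_pos.mpr hu1)]
  have hE : E = a * Hv + u * B := by
    rw [ha, hu]; field_simp; ring
  have e1 : cd = (1 - η) * a + (1 - u) * B / l := by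
    rw [hcd, hE, hHv']; field_simp; ring
  obtain ⟨P, hP⟩ : ∃ P, P = l * (1 - z + z * η) := ⟨_, rfl⟩
  obtain ⟨Q, hQ⟩ : ∃ Q, Q = z * (1 - u) := ⟨_, rfl⟩
  have e2 : c * td = P * a - Q * B := by
    rw [htd, e1, ← hu, hP, hQ, hzc]; field_simp; ring
  have e3 : z * (1 - u) * η = z * c * (1 - z) := by
    have : z * c = u := by rw [hzc]; field_simp
    linear_combination (-z) * hcu + z * this
  have hD : 1 - z ≤ 1 - z + z * η := le_add_of_nonneg_right (mul_pos hz0 hη0).le
  have hM : χ / Hv ≤ 2 * (K / c) * (P * Q) := by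
    rw [div_le_iff₀ hHv]
    refine le_trans hχ ?_
    have e4 : 2 * (K / c) * (P * Q) * Hv = 2 * K * l ^ 2 * z * (1 - z) * (1 - z + z * η) := by
      have e6 : P * Q * Hv = c * (l ^ 2 * z * (1 - z) * (1 - z + z * η)) := by
        rw [hP, hQ, hHv']
        linear_combination l ^ 2 * (1 - z + z * η) * e3
      rw [show 2 * (K / c) * (P * Q) * Hv = 2 * (K / c) * (P * Q * Hv) by ring, e6]
      field_simp
    have e5 : 2 * K * (l * z) * (l * (1 - z)) ^ 2 / l = 2 * K * l ^ 2 * z * (1 - z) * (1 - z) := by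
      field_simp
    rw [e4, e5]
    refine mul_le_mul_of_nonneg_left hD ?_
    have : 0 ≤ 1 - z := by linarith
    positivity
  have e : K * c * td ^ 2 = K / c * (P * a - Q * B) ^ 2 := by
    rw [← e2]; field_simp
  rw [e, show 2 * χ * (a * B / Hv) = 2 * (χ / Hv) * (a * B) by ring]
  have hχv : 0 ≤ χ / Hv := div_nonneg hχ0 hHv.le
  have hKc : 0 ≤ K / c := div_nonneg hK hc0.le
  rcases le_or_gt 0 (a * B) with hab | hab
  · have := mul_nonneg (mul_nonneg two_pos.le hχv) hab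
    have := mul_nonneg hKc (sq_nonneg (P * a - Q * B))
    linarith
  · nlinarith [mul_nonneg hKc (sq_nonneg (P * a + Q * B)),
      mul_le_mul_of_nonpos_right hM hab.le]

/-- Joint convexity, midpoint form. -/
theorem tT_midpoint {H₀ h₀ H₁ h₁ : ℝ} (a0 : 0 < h₀) (b0 : h₀ ≤ H₀) (c0 : H₀ ≤ log 2)
    (a1 : 0 < h₁) (b1 : h₁ ≤ H₁) (c1 : H₁ ≤ log 2) :
    tT ((H₀ + H₁) / 2) ((h₀ + h₁) / 2) ≤ (tT H₀ h₀ + tT H₁ h₁) / 2 := by
  have hl := log_two_pos'
  by_cases hd : h₀ = H₀ ∧ h₁ = H₁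
  · obtain ⟨rfl, rfl⟩ := hd
    rw [tT_self (by linarith), tT_self a0, tT_self a1]; norm_num
  set B := H₁ - H₀ with hB
  set E := h₁ - h₀ with hE
  let Hf : ℝ → ℝ := fun t => H₀ + t * B
  let hf : ℝ → ℝ := fun t => h₀ + t * E
  have hHd : ∀ t, HasDerivAt Hf B t := fun t => (hasDerivAt_mul_const B).const_add H₀
  have hhd : ∀ t, HasDerivAt hf E t := fun t => (hasDerivAt_mul_const E).const_add h₀
  have hHeq : ∀ t, Hf t = (1 - t) * H₀ + t * H₁ := fun t => by simp only [Hf, hB]; ring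
  have hheq : ∀ t, hf t = (1 - t) * h₀ + t * h₁ := fun t => by simp only [hf, hE]; ring
  have hall : ∀ t ∈ Icc (0:ℝ) 1, 0 < hf t ∧ hf t ≤ Hf t ∧ Hf t ≤ log 2 := by
    intro t ht
    rw [hHeq, hheq]
    have s0 : 0 ≤ 1 - t := by linarith [ht.2]
    refine ⟨?_, ?_, ?_⟩
    · rcases eq_or_lt_of_le ht.1 with rfl | ht0
      · simpa using a0
      · have := mul_nonneg s0 a0.le; have := mul_pos ht0 a1; linarith
    · have := mul_le_mul_of_nonneg_left b0 s0; have := mul_le_mul_of_nonneg_left b1 ht.1; linarith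
    · have := mul_le_mul_of_nonneg_left c0 s0; have := mul_le_mul_of_nonneg_left c1 ht.1; linarith
  have hint : ∀ t ∈ Ioo (0:ℝ) 1, hf t < Hf t := by
    intro t ht
    rw [hHeq, hheq]
    rcases lt_or_eq_of_le b0 with h | h
    · have := mul_lt_mul_of_pos_left h (show 0 < 1 - t by linarith [ht.2])
      have := mul_le_mul_of_nonneg_left b1 ht.1.le; linarith
    · have hh : h₁ < H₁ := lt_of_le_of_ne b1 fun e => hd ⟨h, e⟩
      have := mul_lt_mul_of_pos_left hh ht.1
      rw [h]; linarith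
  let a : ℝ → ℝ := fun t => (E * Hf t - hf t * B) / Hf t ^ 2
  let cd : ℝ → ℝ := fun t => (B - E) / log 2 + a t
  let td : ℝ → ℝ := fun t =>
    (log 2 * a t * tC (Hf t) (hf t) - log 2 * (hf t / Hf t) * cd t) / tC (Hf t) (hf t) ^ 2
  have hcont : ContinuousOn (fun t => tT (Hf t) (hf t)) (Icc 0 1) :=
    continuousOn_tT_comp (fun t _ => (hHd t).continuousAt.continuousWithinAt)
      (fun t _ => (hhd t).continuousAt.continuousWithinAt)
      fun t ht => ⟨(hall t ht).1, (hall t ht).2.1⟩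
  have hconv : ConvexOn ℝ (Icc (0:ℝ) 1) (fun t => tT (Hf t) (hf t)) := by
    refine convexOn_of_hasDerivWithinAt2_nonneg (convex_Icc 0 1) hcont
      (f' := fun t => cd t * psiIcpt (tR (Hf t) (hf t))
        - log 2 * a t * psiSlope (tR (Hf t) (hf t)))
      (f'' := fun t => psiSlope' (tR (Hf t) (hf t)) / artanh (tR (Hf t) (hf t))
          * tC (Hf t) (hf t) * td t ^ 2
        + 2 * psiChi (tR (Hf t) (hf t)) * (a t * B / Hf t)) ?_ ?_ ?_
    all_goals
      rw [interior_Icc]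
      intro t ht
      have hp := hall t (Ioo_subset_Icc_self ht)
      have hHv : 0 < Hf t := lt_of_lt_of_le hp.1 hp.2.1
      have hlt := hint t ht
      obtain ⟨hlz, hr⟩ := tR_mem hp.1 hlt
      have hc := tC_pos hp.1 hp.2.1
      have hu : HasDerivAt (fun s => hf s / Hf s) (a t) t := (hhd t).fun_div (hHd t) hHv.ne'
      have hcD : HasDerivAt (fun s => tC (Hf s) (hf s)) (cd t) t :=
        (((hHd t).fun_sub (hhd t)).div_const (log 2)).fun_add hu
      have harg : HasDerivAt (fun s => log 2 * (hf s / Hf s) / tC (Hf s) (hf s)) (td t) t :=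
        (hu.const_mul (log 2)).fun_div hcD hc.ne'
      have earg : log 2 * (hf t / Hf t) / tC (Hf t) (hf t) = log 2 * tZ (Hf t) (hf t) := by
        unfold tZ; ring
      have he : ent (tR (Hf t) (hf t)) = log 2 * tZ (Hf t) (hf t) :=
        ent_rEnt_Icc (Ioo_subset_Icc_self hlz)
    · have h1 : HasDerivAt (fun s => psiD (log 2 * (hf s / Hf s) / tC (Hf s) (hf s)))
          (-psiSlope (tR (Hf t) (hf t)) * td t) t :=
        HasDerivAt.comp (h₂ := psiD) t (by rw [earg]; exact hasDerivAt_psiD_Ioo hlz) harg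
      refine ((hcD.fun_mul h1).congr_deriv ?_).hasDerivWithinAt
      rw [earg]
      unfold psiIcpt
      rw [he]
      unfold psiD tR tZ
      simp only [td]
      field_simp
      ring
    · have hS : HasDerivAt (fun s => -psiSlope (tR (Hf s) (hf s)))
          (psiSlope' (tR (Hf t) (hf t)) / artanh (tR (Hf t) (hf t)) * td t) t := by
        have h0 := HasDerivAt.comp (h₂ := fun x => -psiSlope (rEnt x)) t
          (by rw [earg]; exact hasDerivAt_psiD' hlz) harg
        refine h0.congr_of_eventuallyEq (Filter.Eventually.of_forall fun s => ?_)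
        simp only [Function.comp, tR, tZ]
        ring_nf
      have hP : HasDerivAt (fun s => psiD (log 2 * (hf s / Hf s) / tC (Hf s) (hf s)))
          (-psiSlope (tR (Hf t) (hf t)) * td t) t :=
        HasDerivAt.comp (h₂ := psiD) t (by rw [earg]; exact hasDerivAt_psiD_Ioo hlz) harg
      have hI : HasDerivAt (fun s => psiIcpt (tR (Hf s) (hf s)))
          (-(psiSlope' (tR (Hf t) (hf t)) / artanh (tR (Hf t) (hf t))) * td t
            * (log 2 * (hf t / Hf t) / tC (Hf t) (hf t))) t := by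
        have h0 := hP.fun_sub (hS.fun_mul harg)
        refine (h0.congr_of_eventuallyEq ?_).congr_deriv (by ring)
        filter_upwards [isOpen_Ioo.mem_nhds ht] with s hs
        have hps := hall s (Ioo_subset_Icc_self hs)
        obtain ⟨hlzs, -⟩ := tR_mem hps.1 (hint s hs)
        have hes : ent (tR (Hf s) (hf s)) = log 2 * tZ (Hf s) (hf s) :=
          ent_rEnt_Icc (Ioo_subset_Icc_self hlzs)
        have eargs : log 2 * (hf s / Hf s) / tC (Hf s) (hf s) = log 2 * tZ (Hf s) (hf s) := by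
          unfold tZ; ring
        rw [eargs]
        unfold psiIcpt
        rw [hes]
        unfold psiD tR
        ring
      have hA' : HasDerivAt a (-2 * a t * B / Hf t) t := by
        refine ((((hHd t).const_mul E).fun_sub ((hhd t).mul_const B)).fun_div ((hHd t).fun_pow 2)
          (by positivity)).congr_deriv ?_
        norm_num
        simp only [a]
        field_simp

      have hcd' : HasDerivAt cd (-2 * a t * B / Hf t) t := hA'.const_add _
      refine (((hcd'.fun_mul hI).fun_add ((hA'.const_mul (log 2)).fun_mul hS)).congr_of_eventuallyEq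
        (Filter.Eventually.of_forall fun s => ?_)).congr_deriv ?_ |>.hasDerivWithinAt
      · ring
      · unfold psiChi
        simp only [td]
        field_simp
        ring
    · set r := tR (Hf t) (hf t) with hrdef
      set K := psiSlope' r / artanh r with hKdef
      have hK : 0 ≤ K := by
        have h3 := three_mul_le ⟨hr.1.le, hr.2⟩
        refine div_nonneg (div_nonneg ?_ (sq_nonneg _)) (artanh_pos hr).le
        have := artanh_series ⟨hr.1.le, hr.2⟩
        have := pow_pos hr.1 3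
        have := pow_pos hr.1 5
        have : 0 ≤ r ^ 2 * artanh r := mul_nonneg (sq_nonneg r) (artanh_pos hr).le
        nlinarith
      have hchi := psiChi_le hr
      rw [show phi r = log 2 * (1 - tZ (Hf t) (hf t)) by unfold phi; rw [he]; ring, he,
        ← hKdef] at hchi
      have hchi0 : 0 ≤ psiChi r := by
        have ht := psiD_tangent hr (d := log 2) hl
        rw [psiD_log_two] at ht
        unfold psiChi psiIcpt
        linarith
      exact second_deriv_nonneg hl hp.2.2 hp.1 hlt (u := hf t / Hf t) (c := tC (Hf t) (hf t))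
        (z := tZ (Hf t) (hf t)) (K := K) rfl rfl rfl hK hchi0 hchi rfl rfl rfl
  have h := hconv.2 (left_mem_Icc.mpr zero_le_one) (right_mem_Icc.mpr zero_le_one)
    (show (0:ℝ) ≤ 1 / 2 by norm_num) (show (0:ℝ) ≤ 1 / 2 by norm_num) (by norm_num)
  simp only [smul_eq_mul, Hf, hf, hB, hE] at h
  norm_num at h
  have e1 : H₀ + 1 / 2 * (H₁ - H₀) = (H₀ + H₁) / 2 := by ring
  have e2 : h₀ + 1 / 2 * (h₁ - h₀) = (h₀ + h₁) / 2 := by ring
  rw [e1, e2] at h
  linarith

end Vale.Agent.P322
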