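import Vale.Agent.P322.Basic

/-! Derivative objects of `tT` and the two scalar statements that remain. -/

noncomputable section

namespace Vale.Agent.P322

open Real

/-- `z = u / c`. -/
def tZ (Hv h : ℝ) : ℝ := h / Hv / tC Hv h

/-- The root `r` with `ent r = log 2 * z`. -/
def tR (Hv h : ℝ) : ℝ := rEnt (log 2 * tZ Hv h)

/-- Intercept of the tangent of `psiD` at `ent r`. -/
def psiIcpt (r : ℝ) : ℝ := r * artanh r + psiSlope r * ent r

/-- `χ = log 2 * slope - intercept`. -/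
def psiChi (r : ℝ) : ℝ := log 2 * psiSlope r - psiIcpt r

/-- `-log ((1 + x) / 2)`. -/
def ell (x : ℝ) : ℝ := -log ((1 + x) / 2)

/-- The radial defect `Hv T_Hv + h T_h - T - l T_Hv` of `tT`. -/
def tLam (Hv l h : ℝ) : ℝ :=
  h / Hv * psiChi (tR Hv h) * (1 - l / Hv) - l / log 2 * psiIcpt (tR Hv h)

/-- The scalar inequality Q4. -/
def Q4Stmt : Prop :=
  ∀ c ∈ Set.Ioo (-1 : ℝ) 1, ∀ e ∈ Set.Ioo (-1 : ℝ) 1, ∀ h : ℝ,
    0 < h → h < (ent c + ent e) / 2 →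
    tLam ((ent c + ent e) / 2) ((ell c + ell e) / 2) h
      ≤ tLam (ent ((c + e) / 2)) (ell ((c + e) / 2)) h

/-- The base inequality. -/
def BaseStmt : Prop :=
  ∀ a ∈ Set.Ioo (-1 : ℝ) 1, ∀ b ∈ Set.Ioo (-1 : ℝ) 1,
    tT (ent ((a + b) / 2)) ((ent a + ent b) / 2) ≤ edgeJ a b

end Vale.Agent.P322
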